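import Vale.Agent.P223.H959.Spec
import Vale.Agent.P272.K.INT.Wirt

/-! Block D: the real metric of a Kähler metric has a closed fundamental form. -/

open scoped Manifold ContDiff ComplexOrder Matrix ComplexConjugate Topology
open MeasureTheory

namespace Vale.Agent.P223.H959.KahD

open Vale.Agent.P272.K (Cm Chart IsHermitian IsKahler cHess NefCanonical dz dzb)
open Vale.Agent.P272.K.INT

variable {m : ℕ}

/-- The complex vector of a real basis vector. -/
noncomputable def cv (i : Fin (m + m)) : Cm m := (toReal m).symm (Pi.single i 1)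

theorem cv_left (j : Fin m) : cv (Fin.castAdd m j) = Pi.single j (1 : ℂ) := by
  funext k
  rw [cv, toReal_symm]
  by_cases h : k = j
  · subst h
    rw [Pi.single_eq_same, Pi.single_eq_same, Pi.single_eq_of_ne]
    · rfl
    · intro h
      have := congrArg Fin.val h
      simp at this
      have := k.2
      omega
  · rw [Pi.single_eq_of_ne, Pi.single_eq_of_ne, Pi.single_eq_of_ne h]
    · rfl
    · intro h'
      have := congrArg Fin.val h'
      simp at this
      have := j.2
      omega
    · intro h'
      exact h (Fin.castAdd_injective m m h')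

theorem cv_right (j : Fin m) : cv (Fin.natAdd m j) = Pi.single j Complex.I := by
  funext k
  rw [cv, toReal_symm]
  by_cases h : k = j
  · subst h
    rw [Pi.single_eq_same, Pi.single_eq_same, Pi.single_eq_of_ne]
    · rfl
    · intro h
      have := congrArg Fin.val h
      simp at this
      have := k.2
      omega
  · rw [Pi.single_eq_of_ne, Pi.single_eq_of_ne, Pi.single_eq_of_ne h]
    · rfl
    · intro h'
      exact h (Fin.natAdd_injective m m h')
    · intro h'
      have := congrArg Fin.val h'
      simp at this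
      have := k.2
      omega

/-- The real bilinear form of the fundamental form. -/
theorem omega_apply (H : Matrix (Fin m) (Fin m) ℂ) (j k : Fin (m + m)) :
    ((stdJ m)ᵀ * realM H) j k = -2 * (∑ p, ∑ q, H p q * cv j p * conj (cv k q)).im := by
  have hJ : (stdJ m)ᵀ * realM H = (2 : ℝ) • blk (-H.map Complex.im) (H.map Complex.re)
      (-H.map Complex.re) (-H.map Complex.im) := by
    rw [realM, stdJ, blk, blk, blk, Matrix.mul_smul, Matrix.transpose_submatrix,
      Matrix.submatrix_mul_equiv, Matrix.fromBlocks_transpose, Matrix.fromBlocks_multiply]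
    simp
  rw [hJ]
  refine Fin.addCases (fun j => ?_) (fun j => ?_) j <;>
    refine Fin.addCases (fun k => ?_) (fun k => ?_) k
  all_goals
    simp only [cv_left, cv_right, blk, Matrix.smul_apply, Matrix.submatrix_apply,
      finSumFinEquiv_symm_apply_castAdd, finSumFinEquiv_symm_apply_natAdd,
      Matrix.fromBlocks_apply₁₁, Matrix.fromBlocks_apply₁₂, Matrix.fromBlocks_apply₂₁,
      Matrix.fromBlocks_apply₂₂, Matrix.neg_apply, Matrix.map_apply, Pi.single_apply,
      mul_ite, mul_one, mul_zero, apply_ite conj, map_zero, map_one, Finset.sum_ite_eq', Finset.mem_univ,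
      if_true, smul_eq_mul, Complex.conj_I, ite_mul, zero_mul]
  · ring
  · rw [mul_neg, Complex.neg_im, Complex.mul_I_im]
    ring
  · rw [Complex.mul_I_im]
    ring
  · have e : H j k * Complex.I * -Complex.I = H j k := by
      rw [mul_assoc, mul_neg, Complex.I_mul_I, neg_neg, mul_one]
    rw [e]
    ring

/-- The partial derivatives of the fundamental form. -/
theorem pd_omega (h : Cm m → Matrix (Fin m) (Fin m) ℂ) (x : Fin (m + m) → ℝ)
    (hs : ∀ p q, DifferentiableAt ℝ (fun z => h z p q) ((toReal m).symm x))
    (i j k : Fin (m + m)) :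
    K.pd i (fun y => ((stdJ m)ᵀ * realM (h ((toReal m).symm y))) j k) x =
      -2 * (∑ p, ∑ q, fderiv ℝ (fun z => h z p q) ((toReal m).symm x) (cv i) * cv j p *
        conj (cv k q)).im := by
  unfold K.pd
  have h1 : HasDerivAt (fun t => Function.update x i t) (Pi.single i 1) (x i) :=
    hasDerivAt_update x i (x i)
  have h2 : HasDerivAt (fun t => (toReal m).symm (Function.update x i t)) (cv i) (x i) :=
    (((toReal m).symm : (Fin (m + m) → ℝ) →L[ℝ] Cm m).hasFDerivAt.comp_hasDerivAt (x i) h1)
  have h3 : ∀ p q, HasDerivAt (fun t => h ((toReal m).symm (Function.update x i t)) p q)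
      (fderiv ℝ (fun z => h z p q) ((toReal m).symm x) (cv i)) (x i) := by
    intro p q
    have h4 : HasFDerivAt (fun z => h z p q) (fderiv ℝ (fun z => h z p q) ((toReal m).symm x))
        ((toReal m).symm (Function.update x i (x i))) := by
      rw [Function.update_eq_self]
      exact (hs p q).hasFDerivAt
    exact h4.comp_hasDerivAt (x i) h2
  have h5 : HasDerivAt (fun t => ∑ p, ∑ q, h ((toReal m).symm (Function.update x i t)) p q *
      cv j p * conj (cv k q)) (∑ p, ∑ q, fderiv ℝ (fun z => h z p q) ((toReal m).symm x) (cv i) *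
      cv j p * conj (cv k q)) (x i) :=
    HasDerivAt.fun_sum fun p _ => HasDerivAt.fun_sum fun q _ =>
      ((h3 p q).mul_const _).mul_const _
  have h6 := (Complex.imCLM.hasFDerivAt.comp_hasDerivAt (x i) h5).const_mul (-2 : ℝ)
  have h7 : (fun t => ((stdJ m)ᵀ * realM (h ((toReal m).symm (Function.update x i t)))) j k) =
      fun t => -2 * (Complex.imCLM ∘ fun t => ∑ p, ∑ q,
        h ((toReal m).symm (Function.update x i t)) p q * cv j p * conj (cv k q)) t := by
    funext t
    exact omega_apply _ j k
  rw [h7]
  exact h6.deriv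

/-- The algebraic identity behind the closedness. -/
theorem cyc_im (Z : Fin m → Fin m → Fin m → ℂ) (hZ : ∀ k p q, Z k p q = Z p k q)
    (A : Cm m → Fin m → Fin m → ℂ)
    (hA : ∀ u p q, A u p q = ∑ k, (u k * Z k p q + conj (u k) * conj (Z k q p)))
    (u v w : Cm m) :
    (∑ p, ∑ q, A u p q * v p * conj (w q)).im + (∑ p, ∑ q, A v p q * w p * conj (u q)).im +
      (∑ p, ∑ q, A w p q * u p * conj (v q)).im = 0 := by
  let S : Cm m → Cm m → Cm m → ℂ := fun a b c => ∑ p, ∑ q, ∑ k, Z k p q * a k * b p * conj (c q)
  have hS : ∀ a b c, S a b c = S b a c := by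
    intro a b c
    show ∑ p, ∑ q, ∑ k, Z k p q * a k * b p * conj (c q) =
      ∑ p, ∑ q, ∑ k, Z k p q * b k * a p * conj (c q)
    have e : ∀ a b : Cm m, ∑ p, ∑ q, ∑ k, Z k p q * a k * b p * conj (c q) =
        ∑ q, ∑ p, ∑ k, Z k p q * a k * b p * conj (c q) := fun a b => Finset.sum_comm
    rw [e, e]
    refine Finset.sum_congr rfl fun q _ => ?_
    rw [Finset.sum_comm]
    refine Finset.sum_congr rfl fun p _ => Finset.sum_congr rfl fun k _ => ?_
    rw [hZ]
    ring
  have key : ∀ a b c : Cm m, ∑ p, ∑ q, A a p q * b p * conj (c q) =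
      S a b c + conj (S a c b) := by
    intro a b c
    have e1 : conj (S a c b) = ∑ p, ∑ q, ∑ k, conj (Z k q p) * conj (a k) * conj (c q) * b p := by
      show conj (∑ p, ∑ q, ∑ k, Z k p q * a k * c p * conj (b q)) = _
      rw [Finset.sum_comm]
      simp only [map_sum, map_mul, Complex.conj_conj]
    rw [e1, ← Finset.sum_add_distrib]
    refine Finset.sum_congr rfl fun p _ => ?_
    rw [← Finset.sum_add_distrib]
    refine Finset.sum_congr rfl fun q _ => ?_
    rw [← Finset.sum_add_distrib, hA, Finset.sum_mul, Finset.sum_mul]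
    refine Finset.sum_congr rfl fun k _ => ?_
    ring
  rw [key, key, key, hS v u w, hS w v u, hS w u v]
  simp only [Complex.add_im, Complex.conj_im]
  ring

/-- Block D. -/
theorem specKah : SpecKah := by
  intro m X _ _ _ w hw a p x hx i j k
  obtain ⟨h1, h2⟩ := hx
  have hp : p ∈ (chartAt (Cm m) a).source := by
    have := h1
    simp only [realAtlas, OpenPartialHomeomorph.trans_source] at this
    exact this.1
  have hz : (toReal m).symm x = chartAt (Cm m) a p := by
    rw [← h2]
    exact (toReal m).symm_apply_apply _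
  have hAt : P272.K.At (chartAt (Cm m) a) p := ⟨chart_mem_atlas _ _, hp⟩
  set e := chartAt (Cm m) a with he
  have hs : ∀ r s, DifferentiableAt ℝ (fun z => w e z r s) ((toReal m).symm x) := by
    intro r s
    rw [hz]
    exact (hw.smooth e p hAt r s).differentiableAt (by norm_num)
  show K.pd i (fun y => ((stdJ m)ᵀ * realM (w e ((toReal m).symm y))) j k) x +
    K.pd j (fun y => ((stdJ m)ᵀ * realM (w e ((toReal m).symm y))) k i) x +
    K.pd k (fun y => ((stdJ m)ᵀ * realM (w e ((toReal m).symm y))) i j) x = 0
  rw [pd_omega _ _ hs, pd_omega _ _ hs, pd_omega _ _ hs]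
  have hH : ∀ r s, (fun z => w e z s r) =ᶠ[𝓝 (e p)] fun z => conj (w e z r s) := by
    intro r s
    filter_upwards [e.open_target.mem_nhds (e.map_source hp)] with z hz'
    have h3 := (hw.posDef e (e.symm z) ⟨chart_mem_atlas _ _, e.map_target hz'⟩).isHermitian
    rw [e.right_inv hz'] at h3
    exact (congrFun (congrFun h3 s) r).symm
  have hdz : ∀ r s k, dzb k (fun z => w e z s r) (e p) = conj (dz k (fun z => w e z r s) (e p)) := by
    intro r s k
    rw [dzb_congr (hH r s), dzb_conj]
  have h4 := cyc_im (fun k r s => dz k (fun z => w e z r s) (e p))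
    (fun k r s => hw.closed e p hAt r s k) (fun u r s => fderiv ℝ (fun z => w e z r s) (e p) u)
    (fun u r s => by
      rw [fderiv_apply]
      refine Finset.sum_congr rfl fun k _ => ?_
      rw [hdz s r k]) (cv i) (cv j) (cv k)
  rw [hz]
  linear_combination (-2 : ℝ) * h4

end Vale.Agent.P223.H959.KahD
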