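import Vale.Agent.P223.H959.Spec

/-! Block C1: algebra of the real matrix of a Hermitian matrix. -/

open scoped ComplexOrder Matrix MatrixOrder

namespace Vale.Agent.P223.H959.C

variable {m : ℕ}

/-- The real matrix of a complex matrix (of the map `v ↦ conj H v`). -/
def nM (H : Matrix (Fin m) (Fin m) ℂ) : Matrix (Fin (m + m)) (Fin (m + m)) ℝ :=
  blk (H.map Complex.re) (H.map Complex.im) (-H.map Complex.im) (H.map Complex.re)

theorem realM_eq (H : Matrix (Fin m) (Fin m) ℂ) : realM H = (2 : ℝ) • nM H := rfl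

theorem blk_mul (A B C D A' B' C' D' : Matrix (Fin m) (Fin m) ℝ) :
    blk A B C D * blk A' B' C' D' =
      blk (A * A' + B * C') (A * B' + B * D') (C * A' + D * C') (C * B' + D * D') := by
  unfold blk
  rw [Matrix.submatrix_mul_equiv, Matrix.fromBlocks_multiply]

theorem blk_transpose (A B C D : Matrix (Fin m) (Fin m) ℝ) :
    (blk A B C D)ᵀ = blk Aᵀ Cᵀ Bᵀ Dᵀ := by
  unfold blk
  rw [Matrix.transpose_submatrix, Matrix.fromBlocks_transpose]

theorem map_re_mul (G H : Matrix (Fin m) (Fin m) ℂ) : (G * H).map Complex.re =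
    G.map Complex.re * H.map Complex.re + G.map Complex.im * -H.map Complex.im := by
  ext i j
  simp only [Matrix.map_apply, Matrix.mul_apply, Matrix.add_apply, Complex.re_sum,
    Complex.mul_re, Matrix.neg_apply, ← Finset.sum_add_distrib]
  refine Finset.sum_congr rfl fun k _ => by ring

theorem map_im_mul (G H : Matrix (Fin m) (Fin m) ℂ) : (G * H).map Complex.im =
    G.map Complex.re * H.map Complex.im + G.map Complex.im * H.map Complex.re := by
  ext i j
  simp only [Matrix.map_apply, Matrix.mul_apply, Matrix.add_apply, Complex.im_sum,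
    Complex.mul_im, ← Finset.sum_add_distrib]

theorem nM_mul (G H : Matrix (Fin m) (Fin m) ℂ) : nM (G * H) = nM G * nM H := by
  unfold nM
  rw [blk_mul, map_re_mul, map_im_mul]
  congr 1
  · rw [neg_add_rev, neg_mul, mul_neg]
  · rw [neg_mul, mul_neg, add_comm]

theorem nM_one : nM (1 : Matrix (Fin m) (Fin m) ℂ) = 1 := by
  unfold nM blk
  have h1 : (1 : Matrix (Fin m) (Fin m) ℂ).map Complex.re = 1 := by
    rw [Matrix.map_one _ Complex.zero_re Complex.one_re]
  have h2 : (1 : Matrix (Fin m) (Fin m) ℂ).map Complex.im = 0 := by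
    ext i j
    rw [Matrix.map_apply, Matrix.one_apply]
    split_ifs <;> simp
  rw [h1, h2, neg_zero, Matrix.fromBlocks_one, Matrix.submatrix_one_equiv]

theorem nM_conjTranspose (H : Matrix (Fin m) (Fin m) ℂ) : nM Hᴴ = (nM H)ᵀ := by
  unfold nM
  rw [blk_transpose]
  congr 1
  all_goals
    ext i j
    simp [Matrix.map_apply, Matrix.conjTranspose_apply]

theorem stdJ_eq : stdJ m = nM (-(Complex.I • (1 : Matrix (Fin m) (Fin m) ℂ))) := by
  unfold stdJ nM
  congr 1 <;> ext i j <;>
    simp only [Matrix.map_apply, Matrix.neg_apply, Matrix.smul_apply, Matrix.one_apply] <;>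
    split_ifs <;> simp

theorem nM_neg (H : Matrix (Fin m) (Fin m) ℂ) : nM (-H) = -nM H := by
  ext i j
  unfold nM blk
  simp only [Matrix.submatrix_apply, Matrix.neg_apply]
  rcases finSumFinEquiv.symm i with i' | i' <;> rcases finSumFinEquiv.symm j with j' | j' <;>
    simp

theorem nM_add (G H : Matrix (Fin m) (Fin m) ℂ) : nM (G + H) = nM G + nM H := by
  ext i j
  unfold nM blk
  simp only [Matrix.submatrix_apply, Matrix.add_apply]
  rcases finSumFinEquiv.symm i with i' | i' <;> rcases finSumFinEquiv.symm j with j' | j' <;>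
    simp
  ring

theorem nM_smul (r : ℝ) (H : Matrix (Fin m) (Fin m) ℂ) : nM ((r : ℂ) • H) = r • nM H := by
  ext i j
  unfold nM blk
  simp only [Matrix.submatrix_apply, Matrix.smul_apply]
  rcases finSumFinEquiv.symm i with i' | i' <;> rcases finSumFinEquiv.symm j with j' | j' <;>
    simp

theorem nM_comm (D : Matrix (Fin m) (Fin m) ℂ) : nM D * stdJ m = stdJ m * nM D := by
  rw [stdJ_eq, ← nM_mul, ← nM_mul]
  congr 1
  simp

theorem stdJ_sq : stdJ m * stdJ m = -1 := by
  rw [stdJ_eq, ← nM_mul]
  have h : -(Complex.I • (1 : Matrix (Fin m) (Fin m) ℂ)) * -(Complex.I • 1) = -1 := by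
    simp [smul_smul]
  rw [h, nM_neg, nM_one]

theorem inv_nM (A : Matrix (Fin m) (Fin m) ℂ) : (stdJ m)ᵀ * nM A * stdJ m = nM A := by
  have h1 : (stdJ m)ᵀ = -stdJ m := by
    unfold stdJ
    rw [blk_transpose]
    ext i j
    unfold blk
    simp only [Matrix.submatrix_apply, Matrix.neg_apply]
    rcases finSumFinEquiv.symm i with i' | i' <;> rcases finSumFinEquiv.symm j with j' | j' <;>
      simp
  rw [h1, neg_mul, neg_mul, ← nM_comm, mul_assoc, stdJ_sq]
  simp

theorem nM_posSemidef {A : Matrix (Fin m) (Fin m) ℂ} (hA : A.PosSemidef) :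
    (nM A).PosSemidef := by
  obtain ⟨B, rfl⟩ := CStarAlgebra.nonneg_iff_eq_star_mul_self.mp hA.nonneg
  have h := Matrix.posSemidef_conjTranspose_mul_self (nM B)
  rw [Matrix.conjTranspose_eq_transpose_of_trivial, ← nM_conjTranspose, ← nM_mul] at h
  exact h

theorem nM_isUnit {A : Matrix (Fin m) (Fin m) ℂ} (hA : IsUnit A) : IsUnit (nM A) := by
  obtain ⟨u, rfl⟩ := hA
  exact ⟨⟨nM u, nM (↑u⁻¹ : Matrix (Fin m) (Fin m) ℂ), by rw [← nM_mul, Units.mul_inv, nM_one],
    by rw [← nM_mul, Units.inv_mul, nM_one]⟩, rfl⟩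

theorem nM_posDef {A : Matrix (Fin m) (Fin m) ℂ} (hA : A.PosDef) : (nM A).PosDef :=
  (nM_posSemidef hA.posSemidef).posDef_iff_isUnit.mpr (nM_isUnit hA.isUnit)

theorem det_aux (R S : Matrix (Fin m) (Fin m) ℂ) : (Matrix.fromBlocks R S (-S) R).det =
    (R + Complex.I • S).det * (R - Complex.I • S).det := by
  have h2 : Matrix.fromBlocks (1 : Matrix (Fin m) (Fin m) ℂ) (-(Complex.I • 1)) 0
        (1 : Matrix (Fin m) (Fin m) ℂ) *
      Matrix.fromBlocks R S (-S) R *
      Matrix.fromBlocks (1 : Matrix (Fin m) (Fin m) ℂ) (Complex.I • 1) 0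
        (1 : Matrix (Fin m) (Fin m) ℂ) =
      Matrix.fromBlocks (R + Complex.I • S) 0 (-S) (R - Complex.I • S) := by
    rw [Matrix.fromBlocks_multiply, Matrix.fromBlocks_multiply]
    congr 1
    · simp
    · simp [smul_smul, ← sub_eq_add_neg]
    · simp
    · simp [sub_eq_add_neg, add_comm]
  have h3 := congrArg Matrix.det h2
  rw [Matrix.det_mul, Matrix.det_mul, Matrix.det_fromBlocks_zero₂₁, Matrix.det_fromBlocks_zero₂₁,
    Matrix.det_fromBlocks_zero₁₂, Matrix.det_one] at h3
  rw [← h3]
  ring

/-- The determinant of the real matrix. -/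
theorem nM_det (A : Matrix (Fin m) (Fin m) ℂ) : (nM A).det = Complex.normSq A.det := by
  have h1 : (nM A).det = (Matrix.fromBlocks (A.map Complex.re) (A.map Complex.im)
      (-A.map Complex.im) (A.map Complex.re)).det := by
    unfold nM blk
    rw [Matrix.det_submatrix_equiv_self]
  have e1 : A = (A.map Complex.re).map Complex.ofReal
      + Complex.I • (A.map Complex.im).map Complex.ofReal := by
    ext i j
    simp only [Matrix.map_apply, Matrix.add_apply, Matrix.smul_apply, smul_eq_mul]
    rw [mul_comm, Complex.re_add_im]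
  have e2 : A.map (starRingEnd ℂ) = (A.map Complex.re).map Complex.ofReal
      - Complex.I • (A.map Complex.im).map Complex.ofReal := by
    ext i j
    simp only [Matrix.map_apply, Matrix.sub_apply, Matrix.smul_apply, smul_eq_mul]
    apply Complex.ext <;> simp
  have h3 := det_aux ((A.map Complex.re).map Complex.ofReal) ((A.map Complex.im).map Complex.ofReal)
  rw [← e1, ← e2] at h3
  have h4 : (Matrix.fromBlocks ((A.map Complex.re).map Complex.ofReal)
        ((A.map Complex.im).map Complex.ofReal) (-(A.map Complex.im).map Complex.ofReal)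
        ((A.map Complex.re).map Complex.ofReal)).det
      = (((Matrix.fromBlocks (A.map Complex.re) (A.map Complex.im)
      (-A.map Complex.im) (A.map Complex.re)).det : ℝ) : ℂ) := by
    have h5 := Complex.ofRealHom.map_det (Matrix.fromBlocks (A.map Complex.re) (A.map Complex.im)
      (-A.map Complex.im) (A.map Complex.re))
    rw [Complex.ofRealHom_eq_coe] at h5
    rw [h5]
    congr 1
    rw [RingHom.mapMatrix_apply, Matrix.fromBlocks_map]
    congr 1
    ext i j
    simp
  have h6 : (A.map (starRingEnd ℂ)).det = (starRingEnd ℂ) A.det := by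
    rw [RingHom.map_det]
    rfl
  rw [h4, h6, Complex.mul_conj] at h3
  rw [h1]
  exact_mod_cast h3

end Vale.Agent.P223.H959.C

namespace Vale.Agent.P223.H959

theorem specAlg : SpecAlg where
  sqr _ := C.stdJ_sq
  add m A B := by
    rw [C.realM_eq, C.realM_eq, C.realM_eq, C.nM_add, smul_add]
  smul m r A := by
    rw [C.realM_eq, C.realM_eq, C.nM_smul, smul_comm]
  inv m A := by
    rw [C.realM_eq, mul_smul_comm, smul_mul_assoc, C.inv_nM]
  posDef m A hA := by
    rw [C.realM_eq]
    exact (C.nM_posDef hA).smul (by norm_num)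
  posSemidef m A hA := by
    rw [C.realM_eq]
    exact (C.nM_posSemidef hA).smul (by norm_num)
  det m A hA := by
    rw [C.realM_eq, Matrix.det_smul, C.nM_det, Fintype.card_fin]
    have h1 : A.det.im = 0 := (Complex.pos_iff.mp hA.det_pos).2.symm
    rw [Complex.normSq_apply, h1]
    ring

end Vale.Agent.P223.H959
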