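import Vale.Agent.P223.Bdl.B1
import Vale.Agent.P223.X.DefM
import Mathlib.RingTheory.Norm.Transitivity
import Mathlib.RingTheory.Complex

/-! Hermitian metrics and simplicial volume of the atlases of `K`, in the notation of `J`. -/

open scoped Matrix ContDiff Topology
open MeasureTheory

namespace Vale.Agent.P223.H959

section det
variable {n : ℕ}

/-- A real matrix which commutes with a complex structure has determinant `≥ 0`. -/
theorem det_nonneg_of_comm {JJ D : Matrix (Fin n) (Fin n) ℝ} (hJ : JJ * JJ = -1)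
    (h : D * JJ = JJ * D) : 0 ≤ D.det := by
  have hJ' : (Matrix.toLin' JJ : Module.End ℝ (Fin n → ℝ)) * Matrix.toLin' JJ = -1 := by
    rw [Module.End.mul_eq_comp, ← Matrix.toLin'_mul, hJ, map_neg, Matrix.toLin'_one]
    rfl
  let φ : ℂ →ₐ[ℝ] Module.End ℝ (Fin n → ℝ) := Complex.lift ⟨Matrix.toLin' JJ, hJ'⟩
  have hφ : ∀ (z : ℂ) (v : Fin n → ℝ), φ z v = z.re • v + z.im • (JJ *ᵥ v) := by
    intro z v
    show (algebraMap ℝ (Module.End ℝ (Fin n → ℝ)) z.re + z.im • Matrix.toLin' JJ) v = _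
    rw [LinearMap.add_apply, Module.algebraMap_end_apply, LinearMap.smul_apply,
      Matrix.toLin'_apply]
  let _ : Module ℂ (Fin n → ℝ) := Module.compHom (Fin n → ℝ) φ.toRingHom
  have : IsScalarTower ℝ ℂ (Fin n → ℝ) := ⟨fun r z v => by
    show φ (r • z) v = r • φ z v
    rw [map_smul]; rfl⟩
  let f : (Fin n → ℝ) →ₗ[ℂ] (Fin n → ℝ) :=
    { toFun := fun v => D *ᵥ v
      map_add' := fun v w => Matrix.mulVec_add D v w
      map_smul' := fun z v => by
        show D *ᵥ (φ z v) = φ z (D *ᵥ v)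
        rw [hφ, hφ, Matrix.mulVec_add, Matrix.mulVec_smul, Matrix.mulVec_smul,
          Matrix.mulVec_mulVec, Matrix.mulVec_mulVec, h] }
  have h1 : f.restrictScalars ℝ = Matrix.toLin' D := LinearMap.ext fun v => rfl
  have h2 := LinearMap.det_restrictScalars (R := ℝ) (f := f)
  rw [h1, LinearMap.det_toLin', Algebra.norm_complex_apply] at h2
  rw [h2]
  exact Complex.normSq_nonneg _

/-- The derivative in terms of the Jacobian matrix. -/
theorem fderiv_eq {φ : (Fin n → ℝ) → Fin n → ℝ} {x : Fin n → ℝ}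
    (hφ : ∀ i, DifferentiableAt ℝ (fun z => φ z i) x) (v : Fin n → ℝ) :
    fderiv ℝ φ x v = K.jac φ x *ᵥ v := by
  rw [Kjac_eq hφ]
  ext i
  have h1 : fderiv ℝ φ x v i = fderiv ℝ (fun z => φ z i) x v := by
    rw [fderiv_pi hφ]
    rfl
  rw [h1]
  have h2 := LinearMap.pi_apply_eq_sum_univ (fderiv ℝ (fun z => φ z i) x).toLinearMap v
  refine h2.trans ?_
  show ∑ j, v j • (fderiv ℝ (fun z => φ z i) x) (fun k => if j = k then 1 else 0)
    = ∑ j, pd j (fun z => φ z i) x * v j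
  refine Finset.sum_congr rfl fun j _ => ?_
  rw [smul_eq_mul, mul_comm]
  unfold pd
  congr 2
  ext k
  rw [Pi.single_apply]
  exact if_congr eq_comm rfl rfl

theorem det_fderiv {φ : (Fin n → ℝ) → Fin n → ℝ} {x : Fin n → ℝ}
    (hφ : ∀ i, DifferentiableAt ℝ (fun z => φ z i) x) :
    (fderiv ℝ φ x).det = (K.jac φ x).det := by
  have h1 : ((fderiv ℝ φ x : (Fin n → ℝ) →L[ℝ] (Fin n → ℝ)) : (Fin n → ℝ) →ₗ[ℝ] (Fin n → ℝ))
      = Matrix.toLin' (K.jac φ x) := LinearMap.ext fun v => by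
    rw [Matrix.toLin'_apply]
    exact fderiv_eq hφ v
  show LinearMap.det _ = _
  rw [h1, LinearMap.det_toLin']

theorem bil_eq (A : Matrix (Fin n) (Fin n) ℝ) (v w : Fin n → ℝ) :
    J.bil A v w = v ⬝ᵥ (A *ᵥ w) := by
  unfold J.bil
  simp only [dotProduct, Matrix.mulVec, Finset.mul_sum]
  refine Finset.sum_congr rfl fun i _ => Finset.sum_congr rfl fun j _ => by ring

theorem bil_pull (B D : Matrix (Fin n) (Fin n) ℝ) (v w : Fin n → ℝ) :
    J.bil (Matrix.transpose D * B * D) v w = J.bil B (D *ᵥ v) (D *ᵥ w) := by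
  rw [bil_eq, bil_eq, Matrix.mul_assoc, ← Matrix.mulVec_mulVec, ← Matrix.mulVec_mulVec,
    Matrix.dotProduct_mulVec, Matrix.vecMul_transpose]

end det

section metric
variable {n : ℕ} {X : Type} [TopologicalSpace X] {JJ : Matrix (Fin n) (Fin n) ℝ}
  {c : X → K.Ch n X} {g : X → (Fin n → ℝ) → Matrix (Fin n) (Fin n) ℝ}

/-- A holomorphic atlas is an oriented smooth atlas. -/
theorem atl (hJ : JJ * JJ = -1) (hc : K.Atl JJ c) (hg : K.Herm JJ c g) : J.Atl c := by
  refine fun a => ⟨Katl_mem hc a, fun b p hp hp' => ?_⟩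
  obtain ⟨h1, h2⟩ := (hc a).2 b p (c a p) (c b p) ⟨hp, rfl⟩ ⟨hp', rfl⟩
  have h3 : ContDiffAt ℝ ∞ (K.cm (c a) (c b)) (c a p) := contDiffAt_pi.mpr h1
  refine ⟨h3, ?_⟩
  show 0 < (fderiv ℝ (K.cm (c a) (c b)) (c a p)).det
  rw [det_fderiv fun i => ContDiffAt.differentiableAt (h1 i) (by simp)]
  obtain ⟨-, h4, -, h5⟩ := hg a b p _ _ ⟨hp, rfl⟩ ⟨hp', rfl⟩
  have h6 := h4.det_pos
  rw [h5, Matrix.det_mul, Matrix.det_mul, Matrix.det_transpose] at h6
  refine lt_of_le_of_ne (det_nonneg_of_comm hJ h2) fun h => ?_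
  rw [← h] at h6
  simp at h6

theorem met (hc : K.Atl JJ c) (hg : K.Herm JJ c g) : J.Met c g := by
  intro a p hp
  have h1 := hg a a p _ _ ⟨hp, rfl⟩ ⟨hp, rfl⟩
  refine ⟨h1.1, h1.2.1, fun b hb v w => ?_⟩
  obtain ⟨-, -, -, h2⟩ := hg a b p _ _ ⟨hp, rfl⟩ ⟨hb, rfl⟩
  have h3 : ∀ i, DifferentiableAt ℝ (fun z => K.cm (c a) (c b) z i) (c a p) := fun i =>
    ContDiffAt.differentiableAt (((hc a).2 b p _ _ ⟨hp, rfl⟩ ⟨hb, rfl⟩).1 i) (by simp)
  show J.bil (g a (c a p)) v w = J.bil (g b (c b p)) (fderiv ℝ (K.cm (c a) (c b)) (c a p) v)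
    (fderiv ℝ (K.cm (c a) (c b)) (c a p) w)
  rw [fderiv_eq h3, fderiv_eq h3, h2]
  exact bil_pull _ _ _ _

theorem vol [MeasurableSpace X] [BorelSpace X] {μ : Measure X} (hμ : K.Vol c g μ) :
    J.Vol c g μ := by
  intro a B hB hBm
  have h0 : (c a).symm '' B = Subtype.val '' {p : (c a).source | c a p ∈ B} := by
    ext p
    constructor
    · rintro ⟨x, hx, rfl⟩
      exact ⟨⟨(c a).symm x, (c a).map_target (hB hx)⟩, by
        show c a ((c a).symm x) ∈ B
        rw [(c a).right_inv (hB hx)]; exact hx, rfl⟩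
    · rintro ⟨⟨q, hq⟩, hqB, rfl⟩
      exact ⟨c a q, hqB, (c a).left_inv hq⟩
  have hm : MeasurableSet ((c a).symm '' B) := by
    rw [h0]
    apply (c a).open_source.measurableSet.subtype_image
    have h2 : Continuous (fun x : (c a).source => c a x) := (c a).continuousOn.domRestrict
    exact h2.measurable hBm
  have h1 := hμ a _ hm
  have h2 : {p | p ∈ (c a).symm '' B ∧ ∃ x, K.At (c a) p x} = (c a).symm '' B := by
    ext p
    refine ⟨fun hp => hp.1, fun hp => ⟨hp, ?_⟩⟩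
    obtain ⟨x, hx, rfl⟩ := hp
    exact ⟨x, Kat_symm (hB hx)⟩
  have h3 : {x | ∃ p ∈ (c a).symm '' B, K.At (c a) p x} = B := by
    ext x
    constructor
    · rintro ⟨_, ⟨y, hy, rfl⟩, hpx⟩
      rw [← hpx.2, (c a).right_inv (hB hy)]
      exact hy
    · intro hx
      exact ⟨_, ⟨x, hx, rfl⟩, Kat_symm (hB hx)⟩
  rw [h2, h3, lintegral_indicator hBm] at h1
  exact h1

theorem ricGe (hg : K.Herm JJ c g)
    (hR : ∀ a p x, K.At (c a) p x → (g a x + K.ric (g a) x).PosSemidef) :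
    J.RicGe c g fun _ => 1 := by
  intro a p hp v
  have hx : c a p ∈ (c a).target := (c a).map_source hp
  have h1 := quad_of_posSemidef (hR a p _ ⟨hp, rfl⟩) v
  have h2 : ∀ i j, K.ric (g a) (c a p) i j = J.ric (g a) (c a p) i j := fun i j =>
    Kric_eq (herm_metricOn hg a) (c a).open_target hx i j
  have h3 : ∑ i, ∑ j, v i * v j * (g a (c a p) + K.ric (g a) (c a p)) i j
      = J.bil (g a (c a p)) v v + J.bil (J.ric (g a) (c a p)) v v := by
    unfold J.bil
    simp only [← Finset.sum_add_distrib]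
    refine Finset.sum_congr rfl fun i _ => Finset.sum_congr rfl fun j _ => ?_
    rw [Matrix.add_apply, h2]
    ring
  rw [h3] at h1
  linarith only [h1]

end metric

section sv
variable {n : ℕ} {X : Type} [TopologicalSpace X] {c : X → K.Ch n X}

/-- The two notions of simplices. -/
def eqv (k : ℕ) (X : Type) [TopologicalSpace X] : J.Simp k X ≃ K.Simp k X where
  toFun s := ⟨s.f, s.cont⟩
  invFun s := ⟨s.f, s.cont⟩
  left_inv _ := rfl
  right_inv _ := rfl

/-- The two notions of chains. -/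
noncomputable def tr {k : ℕ} (z : J.Simp k X →₀ ℝ) : K.Simp k X →₀ ℝ :=
  z.equivMapDomain (eqv k X)

theorem bd_tr {k : ℕ} (z : J.Simp (k + 1) X →₀ ℝ) (τ : K.Simp k X) :
    K.bd (tr z) τ = J.bd z ((eqv k X).symm τ) :=
  Finsupp.sum_equivMapDomain _ _ _

theorem isFund {z : J.Simp (n + 1) X →₀ ℝ} (hz : J.IsFund c z) : K.IsFund c (tr z) := by
  classical
  refine ⟨fun τ => by rw [bd_tr]; exact hz.1 _, fun p => ?_⟩
  obtain ⟨s, ⟨e, w, A, he, hA, hs, hp⟩, b, hb⟩ := hz.2 p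
  have hs' : ∀ t, e (s t) = fun j => w j + ∑ i : Fin n, t i.succ * A i j := fun t =>
    funext fun j => (hs t).2 j
  have hcont : Continuous s := by
    have h1 : Continuous fun (t : J.Δ (n + 1)) (j : Fin n) =>
        w j + ∑ i : Fin n, t i.succ * A i j := by
      refine continuous_pi fun j => continuous_const.add (continuous_finsetSum _ fun i _ => ?_)
      exact ((continuous_apply i.succ).comp continuous_subtype_val).mul continuous_const
    have h2 : ∀ t : J.Δ (n + 1), (fun j => w j + ∑ i : Fin n, t i.succ * A i j) ∈ e.target :=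
      fun t => by
        rw [← hs' t]
        exact e.map_source (hs t).1
    have h3 := e.continuousOn_symm.comp_continuous h1 h2
    refine h3.congr fun t => ?_
    show e.symm (fun j => w j + ∑ i : Fin n, t i.succ * A i j) = s t
    rw [← hs' t]
    exact e.left_inv (hs t).1
  refine ⟨⟨s, hcont⟩, tr b, e, w, A, fun a q x y hx hy => ?_, hA, fun t => ⟨(hs t).1, hs' t⟩, hp,
    fun τ hτ => ?_⟩
  · obtain ⟨h1, h2⟩ := he a q hx.1 hy.1
    rw [hx.2] at h1 h2
    have h3 : ∀ i, ContDiffAt ℝ ∞ (fun z => K.cm e (c a) z i) x := fun i => contDiffAt_pi.mp h1 i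
    refine ⟨h3, ?_⟩
    show 0 < (K.jac (K.cm e (c a)) x).det
    rw [← det_fderiv fun i => (h3 i).differentiableAt (by simp)]
    exact h2
  · have h1 := hb ((eqv _ X).symm τ) hτ
    rw [bd_tr]
    show z ((eqv _ X).symm τ) = _
    rw [h1]
    congr 1
    refine if_congr ⟨fun h => ?_, fun h => ?_⟩ rfl rfl
    · obtain ⟨f, hf⟩ := τ
      have h' : f = s := h
      subst h'
      rfl
    · rw [h]; rfl

theorem sv_le : K.sv c ≤ J.sv c := by
  unfold K.sv J.sv
  refine le_iInf fun z => le_iInf fun hz => ?_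
  refine (iInf_le_of_le (tr z) (iInf_le_of_le (isFund hz) le_rfl)).trans (le_of_eq ?_)
  congr 1
  exact Finsupp.sum_equivMapDomain _ _ _

end sv

end Vale.Agent.P223.H959
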