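import Vale.Agent.P223.H959.Alg
import Vale.Agent.P223.H959.Bridge

/-! Block C2: the real charts of a complex manifold form a holomorphic atlas. -/

open scoped Manifold ContDiff ComplexOrder Matrix

namespace Vale.Agent.P223.H959.C

open Vale.Agent.P272.K (Cm Chart IsHermitian jacM dz)

variable {m : ℕ}

theorem nM_mulVec (H : Matrix (Fin m) (Fin m) ℂ) (v : Fin (m + m) → ℝ) :
    nM (H.map (starRingEnd ℂ)) *ᵥ v = toReal m (H *ᵥ (toReal m).symm v) := by
  funext i
  have h1 : ∀ (M : Matrix (Fin m ⊕ Fin m) (Fin m ⊕ Fin m) ℝ) (i : Fin m ⊕ Fin m),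
      (M.submatrix finSumFinEquiv.symm finSumFinEquiv.symm *ᵥ v) (finSumFinEquiv i) =
        ∑ j, M i (Sum.inl j) * v (Fin.castAdd m j) + ∑ j, M i (Sum.inr j) * v (Fin.natAdd m j) := by
    intro M i
    rw [Matrix.mulVec, dotProduct, ← finSumFinEquiv.sum_comp, Fintype.sum_sum_type]
    simp only [Matrix.submatrix_apply, Equiv.symm_apply_apply, finSumFinEquiv_apply_left,
      finSumFinEquiv_apply_right, finSumFinEquiv_symm_apply_castAdd,
      finSumFinEquiv_symm_apply_natAdd]
  refine Fin.addCases (fun j => ?_) (fun j => ?_) i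
  · have h2 := h1 (Matrix.fromBlocks ((H.map (starRingEnd ℂ)).map Complex.re)
      ((H.map (starRingEnd ℂ)).map Complex.im) (-(H.map (starRingEnd ℂ)).map Complex.im)
      ((H.map (starRingEnd ℂ)).map Complex.re)) (Sum.inl j)
    rw [finSumFinEquiv_apply_left] at h2
    rw [toReal_left]
    refine h2.trans ?_
    rw [Matrix.mulVec, dotProduct, Complex.re_sum, ← Finset.sum_add_distrib]
    refine Finset.sum_congr rfl fun k _ => ?_
    rw [toReal_symm]
    simp
    ring
  · have h2 := h1 (Matrix.fromBlocks ((H.map (starRingEnd ℂ)).map Complex.re)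
      ((H.map (starRingEnd ℂ)).map Complex.im) (-(H.map (starRingEnd ℂ)).map Complex.im)
      ((H.map (starRingEnd ℂ)).map Complex.re)) (Sum.inr j)
    rw [finSumFinEquiv_apply_right] at h2
    rw [toReal_right]
    refine h2.trans ?_
    rw [Matrix.mulVec, dotProduct, Complex.im_sum, ← Finset.sum_add_distrib]
    refine Finset.sum_congr rfl fun k _ => ?_
    rw [toReal_symm]
    simp
    ring

section
variable {X : Type} [TopologicalSpace X] [ChartedSpace (Cm m) X]

theorem at_real {a p : X} {x : Fin (m + m) → ℝ} (h : K.At (realAtlas m X a) p x) :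
    p ∈ (chartAt (Cm m) a).source ∧ (toReal m).symm x = chartAt (Cm m) a p := by
  obtain ⟨h1, h2⟩ := h
  refine ⟨?_, ?_⟩
  · have h3 := h1
    unfold realAtlas at h3
    rw [OpenPartialHomeomorph.trans_source] at h3
    exact h3.1
  · rw [← h2]
    exact (toReal m).symm_apply_apply _

theorem cm_real (a b : X) : K.cm (realAtlas m X a) (realAtlas m X b) =
    fun x => toReal m ((chartAt (Cm m) b) ((chartAt (Cm m) a).symm ((toReal m).symm x))) := rfl

variable [IsManifold 𝓘(ℂ, Cm m) ω X]

theorem contDiffAt_change {a b p : X} (ha : p ∈ (chartAt (Cm m) a).source)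
    (hb : p ∈ (chartAt (Cm m) b).source) :
    ContDiffAt ℂ ω (fun z => (chartAt (Cm m) b) ((chartAt (Cm m) a).symm z))
      (chartAt (Cm m) a p) := by
  have h1 := (contDiffGroupoid ω 𝓘(ℂ, Cm m)).compatible (chart_mem_atlas (Cm m) a)
    (chart_mem_atlas (Cm m) b)
  rw [contDiffGroupoid, mem_groupoid_of_pregroupoid] at h1
  have h2 := h1.1
  simp only [contDiffPregroupoid, modelWithCornersSelf_coe, modelWithCornersSelf_coe_symm,
    Function.comp_def, Set.preimage_id, id, Set.range_id, Set.inter_univ] at h2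
  refine h2.contDiffAt ?_
  have h3 : chartAt (Cm m) a p ∈ ((chartAt (Cm m) a).symm.trans (chartAt (Cm m) b)).source := by
    rw [OpenPartialHomeomorph.trans_source]
    refine ⟨(chartAt (Cm m) a).map_source ha, ?_⟩
    show (chartAt (Cm m) a).symm (chartAt (Cm m) a p) ∈ (chartAt (Cm m) b).source
    rw [(chartAt (Cm m) a).left_inv ha]
    exact hb
  exact ((chartAt (Cm m) a).symm.trans (chartAt (Cm m) b)).open_source.mem_nhds h3

omit [ChartedSpace (Cm m) X] [IsManifold 𝓘(ℂ, Cm m) ω X] [TopologicalSpace X] in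
theorem dz_eq {F : Cm m → Cm m} {z : Cm m} (hF : DifferentiableAt ℂ F z) (k i : Fin m) :
    dz k (fun z => F z i) z = fderiv ℂ F z (Pi.single k 1) i := by
  have h1 : HasFDerivAt (fun z => F z i)
      ((ContinuousLinearMap.proj (R := ℝ) (φ := fun _ : Fin m => ℂ) i).comp
        ((fderiv ℂ F z).restrictScalars ℝ)) z :=
    (ContinuousLinearMap.proj (R := ℝ) (φ := fun _ : Fin m => ℂ) i).hasFDerivAt.comp z
      (hF.hasFDerivAt.restrictScalars ℝ)
  unfold dz
  rw [h1.fderiv]
  have h2 : (Pi.single k Complex.I : Cm m) = Complex.I • (Pi.single k 1 : Cm m) := by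
    rw [← Pi.single_smul, smul_eq_mul, mul_one]
  have h3 : ∀ v : Cm m, ((ContinuousLinearMap.proj (R := ℝ) (φ := fun _ : Fin m => ℂ) i).comp
        ((fderiv ℂ F z).restrictScalars ℝ)) v = fderiv ℂ F z v i := fun v => rfl
  rw [h3, h3, h2, map_smul, Pi.smul_apply, smul_eq_mul, ← mul_assoc, Complex.I_mul_I]
  ring

/-- The real Jacobian matrix of a change of real charts. -/
theorem jac_change {a b p : X} {x y : Fin (m + m) → ℝ} (ha : K.At (realAtlas m X a) p x)
    (hb : K.At (realAtlas m X b) p y) :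
    (∀ i, K.Cinf (fun z => K.cm (realAtlas m X a) (realAtlas m X b) z i) x) ∧
    K.jac (K.cm (realAtlas m X a) (realAtlas m X b)) x =
      nM ((jacM (chartAt (Cm m) a) (chartAt (Cm m) b) p).map (starRingEnd ℂ)) := by
  obtain ⟨ha1, ha2⟩ := at_real ha
  obtain ⟨hb1, hb2⟩ := at_real hb
  have h1 := contDiffAt_change ha1 hb1
  rw [← ha2] at h1
  set F : Cm m → Cm m := fun z => (chartAt (Cm m) b) ((chartAt (Cm m) a).symm z) with hF
  have h2 : ContDiffAt ℝ ∞ F ((toReal m).symm x) := (h1.restrict_scalars ℝ).of_le (by simp)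
  have h3 : ContDiffAt ℝ ∞ (K.cm (realAtlas m X a) (realAtlas m X b)) x := by
    rw [cm_real]
    exact (toReal m).contDiff.contDiffAt.comp x
      (h2.comp x (toReal m).symm.contDiff.contDiffAt)
  have h4 : ∀ i, K.Cinf (fun z => K.cm (realAtlas m X a) (realAtlas m X b) z i) x :=
    contDiffAt_pi.mp h3
  refine ⟨h4, ?_⟩
  have h5 : DifferentiableAt ℂ F ((toReal m).symm x) := h1.differentiableAt (by simp)
  have h6 : HasFDerivAt (K.cm (realAtlas m X a) (realAtlas m X b))
      ((toReal m : (Fin m → ℂ) →L[ℝ] (Fin (m + m) → ℝ)).comp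
        (((fderiv ℂ F ((toReal m).symm x)).restrictScalars ℝ).comp
          ((toReal m).symm : (Fin (m + m) → ℝ) →L[ℝ] (Fin m → ℂ)))) x := by
    rw [cm_real]
    exact (toReal m).hasFDerivAt.comp x
      ((h5.hasFDerivAt.restrictScalars ℝ).comp x (toReal m).symm.hasFDerivAt)
  have h7 : ∀ v, K.jac (K.cm (realAtlas m X a) (realAtlas m X b)) x *ᵥ v =
      toReal m (fderiv ℂ F ((toReal m).symm x) ((toReal m).symm v)) := fun v => by
    rw [← fderiv_eq (fun i => ContDiffAt.differentiableAt (h4 i) (by simp)), h6.fderiv]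
    rfl
  have h8 : ∀ v, jacM (chartAt (Cm m) a) (chartAt (Cm m) b) p *ᵥ v =
      fderiv ℂ F ((toReal m).symm x) v := by
    intro v
    funext i
    have h81 : ∀ k, dz k (fun z => F z i) ((toReal m).symm x) =
        fderiv ℂ F ((toReal m).symm x) (Pi.single k 1) i := fun k => dz_eq h5 k i
    have h82 : v = ∑ k, v k • (Pi.single k 1 : Cm m) := by
      conv_lhs => rw [pi_eq_sum_univ' v]
    conv_rhs => rw [h82, map_sum]
    rw [Finset.sum_apply, Matrix.mulVec, dotProduct]
    refine Finset.sum_congr rfl fun k _ => ?_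
    rw [map_smul, Pi.smul_apply, smul_eq_mul, mul_comm, ← h81, ha2]
    rfl
  have h9 : ∀ v, K.jac (K.cm (realAtlas m X a) (realAtlas m X b)) x *ᵥ v =
      nM ((jacM (chartAt (Cm m) a) (chartAt (Cm m) b) p).map (starRingEnd ℂ)) *ᵥ v := fun v => by
    rw [h7, nM_mulVec, h8]
  exact Matrix.toLin'.injective (LinearMap.ext fun v => by
    rw [Matrix.toLin'_apply, Matrix.toLin'_apply, h9])

end

end Vale.Agent.P223.H959.C

namespace Vale.Agent.P223.H959

open Vale.Agent.P272.K (Cm)

theorem specAtl : SpecAtl := by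
  intro m X _ _ _ a
  refine ⟨⟨realAtlas m X a a, ?_, rfl⟩, fun b p x y hx hy => ?_⟩
  · unfold realAtlas
    rw [OpenPartialHomeomorph.trans_source]
    exact ⟨mem_chart_source _ a, Set.mem_univ _⟩
  · obtain ⟨h1, h2⟩ := C.jac_change hx hy
    refine ⟨h1, ?_⟩
    show K.jac _ x * stdJ m = stdJ m * K.jac _ x
    rw [h2]
    exact C.nM_comm _

end Vale.Agent.P223.H959
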