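import Vale.Agent.P223.H959.Spec
import Mathlib.MeasureTheory.Function.Jacobian

/-! Block B: the Riemannian volume measure exists (helper493). -/

open scoped Manifold ContDiff ComplexOrder Matrix Topology ENNReal
open MeasureTheory

namespace Vale.Agent.P223.H959.B

/-- gluing measures (as in `X/Vol.lean`) -/
theorem glue {Y P : Type} [MeasurableSpace Y] [Countable P] [Nonempty P] (A : P → Set Y)
    (hA : ∀ p, MeasurableSet (A p)) (m : P → Measure Y)
    (hm : ∀ p q (S : Set Y), MeasurableSet S → S ⊆ A p → S ⊆ A q → m p S = m q S) :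
    ∃ μ : Measure Y, ∀ p (S : Set Y), MeasurableSet S → S ⊆ A p → μ S = m p S := by
  obtain ⟨e, he⟩ := exists_surjective_nat P
  have hD : ∀ k, MeasurableSet (disjointed (fun k => A (e k)) k) :=
    MeasurableSet.disjointed fun k => hA (e k)
  refine ⟨Measure.sum fun k => (m (e k)).restrict (disjointed (fun k => A (e k)) k),
    fun p S hS hSp => ?_⟩
  rw [Measure.sum_apply _ hS]
  have h1 : ∀ k, ((m (e k)).restrict (disjointed (fun k => A (e k)) k)) S =
      m p (S ∩ disjointed (fun k => A (e k)) k) := fun k => by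
    rw [Measure.restrict_apply hS]
    exact hm _ _ _ (hS.inter (hD k))
      (Set.inter_subset_right.trans (disjointed_subset _ _)) (Set.inter_subset_left.trans hSp)
  simp_rw [h1]
  rw [← measure_iUnion _ fun k => hS.inter (hD k)]
  · congr 1
    rw [← Set.inter_iUnion, iUnion_disjointed]
    refine Set.inter_eq_left.2 fun x hx => ?_
    obtain ⟨k, hk⟩ := he p
    exact Set.mem_iUnion.2 ⟨k, by rw [hk]; exact hSp hx⟩
  · intro k l hkl
    exact ((disjoint_disjointed _ hkl).mono Set.inter_subset_right Set.inter_subset_right)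

variable {n : ℕ} {X : Type} [TopologicalSpace X] [MeasurableSpace X] [BorelSpace X]

/-- the density -/
noncomputable def w (G : (Fin n → ℝ) → Matrix (Fin n) (Fin n) ℝ) (x : Fin n → ℝ) : ℝ≥0∞ :=
  ENNReal.ofReal √(G x).det

/-- the measure of a chart -/
noncomputable def m (e : K.Ch n X) (G : (Fin n → ℝ) → Matrix (Fin n) (Fin n) ℝ) : Measure X :=
  ((volume.restrict e.target).withDensity (w G)).map e.symm

theorem image_meas (e : K.Ch n X) {A : Set X} (hA : MeasurableSet A) (hAe : A ⊆ e.source) :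
    MeasurableSet (e '' A) := by
  have h1 : e '' A = Subtype.val '' {x : e.target | e.symm x ∈ A} := by
    ext x
    constructor
    · rintro ⟨p, hp, rfl⟩
      exact ⟨⟨e p, e.map_source (hAe hp)⟩, by
        show e.symm (e p) ∈ A
        rw [e.left_inv (hAe hp)]; exact hp, rfl⟩
    · rintro ⟨⟨y, hy⟩, hyA, rfl⟩
      exact ⟨e.symm y, hyA, e.right_inv hy⟩
  rw [h1]
  apply e.open_target.measurableSet.subtype_image
  have h2 : Continuous fun x : e.target => e.symm x :=
    e.continuousOn_symm.restrict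
  exact h2.measurable hA

theorem m_apply (e : K.Ch n X) (G : (Fin n → ℝ) → Matrix (Fin n) (Fin n) ℝ) {B : Set X}
    (hB : MeasurableSet B) : m e G B = ∫⁻ x in {x | x ∈ e.target ∧ e.symm x ∈ B}, w G x := by
  have hae : AEMeasurable e.symm (volume.restrict e.target) :=
    e.continuousOn_symm.aemeasurable e.open_target.measurableSet
  unfold m
  rw [Measure.map_apply_of_aemeasurable (hae.mono_ac (withDensity_absolutelyContinuous _ _)) hB,
    withDensity_apply', Measure.restrict_restrict' e.open_target.measurableSet]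
  congr 2
  ext x
  exact and_comm

theorem m_image (e : K.Ch n X) (G : (Fin n → ℝ) → Matrix (Fin n) (Fin n) ℝ) {B : Set X}
    (hB : MeasurableSet B) (hBe : B ⊆ e.source) : m e G B = ∫⁻ x in e '' B, w G x := by
  rw [m_apply e G hB]
  congr 2
  ext x
  constructor
  · rintro ⟨h1, h2⟩
    exact ⟨e.symm x, h2, e.right_inv h1⟩
  · rintro ⟨p, hp, rfl⟩
    exact ⟨e.map_source (hBe hp), by rw [e.left_inv (hBe hp)]; exact hp⟩

theorem m_compat {J : Matrix (Fin n) (Fin n) ℝ} {c : X → K.Ch n X}
    {g : X → (Fin n → ℝ) → Matrix (Fin n) (Fin n) ℝ} (hc : K.Atl J c) (hg : K.Herm J c g)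
    (a b : X) {A : Set X} (hA : MeasurableSet A) (ha : A ⊆ (c a).source)
    (hb : A ⊆ (c b).source) : m (c a) (g a) A = m (c b) (g b) A := by
  rw [m_image _ _ hA ha, m_image _ _ hA hb]
  have hS : MeasurableSet ((c a) '' A) := image_meas (c a) hA ha
  have himg : (c b) '' A = K.cm (c a) (c b) '' ((c a) '' A) := by
    rw [Set.image_image]
    refine Set.image_congr fun p hp => ?_
    unfold K.cm
    rw [(c a).left_inv (ha hp)]
  have hsm : ∀ x ∈ (c a) '' A, ContDiffAt ℝ ∞ (K.cm (c a) (c b)) x := by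
    rintro _ ⟨p, hp, rfl⟩
    have h1 := ((hc a).2 b p _ _ (Kat_coe (ha hp)) (Kat_coe (hb hp))).1
    rw [contDiffAt_pi]
    exact h1
  have hinj : Set.InjOn (K.cm (c a) (c b)) ((c a) '' A) := by
    rintro _ ⟨p, hp, rfl⟩ _ ⟨q, hq, rfl⟩ h
    unfold K.cm at h
    rw [(c a).left_inv (ha hp), (c a).left_inv (ha hq)] at h
    rw [(c b).injOn (hb hp) (hb hq) h]
  rw [himg, lintegral_image_eq_lintegral_abs_det_fderiv_mul volume hS
    (f' := fun x => fderiv ℝ (K.cm (c a) (c b)) x)
    (fun x hx => ((hsm x hx).differentiableAt (by simp)).hasFDerivAt.hasFDerivWithinAt) hinj]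
  refine setLIntegral_congr_fun hS ?_
  rintro _ ⟨p, hp, rfl⟩
  have h2 := (hg a b p _ _ (Kat_coe (ha hp)) (Kat_coe (hb hp))).2.2.2
  have h3 : K.jac (K.cm (c a) (c b)) (c a p) = jac (K.cm (c a) (c b)) (c a p) :=
    Kjac_eq fun i => ((contDiffAt_pi.1 (hsm _ ⟨p, hp, rfl⟩)) i).differentiableAt (by simp)
  have h4 : K.cm (c a) (c b) (c a p) = c b p := by
    unfold K.cm
    rw [(c a).left_inv (ha hp)]
  change w (g a) (c a p) = ENNReal.ofReal |(fderiv ℝ (K.cm (c a) (c b)) (c a p)).det| *
    w (g b) (K.cm (c a) (c b) (c a p))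
  unfold w
  rw [h4, h2, h3, fderiv_det (hsm _ ⟨p, hp, rfl⟩), ← ENNReal.ofReal_mul (abs_nonneg _)]
  congr 1
  exact dens_conj _ _

end Vale.Agent.P223.H959.B

namespace Vale.Agent.P223.H959

open B in
/-- BLOCK B -/
theorem specVol : SpecVol := by
  intro n JJ X _ _ _ _ _ c g hc hg
  rcases isEmpty_or_nonempty X with hX | hX
  · exact ⟨0, fun a => (hX.false a).elim⟩
  obtain ⟨t, -, ht⟩ := isCompact_univ.elim_nhds_subcover (fun a => (c a).source)
    (fun a _ => (c a).open_source.mem_nhds (Katl_mem hc a))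
  have htne : Nonempty t := by
    obtain ⟨x0⟩ := hX
    obtain ⟨a, ha, -⟩ := Set.mem_iUnion₂.1 (ht (Set.mem_univ x0))
    exact ⟨⟨a, ha⟩⟩
  have hcov : ⋃ a : t, (c (a : X)).source = Set.univ := by
    refine Set.eq_univ_of_forall fun x => ?_
    obtain ⟨a, ha, hx⟩ := Set.mem_iUnion₂.1 (ht (Set.mem_univ x))
    exact Set.mem_iUnion.2 ⟨⟨a, ha⟩, hx⟩
  obtain ⟨μ, hμ⟩ := glue (fun a : t => (c (a : X)).source)
    (fun a => (c (a : X)).open_source.measurableSet) (fun a => m (c (a : X)) (g (a : X)))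
    (fun a b S hS h1 h2 => m_compat hc hg a b hS h1 h2)
  refine ⟨μ, fun a B hB => ?_⟩
  have hset : {p | p ∈ B ∧ ∃ x, K.At (c a) p x} = B ∩ (c a).source := by
    ext p
    constructor
    · rintro ⟨h1, x, h2⟩
      exact ⟨h1, h2.1⟩
    · rintro ⟨h1, h2⟩
      exact ⟨h1, _, Kat_coe h2⟩
  have hset2 : {x | ∃ p ∈ B, K.At (c a) p x} = (c a) '' (B ∩ (c a).source) := by
    ext x
    constructor
    · rintro ⟨p, hp, h1, h2⟩
      exact ⟨p, ⟨hp, h1⟩, h2⟩
    · rintro ⟨p, ⟨hp, h1⟩, h2⟩
      exact ⟨p, hp, h1, h2⟩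
  set B' := B ∩ (c a).source with hB'
  have hBm : MeasurableSet B' := hB.inter (c a).open_source.measurableSet
  have hBs : B' ⊆ (c a).source := Set.inter_subset_right
  rw [hset, hset2, lintegral_indicator (image_meas (c a) hBm hBs)]
  have key : μ.restrict B' = (m (c a) (g a)).restrict B' := by
    rw [Measure.ext_iff_of_iUnion_eq_univ hcov]
    intro b
    ext S hS
    have hb := (c (b : X)).open_source.measurableSet
    rw [Measure.restrict_apply hS, Measure.restrict_apply (hS.inter hb),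
      Measure.restrict_apply hS, Measure.restrict_apply (hS.inter hb)]
    have h1 : MeasurableSet (S ∩ (c (b : X)).source ∩ B') := (hS.inter hb).inter hBm
    rw [hμ b _ h1 (fun x hx => hx.1.2)]
    exact m_compat hc hg _ _ h1 (fun x hx => hx.1.2) (fun x hx => hBs hx.2)
  have h5 := congrArg (fun ν : Measure X => ν Set.univ) key
  simp only [Measure.restrict_apply MeasurableSet.univ, Set.univ_inter] at h5
  rw [h5, m_image _ _ hBm hBs]
  rfl

end Vale.Agent.P223.H959
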