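import Vale.Agent.P223.H959.Atl

/-! Block C3: the real metric of a Hermitian metric. -/

open scoped Manifold ContDiff ComplexOrder Matrix

namespace Vale.Agent.P223.H959.C

open Vale.Agent.P272.K (Cm Chart IsHermitian jacM dz)

variable {m : ℕ}

theorem realM_ll (H : Matrix (Fin m) (Fin m) ℂ) (i j : Fin m) :
    realM H (Fin.castAdd m i) (Fin.castAdd m j) = 2 * (H i j).re := by
  simp [realM, blk]

theorem realM_lr (H : Matrix (Fin m) (Fin m) ℂ) (i j : Fin m) :
    realM H (Fin.castAdd m i) (Fin.natAdd m j) = 2 * (H i j).im := by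
  unfold realM blk
  simp only [Matrix.smul_apply, Matrix.submatrix_apply, finSumFinEquiv_symm_apply_castAdd,
    finSumFinEquiv_symm_apply_natAdd, Matrix.fromBlocks_apply₁₂, Matrix.map_apply, smul_eq_mul]

theorem realM_rl (H : Matrix (Fin m) (Fin m) ℂ) (i j : Fin m) :
    realM H (Fin.natAdd m i) (Fin.castAdd m j) = 2 * -(H i j).im := by
  unfold realM blk
  simp only [Matrix.smul_apply, Matrix.submatrix_apply, finSumFinEquiv_symm_apply_castAdd,
    finSumFinEquiv_symm_apply_natAdd, Matrix.fromBlocks_apply₂₁, Matrix.map_apply,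
    Matrix.neg_apply, smul_eq_mul]

theorem realM_rr (H : Matrix (Fin m) (Fin m) ℂ) (i j : Fin m) :
    realM H (Fin.natAdd m i) (Fin.natAdd m j) = 2 * (H i j).re := by
  unfold realM blk
  simp only [Matrix.smul_apply, Matrix.submatrix_apply,
    finSumFinEquiv_symm_apply_natAdd, Matrix.fromBlocks_apply₂₂, Matrix.map_apply, smul_eq_mul]

theorem realM_smooth {W : Cm m → Matrix (Fin m) (Fin m) ℂ} {x : Fin (m + m) → ℝ}
    (h : ∀ i j, ContDiffAt ℝ ∞ (fun z => W z i j) ((toReal m).symm x)) (i j : Fin (m + m)) :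
    K.Cinf (fun y => realM (W ((toReal m).symm y)) i j) x := by
  have h1 : ∀ i j, ContDiffAt ℝ ∞ (fun y => W ((toReal m).symm y) i j) x := fun i j =>
    (h i j).comp x (toReal m).symm.contDiff.contDiffAt
  have hre : ∀ i j, ContDiffAt ℝ ∞ (fun y => (W ((toReal m).symm y) i j).re) x := fun i j =>
    Complex.reCLM.contDiff.contDiffAt.comp x (h1 i j)
  have him : ∀ i j, ContDiffAt ℝ ∞ (fun y => (W ((toReal m).symm y) i j).im) x := fun i j =>
    Complex.imCLM.contDiff.contDiffAt.comp x (h1 i j)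
  unfold K.Cinf
  refine Fin.addCases (fun i => ?_) (fun i => ?_) i <;>
    refine Fin.addCases (fun j => ?_) (fun j => ?_) j
  · simp only [realM_ll]
    exact contDiffAt_const.mul (hre i j)
  · simp only [realM_lr]
    exact contDiffAt_const.mul (him i j)
  · simp only [realM_rl]
    exact contDiffAt_const.mul (him i j).neg
  · simp only [realM_rr]
    exact contDiffAt_const.mul (hre i j)

theorem realM_change (W D : Matrix (Fin m) (Fin m) ℂ) :
    realM (Dᵀ * W * D.map (starRingEnd ℂ)) =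
      (nM (D.map (starRingEnd ℂ)))ᵀ * realM W * nM (D.map (starRingEnd ℂ)) := by
  have h1 : (D.map (starRingEnd ℂ))ᴴ = Dᵀ := by
    ext i j
    simp [Matrix.conjTranspose_apply]
  rw [realM_eq, realM_eq, nM_mul, nM_mul, ← nM_conjTranspose, h1, mul_smul_comm, smul_mul_assoc]

end Vale.Agent.P223.H959.C

namespace Vale.Agent.P223.H959

open Vale.Agent.P272.K (Cm)

theorem specHerm : SpecHerm := by
  intro m X _ _ _ w hw a b p x y ha hb
  obtain ⟨ha1, ha2⟩ := C.at_real ha
  obtain ⟨hb1, hb2⟩ := C.at_real hb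
  have hA : P272.K.At (chartAt (Cm m) a) p := ⟨chart_mem_atlas _ a, ha1⟩
  have hB : P272.K.At (chartAt (Cm m) b) p := ⟨chart_mem_atlas _ b, hb1⟩
  refine ⟨fun i j => ?_, ?_, ?_, ?_⟩
  · refine C.realM_smooth (W := w (chartAt (Cm m) a)) (fun i j => ?_) i j
    rw [ha2]
    exact hw.smooth _ _ hA i j
  · unfold realG
    rw [ha2]
    exact specAlg.posDef m _ (hw.posDef _ _ hA)
  · exact specAlg.inv m _
  · rw [(C.jac_change ha hb).2]
    unfold realG
    rw [ha2, hb2, hw.change _ _ _ hA hB]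
    exact C.realM_change _ _

end Vale.Agent.P223.H959
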