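import Vale.Agent.P223.H959.Spec

/-! Block D: the fundamental form of the real metric of a Kähler metric is closed. -/

open scoped Manifold ContDiff ComplexOrder Matrix ComplexConjugate
open MeasureTheory Filter Topology

namespace Vale.Agent.P223.H959

open Vale.Agent.P272.K (Cm Chart IsHermitian IsKahler dz dzb)

variable {m : ℕ}

/-- real directional derivatives through `∂` and `∂̄` -/
theorem fderiv_eq_dz (f : Cm m → ℂ) (z v : Cm m) :
    fderiv ℝ f z v = ∑ k, (v k * dz k f z + conj (v k) * dzb k f z) := by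
  have hv : v = ∑ k, ((v k).re • (Pi.single k 1 : Cm m) +
      (v k).im • (Pi.single k Complex.I : Cm m)) := by
    funext j
    rw [Finset.sum_apply, Finset.sum_eq_single j]
    · simp only [Pi.add_apply, Pi.smul_apply, Pi.single_eq_same, Complex.real_smul, mul_one]
      exact (Complex.re_add_im (v j)).symm
    · intro k _ hk
      simp only [Pi.add_apply, Pi.smul_apply, Pi.single_eq_of_ne hk.symm, smul_zero, add_zero]
    · intro h
      exact absurd (Finset.mem_univ j) h
  conv_lhs => rw [hv]
  rw [map_sum]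
  refine Finset.sum_congr rfl fun k _ => ?_
  rw [map_add, map_smul, map_smul]
  unfold dz dzb
  generalize fderiv ℝ f z (Pi.single k 1) = D1
  generalize fderiv ℝ f z (Pi.single k Complex.I) = D2
  have h1 : conj (v k) = ((v k).re : ℂ) - ((v k).im : ℂ) * Complex.I := by
    apply Complex.ext <;> simp
  have h2 : v k = ((v k).re : ℂ) + ((v k).im : ℂ) * Complex.I := (Complex.re_add_im (v k)).symm
  rw [h1, Complex.real_smul, Complex.real_smul]
  nth_rewrite 3 [h2]
  linear_combination (((v k).im : ℂ) * D2) * Complex.I_sq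

theorem fderiv_conj_comp {f : Cm m → ℂ} {z : Cm m} (v : Cm m) :
    fderiv ℝ (fun y => conj (f y)) z v = conj (fderiv ℝ f z v) := by
  have h : (fun y => conj (f y)) = fun y => Complex.conjCLE (f y) := rfl
  rw [h]
  have := Complex.conjCLE.comp_fderiv (f := f) (x := z)
  rw [show (fun y => Complex.conjCLE (f y)) = (Complex.conjCLE : ℂ → ℂ) ∘ f from rfl, this]
  rfl

theorem dzb_conj {f : Cm m → ℂ} {z : Cm m} (k : Fin m) :
    dzb k (fun y => conj (f y)) z = conj (dz k f z) := by
  unfold dzb dz
  rw [fderiv_conj_comp, fderiv_conj_comp, map_div₀, map_sub, map_mul, Complex.conj_I]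
  have : conj (2 : ℂ) = 2 := Complex.conj_ofNat 2
  rw [this]
  ring

/-- partial derivatives -/
theorem pd_eq {n : ℕ} {f : (Fin n → ℝ) → ℝ} {x : Fin n → ℝ} (hf : DifferentiableAt ℝ f x)
    (i : Fin n) : K.pd i f x = fderiv ℝ f x (Pi.single i 1) := by
  have h1 : HasDerivAt (Function.update x i) (Pi.single i 1) (x i) := hasDerivAt_update x i (x i)
  have h2 : HasFDerivAt f (fderiv ℝ f x) (Function.update x i (x i)) := by
    rw [Function.update_eq_self]; exact hf.hasFDerivAt
  exact (h2.comp_hasDerivAt (x i) h1).deriv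

/-- the complex vector of the `i`-th real coordinate vector -/
noncomputable def EV (i : Fin (m + m)) : Cm m := (toReal m).symm (Pi.single i 1)

theorem EV_left (j : Fin m) : (EV (Fin.castAdd m j) : Cm m) = Pi.single j 1 := by
  funext p
  unfold EV
  rw [toReal_symm]
  by_cases h : p = j
  · subst h
    rw [Pi.single_eq_same, Pi.single_eq_same, Pi.single_eq_of_ne (by
      intro h; exact absurd (congrArg Fin.val h) (by simp; omega))]
    rfl
  · rw [Pi.single_eq_of_ne h, Pi.single_eq_of_ne (fun h' => h (Fin.castAdd_injective m m h')),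
      Pi.single_eq_of_ne (by
        intro h; exact absurd (congrArg Fin.val h) (by simp; omega))]
    rfl

theorem EV_right (j : Fin m) : (EV (Fin.natAdd m j) : Cm m) = Pi.single j Complex.I := by
  funext p
  unfold EV
  rw [toReal_symm]
  by_cases h : p = j
  · subst h
    rw [Pi.single_eq_same, Pi.single_eq_same, Pi.single_eq_of_ne (by
      intro h; exact absurd (congrArg Fin.val h) (by simp; omega))]
    rfl
  · rw [Pi.single_eq_of_ne h, Pi.single_eq_of_ne (i' := Fin.natAdd m p) (fun h' => h (by
        have := congrArg Fin.val h'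
        simp at this
        exact Fin.ext this)),
      Pi.single_eq_of_ne (by
        intro h; exact absurd (congrArg Fin.val h) (by simp; omega))]
    rfl

theorem blk_ll (A B C D : Matrix (Fin m) (Fin m) ℝ) (i j : Fin m) :
    blk A B C D (Fin.castAdd m i) (Fin.castAdd m j) = A i j := by
  unfold blk
  rw [Matrix.submatrix_apply, finSumFinEquiv_symm_apply_castAdd, finSumFinEquiv_symm_apply_castAdd,
    Matrix.fromBlocks_apply₁₁]

theorem blk_lr (A B C D : Matrix (Fin m) (Fin m) ℝ) (i j : Fin m) :
    blk A B C D (Fin.castAdd m i) (Fin.natAdd m j) = B i j := by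
  unfold blk
  rw [Matrix.submatrix_apply, finSumFinEquiv_symm_apply_castAdd, finSumFinEquiv_symm_apply_natAdd, Matrix.fromBlocks_apply₁₂]

theorem blk_rl (A B C D : Matrix (Fin m) (Fin m) ℝ) (i j : Fin m) :
    blk A B C D (Fin.natAdd m i) (Fin.castAdd m j) = C i j := by
  unfold blk
  rw [Matrix.submatrix_apply, finSumFinEquiv_symm_apply_natAdd, finSumFinEquiv_symm_apply_castAdd, Matrix.fromBlocks_apply₂₁]

theorem blk_rr (A B C D : Matrix (Fin m) (Fin m) ℝ) (i j : Fin m) :
    blk A B C D (Fin.natAdd m i) (Fin.natAdd m j) = D i j := by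
  unfold blk
  rw [Matrix.submatrix_apply, finSumFinEquiv_symm_apply_natAdd, finSumFinEquiv_symm_apply_natAdd,
    Matrix.fromBlocks_apply₂₂]

/-- the fundamental form of the matrix `H` -/
theorem stdJ_mul_realM (H : Matrix (Fin m) (Fin m) ℂ) :
    (stdJ m)ᵀ * realM H = (2 : ℝ) • blk (-H.map Complex.im) (H.map Complex.re)
      (-H.map Complex.re) (-H.map Complex.im) := by
  unfold stdJ realM blk
  rw [Matrix.mul_smul, Matrix.transpose_submatrix, Matrix.submatrix_mul_equiv,
    Matrix.fromBlocks_transpose, Matrix.fromBlocks_multiply]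
  congr 2
  simp

/-- the fundamental form through the complex coordinates -/
theorem form_eq (H : Matrix (Fin m) (Fin m) ℂ) (j k : Fin (m + m)) :
    ((stdJ m)ᵀ * realM H) j k = -2 * (∑ p, ∑ q, H p q * (EV j p * conj (EV k q))).im := by
  rw [stdJ_mul_realM]
  have key : ∀ (a b : Fin m) (s t : ℂ), (∑ p, ∑ q, H p q * ((Pi.single a s : Cm m) p *
      conj ((Pi.single b t : Cm m) q))) = H a b * (s * conj t) := by
    intro a b s t
    rw [Finset.sum_eq_single a, Finset.sum_eq_single b]
    · rw [Pi.single_eq_same, Pi.single_eq_same]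
    · intro q _ hq
      rw [Pi.single_eq_of_ne hq, map_zero, mul_zero, mul_zero]
    · intro h; exact absurd (Finset.mem_univ b) h
    · intro p _ hp
      refine Finset.sum_eq_zero fun q _ => ?_
      rw [Pi.single_eq_of_ne hp, zero_mul, mul_zero]
    · intro h; exact absurd (Finset.mem_univ a) h
  refine Fin.addCases (fun a => ?_) (fun a => ?_) j <;>
  refine Fin.addCases (fun b => ?_) (fun b => ?_) k
  · rw [EV_left, EV_left, key, Matrix.smul_apply, blk_ll]
    simp
  · rw [EV_left, EV_right, key, Matrix.smul_apply, blk_lr]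
    simp
  · rw [EV_right, EV_left, key, Matrix.smul_apply, blk_rl]
    simp
  · rw [EV_right, EV_right, key, Matrix.smul_apply, blk_rr]
    simp

/-- trilinear expression in the first derivatives -/
noncomputable def tri (h : Cm m → Matrix (Fin m) (Fin m) ℂ) (z : Cm m) (U V W : Cm m) : ℂ :=
  ∑ p, ∑ q, (∑ k, U k * dz k (fun y => h y p q) z) * (V p * conj (W q))

theorem tri_comm {h : Cm m → Matrix (Fin m) (Fin m) ℂ} {z : Cm m}
    (hc : ∀ i j k, dz k (fun y => h y i j) z = dz i (fun y => h y k j) z) (U V W : Cm m) :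
    tri h z U V W = tri h z V U W := by
  unfold tri
  rw [Finset.sum_comm, Finset.sum_comm (f := fun p q => (∑ k, V k * dz k (fun y => h y p q) z) *
    (U p * conj (W q)))]
  refine Finset.sum_congr rfl fun q _ => ?_
  simp only [Finset.sum_mul]
  rw [Finset.sum_comm]
  refine Finset.sum_congr rfl fun p _ => Finset.sum_congr rfl fun k _ => ?_
  rw [hc k q p]
  ring

/-- derivative of one coefficient of the fundamental form -/
theorem pd_form {h : Cm m → Matrix (Fin m) (Fin m) ℂ} {x : Fin (m + m) → ℝ}
    (hd : ∀ p q, DifferentiableAt ℝ (fun y => h y p q) ((toReal m).symm x))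
    (hh : ∀ p q, (fun y => h y p q) =ᶠ[𝓝 ((toReal m).symm x)] fun y => conj (h y q p))
    (i j k : Fin (m + m)) :
    K.pd i (fun y => ((stdJ m)ᵀ * realM (h ((toReal m).symm y))) j k) x =
      -2 * ((tri h ((toReal m).symm x) (EV i) (EV j) (EV k)).im -
        (tri h ((toReal m).symm x) (EV i) (EV k) (EV j)).im) := by
  set z := (toReal m).symm x with hz
  have hS : ∀ p q, HasFDerivAt (fun y => h ((toReal m).symm y) p q)
      ((fderiv ℝ (fun y => h y p q) z).comp ((toReal m).symm : (Fin (m + m) → ℝ) →L[ℝ] Cm m)) x :=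
    fun p q => HasFDerivAt.comp (g := fun y => h y p q) x (hd p q).hasFDerivAt
      (toReal m).symm.hasFDerivAt
  have hsum : HasFDerivAt (fun y => ∑ p, ∑ q, h ((toReal m).symm y) p q * (EV j p * conj (EV k q)))
      (∑ p, ∑ q, ((fderiv ℝ (fun y => h y p q) z).comp
        ((toReal m).symm : (Fin (m + m) → ℝ) →L[ℝ] Cm m)).smulRight (EV j p * conj (EV k q))) x := by
    refine HasFDerivAt.fun_sum fun p _ => HasFDerivAt.fun_sum fun q _ => ?_
    exact (hS p q).mul_const' _
  have hf : (fun y => ((stdJ m)ᵀ * realM (h ((toReal m).symm y))) j k) = fun y =>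
      -2 * (Complex.imCLM (∑ p, ∑ q, h ((toReal m).symm y) p q * (EV j p * conj (EV k q)))) := by
    funext y
    rw [form_eq]
    rfl
  rw [hf]
  have hF : HasFDerivAt (fun y =>
      -2 * (Complex.imCLM (∑ p, ∑ q, h ((toReal m).symm y) p q * (EV j p * conj (EV k q)))))
      ((-2 : ℝ) • Complex.imCLM.comp (∑ p, ∑ q, ((fderiv ℝ (fun y => h y p q) z).comp
        ((toReal m).symm : (Fin (m + m) → ℝ) →L[ℝ] Cm m)).smulRight (EV j p * conj (EV k q)))) x :=
    (Complex.imCLM.hasFDerivAt.comp x hsum).const_mul (-2 : ℝ)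
  rw [pd_eq hF.differentiableAt, hF.fderiv]
  have e1 : (∑ p, ∑ q, ((fderiv ℝ (fun y => h y p q) z).comp
        ((toReal m).symm : (Fin (m + m) → ℝ) →L[ℝ] Cm m)).smulRight (EV j p * conj (EV k q)))
        (Pi.single i 1) = ∑ p, ∑ q, fderiv ℝ (fun y => h y p q) z (EV i) *
          (EV j p * conj (EV k q)) := by
    rw [sum_apply]
    refine Finset.sum_congr rfl fun p _ => ?_
    rw [sum_apply]
    rfl
  have e2 : ∀ k' p q, dzb k' (fun y => h y p q) z = conj (dz k' (fun y => h y q p) z) := by
    intro k' p q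
    rw [← dzb_conj]
    unfold dzb
    rw [(hh p q).fderiv_eq]
  have e3 : ∑ p, ∑ q, fderiv ℝ (fun y => h y p q) z (EV i) * (EV j p * conj (EV k q)) =
      tri h z (EV i) (EV j) (EV k) + conj (tri h z (EV i) (EV k) (EV j)) := by
    have e4 : conj (tri h z (EV i) (EV k) (EV j)) = ∑ p, ∑ q,
        (∑ k', conj (EV i k') * dzb k' (fun y => h y p q) z) * (EV j p * conj (EV k q)) := by
      unfold tri
      rw [map_sum, Finset.sum_congr rfl fun p _ => map_sum _ _ _, Finset.sum_comm]
      refine Finset.sum_congr rfl fun p _ => Finset.sum_congr rfl fun q _ => ?_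
      rw [map_mul, map_mul, map_sum, Complex.conj_conj, mul_comm (conj (EV k q))]
      congr 1
      refine Finset.sum_congr rfl fun k' _ => ?_
      rw [map_mul, e2]
    rw [e4]
    unfold tri
    rw [← Finset.sum_add_distrib]
    refine Finset.sum_congr rfl fun p _ => ?_
    rw [← Finset.sum_add_distrib]
    refine Finset.sum_congr rfl fun q _ => ?_
    rw [← add_mul, ← Finset.sum_add_distrib, fderiv_eq_dz]
  rw [smul_apply, ContinuousLinearMap.comp_apply, e1, e3, smul_eq_mul,
    Complex.imCLM_apply, Complex.add_im, Complex.conj_im]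
  ring

/-- **BLOCK D** -/
theorem specKah : SpecKah := by
  intro m X _ _ _ w hw a p x hx i j k
  obtain ⟨hps, hpx⟩ := hx
  have hsrc : (realAtlas m X a).source = (chartAt (Cm m) a).source := by
    unfold realAtlas
    rw [OpenPartialHomeomorph.trans_source]
    simp
  have hp : p ∈ (chartAt (Cm m) a).source := by rw [← hsrc]; exact hps
  have hxz : (toReal m).symm x = chartAt (Cm m) a p := by
    rw [← hpx]
    exact (toReal m).symm_apply_apply _
  have hat : P272.K.At (chartAt (Cm m) a) p := ⟨chart_mem_atlas _ _, hp⟩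
  have hd : ∀ q r, DifferentiableAt ℝ (fun y => w (chartAt (Cm m) a) y q r)
      ((toReal m).symm x) := by
    intro q r
    rw [hxz]
    exact (hw.smooth _ _ hat q r).differentiableAt (by simp)
  have hh : ∀ q r, (fun y => w (chartAt (Cm m) a) y q r) =ᶠ[𝓝 ((toReal m).symm x)]
      fun y => conj (w (chartAt (Cm m) a) y r q) := by
    intro q r
    rw [hxz]
    filter_upwards [(chartAt (Cm m) a).open_target.mem_nhds
      ((chartAt (Cm m) a).map_source hp)] with y hy
    have h1 : P272.K.At (chartAt (Cm m) a) ((chartAt (Cm m) a).symm y) :=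
      ⟨chart_mem_atlas _ _, (chartAt (Cm m) a).map_target hy⟩
    have h2 := (hw.posDef _ _ h1).isHermitian
    rw [(chartAt (Cm m) a).right_inv hy] at h2
    exact (h2.apply q r).symm
  have hc : ∀ i j k, dz k (fun y => w (chartAt (Cm m) a) y i j) ((toReal m).symm x) =
      dz i (fun y => w (chartAt (Cm m) a) y k j) ((toReal m).symm x) := by
    rw [hxz]
    exact hw.closed _ _ hat
  have key := fun i j k => pd_form (h := w (chartAt (Cm m) a)) (x := x) hd hh i j k
  have hT := fun U V W => congrArg Complex.im (tri_comm (h := w (chartAt (Cm m) a)) hc U V W)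
  have e := key i j k
  have e' := key j k i
  have e'' := key k i j
  unfold realG
  rw [e, e', e'', hT (EV i) (EV j) (EV k), hT (EV i) (EV k) (EV j), hT (EV j) (EV k) (EV i)]
  ring

end Vale.Agent.P223.H959
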