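import Vale.Agent.P223.H959.Spec
import Mathlib.Tactic.NoncommRing

/-! Block A: the Ricci tensor of a Kähler metric is symmetric and `J`-invariant. -/

open scoped Matrix ContDiff Topology
open Finset

namespace Vale.Agent.P223.H959.RicJ

variable {n : ℕ}

/-- matrices -/
abbrev Mn (n : ℕ) := Matrix (Fin n) (Fin n) ℝ

/-- smoothness at a point -/
def SmM (M : (Fin n → ℝ) → Mn n) (x : Fin n → ℝ) : Prop := ∀ a b, Sm (fun y => M y a b) x

/-- directional derivative -/
noncomputable def nb (u : Fin n → ℝ) (M : (Fin n → ℝ) → Mn n) (x : Fin n → ℝ) : Mn n :=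
  Matrix.of fun a b => ∑ k, u k * pd k (fun y => M y a b) x

theorem nb_apply (u : Fin n → ℝ) (M : (Fin n → ℝ) → Mn n) (x : Fin n → ℝ) (a b : Fin n) :
    nb u M x a b = ∑ k, u k * pd k (fun y => M y a b) x := rfl

section nabla
variable {M N : (Fin n → ℝ) → Mn n} {x : Fin n → ℝ}

theorem SmM.mul (hM : SmM M x) (hN : SmM N x) : SmM (fun y => M y * N y) x := by
  intro a b
  simp only [Matrix.mul_apply]
  exact Sm.sum fun c _ => (hM a c).mul (hN c b)

theorem SmM.sub (hM : SmM M x) (hN : SmM N x) : SmM (fun y => M y - N y) x := by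
  intro a b
  simp only [Matrix.sub_apply]
  exact (hM a b).sub (hN a b)

theorem SmM.const (A : Mn n) : SmM (fun _ => A) x := fun _ _ => Sm.const _

theorem SmM.nb (hM : SmM M x) (u : Fin n → ℝ) : SmM (fun y => nb u M y) x := by
  intro a b
  simp only [nb_apply]
  exact Sm.sum fun c _ => (Sm.const _).mul ((hM a b).pd c)

theorem nb_mul (hM : SmM M x) (hN : SmM N x) (u : Fin n → ℝ) :
    nb u (fun y => M y * N y) x = nb u M x * N x + M x * nb u N x := by
  ext a b
  rw [nb_apply, Matrix.add_apply, Matrix.mul_apply, Matrix.mul_apply]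
  simp only [Matrix.mul_apply, nb_apply]
  have h1 : ∀ k, pd k (fun y => ∑ c, M y a c * N y c b) x
      = ∑ c, (pd k (fun y => M y a c) x * N x c b + M x a c * pd k (fun y => N y c b) x) := by
    intro k
    rw [pd_sum fun c _ => (hM a c).mul (hN c b)]
    exact Finset.sum_congr rfl fun c _ => pd_mul (hM a c) (hN c b)
  simp only [h1, Finset.mul_sum, Finset.sum_mul]
  rw [Finset.sum_comm, ← Finset.sum_add_distrib]
  refine Finset.sum_congr rfl fun c _ => ?_
  rw [← Finset.sum_add_distrib]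
  refine Finset.sum_congr rfl fun k _ => ?_
  ring

theorem nb_sub (hM : SmM M x) (hN : SmM N x) (u : Fin n → ℝ) :
    nb u (fun y => M y - N y) x = nb u M x - nb u N x := by
  ext a b
  rw [nb_apply, Matrix.sub_apply, nb_apply, nb_apply, ← Finset.sum_sub_distrib]
  refine Finset.sum_congr rfl fun k _ => ?_
  simp only [Matrix.sub_apply]
  rw [pd_sub (hM a b) (hN a b)]
  ring

theorem nb_const (A : Mn n) (u : Fin n → ℝ) : nb u (fun _ => A) x = 0 := by
  ext a b
  rw [nb_apply]
  simp only [pd_const, mul_zero, Finset.sum_const_zero, Matrix.zero_apply]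

theorem nb_const_mul (A : Mn n) (hM : SmM M x) (u : Fin n → ℝ) :
    nb u (fun y => A * M y) x = A * nb u M x := by
  rw [nb_mul (SmM.const A) hM, nb_const, zero_mul, zero_add]

theorem nb_mul_const (A : Mn n) (hM : SmM M x) (u : Fin n → ℝ) :
    nb u (fun y => M y * A) x = nb u M x * A := by
  rw [nb_mul hM (SmM.const A), nb_const, mul_zero, add_zero]

theorem nb_congr (h : M =ᶠ[𝓝 x] N) (u : Fin n → ℝ) : nb u M x = nb u N x := by
  ext a b
  rw [nb_apply, nb_apply]
  refine Finset.sum_congr rfl fun k _ => ?_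
  congr 1
  exact pd_congr (h.mono fun y hy => congrFun (congrFun hy a) b)

theorem nb_comm (hM : SmM M x) (u v : Fin n → ℝ) :
    nb u (fun y => nb v M y) x = nb v (fun y => nb u M y) x := by
  ext a b
  simp only [nb_apply]
  have h1 : ∀ (w : Fin n → ℝ) k, pd k (fun y => ∑ l, w l * pd l (fun z => M z a b) y) x
      = ∑ l, w l * pd k (fun y => pd l (fun z => M z a b) y) x := by
    intro w k
    rw [pd_sum fun l _ => (Sm.const _).mul ((hM a b).pd l)]
    exact Finset.sum_congr rfl fun l _ => pd_const_mul _ ((hM a b).pd l)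
  simp only [h1, Finset.mul_sum]
  rw [Finset.sum_comm]
  refine Finset.sum_congr rfl fun l _ => Finset.sum_congr rfl fun k _ => ?_
  rw [pd_comm (hM a b) k l]
  ring

end nabla

/-- the algebra of the type of the curvature -/
theorem alg {R : Type} [Ring R] {J Jt G Gi S1 S2 T W GJu GJv Gu Gv a' b' a b Γu Γv : R}
    (hJ : J * J = -1) (h2 : ∀ z : R, 2 • z = 0 → z = 0) (hGi : Gi * G = 1)
    (g1 : Jt * G = -(G * J))
    (k1 : S1 - T * J = 2 • (GJu * Γv + G * a')) (k2 : S2 - T * J = 2 • (GJv * Γu + G * b'))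
    (k3 : W - S2 * J = 2 • (Gu * Γv + G * a)) (k4 : W - S1 * J = 2 • (Gv * Γu + G * b))
    (j1 : Jt * S1 = -(S1 * J)) (j2 : Jt * S2 = -(S2 * J))
    (j3 : Jt * GJu = -(GJu * J)) (j4 : Jt * GJv = -(GJv * J))
    (i1 : Gu - GJu * J = 2 • (G * Γu)) (i2 : Gv - GJv * J = 2 • (G * Γv))
    (m1 : Γu * J = J * Γu) (m2 : Γv * J = J * Γv) :
    J * a' - J * b' + J * Γu * (J * Γv) - J * Γv * (J * Γu) = a - b + Γu * Γv - Γv * Γu := by
  have key : 2 • (G * (J * a' - J * b' - (a - b) - 2 • (Γu * Γv - Γv * Γu))) = 0 := by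
    have t1 : 2 • (G * (J * a')) = -(Jt * S1) + Jt * T * J + 2 • (Jt * GJu * Γv) := by
      have : Jt * (S1 - T * J) = Jt * (2 • (GJu * Γv + G * a')) := by rw [k1]
      have h3 : G * (J * a') = -(Jt * G * a') := by rw [g1]; noncomm_ring
      rw [h3]
      have h4 : 2 • (Jt * G * a') = Jt * (2 • (GJu * Γv + G * a')) - 2 • (Jt * GJu * Γv) := by
        noncomm_ring
      rw [smul_neg, h4, ← this]
      noncomm_ring
    have t2 : 2 • (G * (J * b')) = -(Jt * S2) + Jt * T * J + 2 • (Jt * GJv * Γu) := by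
      have : Jt * (S2 - T * J) = Jt * (2 • (GJv * Γu + G * b')) := by rw [k2]
      have h3 : G * (J * b') = -(Jt * G * b') := by rw [g1]; noncomm_ring
      rw [h3]
      have h4 : 2 • (Jt * G * b') = Jt * (2 • (GJv * Γu + G * b')) - 2 • (Jt * GJv * Γu) := by
        noncomm_ring
      rw [smul_neg, h4, ← this]
      noncomm_ring
    have t3 : 2 • (G * (a - b)) = S1 * J - S2 * J - 2 • (Gu * Γv) + 2 • (Gv * Γu) := by
      have h1 : 2 • (G * (a - b)) = 2 • (Gu * Γv + G * a) - 2 • (Gv * Γu + G * b)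
        - 2 • (Gu * Γv) + 2 • (Gv * Γu) := by noncomm_ring
      rw [h1, ← k3, ← k4]
      noncomm_ring
    have t4 : Jt * GJu * Γv = -((Gu - 2 • (G * Γu)) * Γv) := by
      rw [j3, ← i1]; noncomm_ring
    have t5 : Jt * GJv * Γu = -((Gv - 2 • (G * Γv)) * Γu) := by
      rw [j4, ← i2]; noncomm_ring
    have h1 : 2 • (G * (J * a' - J * b' - (a - b) - 2 • (Γu * Γv - Γv * Γu)))
      = 2 • (G * (J * a')) - 2 • (G * (J * b')) - 2 • (G * (a - b))
        - 4 • (G * (Γu * Γv - Γv * Γu)) := by noncomm_ring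
    rw [h1, t1, t2, t3, t4, t5, j1, j2]
    noncomm_ring
  have h3 := h2 _ key
  have h4 : J * a' - J * b' - (a - b) - 2 • (Γu * Γv - Γv * Γu) = 0 := by
    have : Gi * (G * (J * a' - J * b' - (a - b) - 2 • (Γu * Γv - Γv * Γu))) = 0 := by
      rw [h3, mul_zero]
    rwa [← mul_assoc, hGi, one_mul] at this
  have h5 : J * Γu * (J * Γv) = -(Γu * Γv) := by
    rw [mul_assoc, ← mul_assoc Γu, m1, mul_assoc, ← mul_assoc, hJ]; noncomm_ring
  have h6 : J * Γv * (J * Γu) = -(Γv * Γu) := by
    rw [mul_assoc, ← mul_assoc Γv, m2, mul_assoc, ← mul_assoc, hJ]; noncomm_ring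
  rw [h5, h6]
  have h7 : J * a' - J * b' = (a - b) + 2 • (Γu * Γv - Γv * Γu) := by
    have := h4
    rw [sub_sub, sub_eq_zero] at this
    exact this
  rw [h7]
  noncomm_ring

section main
variable {U : Set (Fin n → ℝ)} {g : (Fin n → ℝ) → Mn n} {x : Fin n → ℝ} {J : Mn n}

/-- connection matrices -/
noncomputable def Gm (g : (Fin n → ℝ) → Mn n) (u y : Fin n → ℝ) : Mn n :=
  Matrix.of fun c a => ∑ k, u k * christoffel g y c k a

theorem Gm_apply (u y : Fin n → ℝ) (c a : Fin n) :
    Gm g u y c a = ∑ k, u k * christoffel g y c k a := rfl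

/-- curvature -/
noncomputable def F (g : (Fin n → ℝ) → Mn n) (u v x : Fin n → ℝ) : Mn n :=
  nb u (Gm g v) x - nb v (Gm g u) x + Gm g u x * Gm g v x - Gm g v x * Gm g u x

theorem smGm (hg : IsMetricOn U g) (hU : IsOpen U) (hx : x ∈ U) (u : Fin n → ℝ) :
    SmM (Gm g u) x := fun a b => by
  show Sm (fun y => ∑ k, u k * christoffel g y a k b) x
  exact Sm.sum fun k _ => (Sm.const _).mul (hg.sm_christoffel hU hx a k b)

theorem smG (hg : IsMetricOn U g) (hU : IsOpen U) (hx : x ∈ U) : SmM g x := fun a b =>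
  hg.sm hU hx a b

theorem symmG (hg : IsMetricOn U g) (hx : x ∈ U) : (g x)ᵀ = g x := by
  ext a b
  exact hg.symm hx b a

/-- lowered Christoffel symbols -/
theorem low (hg : IsMetricOn U g) (hx : x ∈ U) (a k b : Fin n) :
    ∑ c, g x a c * christoffel g x c k b = (1 / 2) * (pd k (fun y => g y b a) x
      + pd b (fun y => g y k a) x - pd a (fun y => g y k b) x) := by
  unfold christoffel
  have h1 : ∀ c, g x a c * ((1 / 2) * ∑ d, (g x)⁻¹ c d * (pd k (fun y => g y b d) x
      + pd b (fun y => g y k d) x - pd d (fun y => g y k b) x))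
      = ∑ d, (g x a c * (g x)⁻¹ c d) * ((1 / 2) * (pd k (fun y => g y b d) x
      + pd b (fun y => g y k d) x - pd d (fun y => g y k b) x)) := by
    intro c
    rw [Finset.mul_sum, Finset.mul_sum]
    refine Finset.sum_congr rfl fun d _ => ?_
    ring
  simp only [h1]
  rw [Finset.sum_comm]
  simp only [← Finset.sum_mul]
  have h2 : ∀ d, ∑ c, g x a c * (g x)⁻¹ c d = if a = d then 1 else 0 := by
    intro d
    have := congrFun (congrFun (hg.mul_inv hx) a) d
    rwa [Matrix.mul_apply, Matrix.one_apply] at this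
  simp only [h2]
  simp

/-- the metric is parallel -/
theorem compat (hg : IsMetricOn U g) (hU : IsOpen U) (hx : x ∈ U) (u : Fin n → ℝ) :
    nb u g x = g x * Gm g u x + (Gm g u x)ᵀ * g x := by
  ext a b
  rw [nb_apply, Matrix.add_apply, Matrix.mul_apply, Matrix.mul_apply]
  simp only [Gm_apply, Matrix.transpose_apply, Finset.mul_sum, Finset.sum_mul]
  rw [Finset.sum_comm, Finset.sum_comm (f := fun c k => u k * christoffel g x c k a * g x c b),
    ← Finset.sum_add_distrib]
  refine Finset.sum_congr rfl fun k _ => ?_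
  have h1 := low hg hx a k b
  have h2 := low hg hx b k a
  have h3 : ∑ c, g x a c * (u k * christoffel g x c k b)
      = u k * ∑ c, g x a c * christoffel g x c k b := by
    rw [Finset.mul_sum]
    exact Finset.sum_congr rfl fun c _ => by ring
  have h4 : ∑ c, u k * christoffel g x c k a * g x c b
      = u k * ∑ c, g x b c * christoffel g x c k a := by
    rw [Finset.mul_sum]
    refine Finset.sum_congr rfl fun c _ => ?_
    rw [hg.symm hx c b]
    ring
  rw [h3, h4, h1, h2, ← mul_add]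
  have hs : ∀ d p q, pd d (fun y => g y p q) x = pd d (fun y => g y q p) x := by
    intro d p q
    apply pd_congr
    filter_upwards [hU.mem_nhds hx] with y hy
    exact hg.symm hy p q
  congr 1
  rw [hs b k a, hs k b a, hs a k b, hs b a k]
  ring

section J
variable (hg : IsMetricOn U g) (hU : IsOpen U) (hJ : J * J = -1)
  (hH : ∀ x ∈ U, Jᵀ * g x * J = g x)
  (hK : ∀ x ∈ U, ∀ a b c, pd a (fun y => (Jᵀ * g y) b c) x + pd b (fun y => (Jᵀ * g y) c a) x
      + pd c (fun y => (Jᵀ * g y) a b) x = 0)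

include hg hU hJ hH hK

theorem Gm_J (hx : x ∈ U) (u : Fin n → ℝ) : Gm g u x * J = J * Gm g u x := by
  ext c b
  rw [Matrix.mul_apply, Matrix.mul_apply]
  simp only [Gm_apply, Finset.sum_mul, Finset.mul_sum]
  rw [Finset.sum_comm, Finset.sum_comm (f := fun e k => J c e * (u k * christoffel g x e k b))]
  refine Finset.sum_congr rfl fun k _ => ?_
  have h1 := hg.christoffel_J hU hx hJ hH hK c b k
  have h2 : ∑ a, u k * christoffel g x c k a * J a b = u k * ∑ d, J d b * christoffel g x c d k := by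
    rw [Finset.mul_sum]
    refine Finset.sum_congr rfl fun d _ => ?_
    rw [hg.christoffel_symm hU hx c k d]
    ring
  have h3 : ∑ e, J c e * (u k * christoffel g x e k b) = u k * ∑ e, J c e * christoffel g x e b k := by
    rw [Finset.mul_sum]
    refine Finset.sum_congr rfl fun d _ => ?_
    rw [hg.christoffel_symm hU hx d k b]
    ring
  rw [h2, h3, h1]

theorem Gm_Ju (hx : x ∈ U) (u : Fin n → ℝ) : Gm g (J *ᵥ u) x = J * Gm g u x := by
  ext c a
  rw [Matrix.mul_apply]
  simp only [Gm_apply, Matrix.mulVec, dotProduct, Finset.sum_mul, Finset.mul_sum]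
  rw [Finset.sum_comm, Finset.sum_comm (f := fun e k => J c e * (u k * christoffel g x e k a))]
  refine Finset.sum_congr rfl fun k _ => ?_
  have h1 := hg.christoffel_J hU hx hJ hH hK c k a
  have h2 : ∑ b, J b k * u k * christoffel g x c b a = u k * ∑ d, J d k * christoffel g x c d a := by
    rw [Finset.mul_sum]
    exact Finset.sum_congr rfl fun d _ => by ring
  have h3 : ∑ e, J c e * (u k * christoffel g x e k a) = u k * ∑ e, J c e * christoffel g x e k a := by
    rw [Finset.mul_sum]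
    exact Finset.sum_congr rfl fun d _ => by ring
  rw [h2, h3, h1]

omit hU hK in
theorem JtG (hx : x ∈ U) : Jᵀ * g x = -(g x * J) := by
  have h1 := hH x hx
  have h2 : Jᵀ * g x * J * J = g x * J := by rw [h1]
  rw [Matrix.mul_assoc, hJ] at h2
  rw [← h2]
  simp

/-- the connection in terms of the metric -/
theorem kid (hx : x ∈ U) (u : Fin n → ℝ) :
    nb u g x - nb (J *ᵥ u) g x * J = 2 • (g x * Gm g u x) := by
  rw [compat hg hU hx, compat hg hU hx, Gm_Ju hg hU hJ hH hK hx, Matrix.transpose_mul]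
  have h1 := JtG hg hJ hH hx
  have h2 := Gm_J hg hU hJ hH hK hx u
  have h3 : (g x * (J * Gm g u x) + (Gm g u x)ᵀ * Jᵀ * g x) * J
      = g x * (J * (Gm g u x * J)) + (Gm g u x)ᵀ * (Jᵀ * g x) * J := by
    simp only [Matrix.add_mul, Matrix.mul_assoc]
  rw [h3, h1, h2]
  have h4 : g x * (J * (J * Gm g u x)) = -(g x * Gm g u x) := by
    rw [← Matrix.mul_assoc J, hJ]; simp
  have h5 : (Gm g u x)ᵀ * -(g x * J) * J = (Gm g u x)ᵀ * g x := by
    rw [Matrix.mul_neg, Matrix.neg_mul, Matrix.mul_assoc, Matrix.mul_assoc, hJ]; simp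
  rw [h4, h5, two_smul]
  abel

theorem JtD (hx : x ∈ U) (u : Fin n → ℝ) : Jᵀ * nb u g x = -(nb u g x * J) := by
  have h1 : (fun y => Jᵀ * g y) =ᶠ[𝓝 x] fun y => g y * (-J) := by
    filter_upwards [hU.mem_nhds hx] with y hy
    rw [JtG hg hJ hH hy, mul_neg]
  rw [← nb_const_mul _ (smG hg hU hx), nb_congr h1, nb_mul_const _ (smG hg hU hx), mul_neg]

theorem JtDD (hx : x ∈ U) (u v : Fin n → ℝ) :
    Jᵀ * nb u (fun y => nb v g y) x = -(nb u (fun y => nb v g y) x * J) := by
  have hs := (smG hg hU hx).nb v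
  have h1 : (fun y => Jᵀ * nb v g y) =ᶠ[𝓝 x] fun y => nb v g y * (-J) := by
    filter_upwards [hU.mem_nhds hx] with y hy
    rw [JtD hg hU hJ hH hK hy, mul_neg]
  rw [← nb_const_mul _ hs, nb_congr h1, nb_mul_const _ hs, mul_neg]

theorem kidD (hx : x ∈ U) (u v : Fin n → ℝ) :
    nb v (fun y => nb u g y) x - nb v (fun y => nb (J *ᵥ u) g y) x * J
      = 2 • (nb v g x * Gm g u x + g x * nb v (Gm g u) x) := by
  have hs := smG hg hU hx
  have hG := smGm hg hU hx u
  have h1 : (fun y => nb u g y - nb (J *ᵥ u) g y * J) =ᶠ[𝓝 x] fun y => (2 : Mn n) * (g y * Gm g u y) := by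
    filter_upwards [hU.mem_nhds hx] with y hy
    rw [kid hg hU hJ hH hK hy, two_smul, two_mul]
  have h2 : SmM (fun y => nb (J *ᵥ u) g y * J) x := (hs.nb _).mul (SmM.const J)
  have h3 := nb_congr h1 v
  rw [nb_sub (hs.nb u) h2, nb_mul_const J (hs.nb _), nb_const_mul _ (hs.mul hG), nb_mul hs hG] at h3
  rw [h3, two_smul, two_mul]

/-- the curvature is of type `(1,1)` -/
theorem F_J (hx : x ∈ U) (u v : Fin n → ℝ) : F g (J *ᵥ u) (J *ᵥ v) x = F g u v x := by
  have hs := smG hg hU hx
  have e1 : ∀ w z : Fin n → ℝ, nb w (Gm g (J *ᵥ z)) x = J * nb w (Gm g z) x := by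
    intro w z
    have h1 : Gm g (J *ᵥ z) =ᶠ[𝓝 x] fun y => J * Gm g z y := by
      filter_upwards [hU.mem_nhds hx] with y hy
      exact Gm_Ju hg hU hJ hH hK hy z
    rw [nb_congr h1, nb_const_mul _ (smGm hg hU hx z)]
  unfold F
  rw [e1, e1, Gm_Ju hg hU hJ hH hK hx, Gm_Ju hg hU hJ hH hK hx]
  have k1 := kidD hg hU hJ hH hK hx v (J *ᵥ u)
  have k2 := kidD hg hU hJ hH hK hx u (J *ᵥ v)
  have k3 := kidD hg hU hJ hH hK hx v u
  have k4 := kidD hg hU hJ hH hK hx u v
  have c1 := nb_comm hs v (J *ᵥ u)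
  have c2 := nb_comm hs u (J *ᵥ v)
  have c3 := nb_comm hs (J *ᵥ v) (J *ᵥ u)
  have c4 := nb_comm hs v u
  have j1 := JtDD hg hU hJ hH hK hx (J *ᵥ u) v
  have j2 := JtDD hg hU hJ hH hK hx (J *ᵥ v) u
  have j3 := JtD hg hU hJ hH hK hx (J *ᵥ u)
  have j4 := JtD hg hU hJ hH hK hx (J *ᵥ v)
  have i1 := kid hg hU hJ hH hK hx u
  have i2 := kid hg hU hJ hH hK hx v
  have m1 := Gm_J hg hU hJ hH hK hx u
  have m2 := Gm_J hg hU hJ hH hK hx v
  have g1 := JtG hg hJ hH hx
  have hGi := hg.inv_mul hx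
  rw [c1] at k4
  rw [c2] at k3
  rw [c3] at k2
  rw [c4] at k4
  generalize nb (J *ᵥ u) (fun y => nb v g y) x = S1 at *
  generalize nb (J *ᵥ v) (fun y => nb u g y) x = S2 at *
  generalize nb (J *ᵥ u) (fun y => nb (J *ᵥ v) g y) x = T at *
  generalize nb u (fun y => nb v g y) x = W at *
  generalize nb (J *ᵥ u) g x = GJu at *
  generalize nb (J *ᵥ v) g x = GJv at *
  generalize nb u g x = Gu at *
  generalize nb v g x = Gv at *
  generalize nb (J *ᵥ u) (Gm g v) x = a' at *
  generalize nb (J *ᵥ v) (Gm g u) x = b' at *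
  generalize nb u (Gm g v) x = a at *
  generalize nb v (Gm g u) x = b at *
  generalize Gm g u x = Γu at *
  generalize Gm g v x = Γv at *
  generalize (g x)⁻¹ = Gi at *
  generalize g x = G at *
  refine alg hJ (fun z hz => ?_) hGi g1 k1 k2 k3 k4 j1 j2 j3 j4 i1 i2 m1 m2
  have h1 : (2 : ℝ) • z = 0 := by rw [two_smul] at hz ⊢; exact hz
  exact (smul_eq_zero.mp h1).resolve_left two_ne_zero

omit hU hJ hH hK in
theorem nb_sum_dir (M : (Fin n → ℝ) → Mn n) (u : Fin n → ℝ) :
    nb u M x = ∑ k, u k • nb (Pi.single k 1) M x := by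
  ext a b
  rw [nb_apply, Matrix.sum_apply]
  refine Finset.sum_congr rfl fun k _ => ?_
  rw [Matrix.smul_apply, nb_apply, Finset.sum_eq_single k]
  · simp
  · intro l _ hl; simp [hl]
  · intro h; exact absurd (Finset.mem_univ _) h

omit hU hJ hH hK in
theorem Gm_sum_dir (u y : Fin n → ℝ) :
    Gm g u y = ∑ k, u k • Gm g (Pi.single k 1) y := by
  ext a b
  rw [Gm_apply, Matrix.sum_apply]
  refine Finset.sum_congr rfl fun k _ => ?_
  rw [Matrix.smul_apply, Gm_apply, Finset.sum_eq_single k]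
  · simp
  · intro l _ hl; simp [hl]
  · intro h; exact absurd (Finset.mem_univ _) h

omit hJ hH hK in
theorem nb_Gm_sum (hx : x ∈ U) (u v : Fin n → ℝ) :
    nb u (Gm g v) x = ∑ l, v l • nb u (Gm g (Pi.single l 1)) x := by
  ext a b
  rw [nb_apply, Matrix.sum_apply]
  have h1 : ∀ k, pd k (fun y => Gm g v y a b) x
      = ∑ l, v l * pd k (fun y => Gm g (Pi.single l 1) y a b) x := by
    intro k
    have h2 : (fun y => Gm g v y a b) = fun y => ∑ l, v l * Gm g (Pi.single l 1) y a b := by
      funext y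
      rw [Gm_sum_dir hg v y, Matrix.sum_apply]
      rfl
    rw [h2, pd_sum fun l _ => (Sm.const _).mul (smGm hg hU hx _ a b)]
    exact Finset.sum_congr rfl fun l _ => pd_const_mul _ (smGm hg hU hx _ a b)
  simp only [h1, Finset.mul_sum]
  rw [Finset.sum_comm]
  refine Finset.sum_congr rfl fun l _ => ?_
  rw [Matrix.smul_apply, nb_apply, smul_eq_mul, Finset.mul_sum]
  refine Finset.sum_congr rfl fun k _ => ?_
  ring

omit hJ hH hK in
/-- the curvature is bilinear -/
theorem F_sum (hx : x ∈ U) (u v : Fin n → ℝ) :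
    F g u v x = ∑ k, ∑ l, (u k * v l) • F g (Pi.single k 1) (Pi.single l 1) x := by
  have h1 : nb u (Gm g v) x
      = ∑ k, ∑ l, (u k * v l) • nb (Pi.single k 1) (Gm g (Pi.single l 1)) x := by
    rw [nb_sum_dir hg _ u]
    refine Finset.sum_congr rfl fun k _ => ?_
    rw [nb_Gm_sum hg hU hx, Finset.smul_sum]
    exact Finset.sum_congr rfl fun l _ => by rw [smul_smul]
  have h2 : nb v (Gm g u) x
      = ∑ k, ∑ l, (u k * v l) • nb (Pi.single l 1) (Gm g (Pi.single k 1)) x := by
    rw [nb_sum_dir hg _ v, Finset.sum_comm]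
    refine Finset.sum_congr rfl fun l _ => ?_
    rw [nb_Gm_sum hg hU hx, Finset.smul_sum]
    exact Finset.sum_congr rfl fun k _ => by rw [smul_smul, mul_comm]
  have h3 : Gm g u x * Gm g v x
      = ∑ k, ∑ l, (u k * v l) • (Gm g (Pi.single k 1) x * Gm g (Pi.single l 1) x) := by
    rw [Gm_sum_dir hg u x, Gm_sum_dir hg v x, Finset.sum_mul]
    refine Finset.sum_congr rfl fun k _ => ?_
    rw [Finset.mul_sum]
    exact Finset.sum_congr rfl fun l _ => by rw [Matrix.smul_mul, Matrix.mul_smul, smul_smul]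
  have h4 : Gm g v x * Gm g u x
      = ∑ k, ∑ l, (u k * v l) • (Gm g (Pi.single l 1) x * Gm g (Pi.single k 1) x) := by
    rw [Gm_sum_dir hg u x, Gm_sum_dir hg v x, Finset.sum_mul, Finset.sum_comm]
    refine Finset.sum_congr rfl fun l _ => ?_
    rw [Finset.mul_sum]
    exact Finset.sum_congr rfl fun k _ => by
      rw [Matrix.smul_mul, Matrix.mul_smul, smul_smul, mul_comm]
  unfold F
  rw [h1, h2, h3, h4]
  simp only [← Finset.sum_sub_distrib, ← Finset.sum_add_distrib, ← smul_sub, ← smul_add]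

omit hU hJ hH hK in
theorem Gm_single (k c a : Fin n) (y : Fin n → ℝ) :
    Gm g (Pi.single k 1) y c a = christoffel g y c k a := by
  rw [Gm_apply, Finset.sum_eq_single k]
  · simp
  · intro l _ hl; simp [hl]
  · intro h; exact absurd (Finset.mem_univ _) h

omit hJ hH hK in
/-- the Ricci tensor in terms of the curvature -/
theorem ricci_eq (hx : x ∈ U) (a b : Fin n) :
    ricci g x a b = ∑ c, F g (Pi.single c 1) (Pi.single b 1) x c a := by
  have hn : ∀ (k l c a : Fin n), nb (Pi.single k 1) (Gm g (Pi.single l 1)) x c a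
      = pd k (fun y => christoffel g y c l a) x := by
    intro k l c a
    rw [nb_apply, Finset.sum_eq_single k]
    · simp only [Pi.single_eq_same, one_mul, Gm_single hg]
    · intro l _ hl; simp [hl]
    · intro h; exact absurd (Finset.mem_univ _) h
  unfold ricci
  rw [← Finset.sum_add_distrib]
  refine Finset.sum_congr rfl fun c _ => ?_
  unfold F
  rw [Matrix.sub_apply, Matrix.add_apply, Matrix.sub_apply, Matrix.mul_apply, Matrix.mul_apply,
    hn, hn]
  simp only [Gm_single hg]
  have e1 : pd c (fun y => christoffel g y c a b) x = pd c (fun y => christoffel g y c b a) x := by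
    apply pd_congr
    filter_upwards [hU.mem_nhds hx] with y hy
    exact hg.christoffel_symm hU hy c a b
  have e2 : pd b (fun y => christoffel g y c a c) x = pd b (fun y => christoffel g y c c a) x := by
    apply pd_congr
    filter_upwards [hU.mem_nhds hx] with y hy
    exact hg.christoffel_symm hU hy c a c
  rw [e1, e2, Finset.sum_sub_distrib]
  have e3 : ∑ d, christoffel g x c c d * christoffel g x d a b
      = ∑ d, christoffel g x c c d * christoffel g x d b a :=
    Finset.sum_congr rfl fun d _ => by rw [hg.christoffel_symm hU hx d a b]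
  have e4 : ∑ d, christoffel g x c b d * christoffel g x d a c
      = ∑ d, christoffel g x c b d * christoffel g x d c a :=
    Finset.sum_congr rfl fun d _ => by rw [hg.christoffel_symm hU hx d a c]
  rw [e3, e4]
  ring

theorem F_comm (hx : x ∈ U) (u v : Fin n → ℝ) : F g u v x * J = J * F g u v x := by
  have hd : ∀ w z : Fin n → ℝ, nb w (Gm g z) x * J = J * nb w (Gm g z) x := by
    intro w z
    have h1 : (fun y => Gm g z y * J) =ᶠ[𝓝 x] fun y => J * Gm g z y := by
      filter_upwards [hU.mem_nhds hx] with y hy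
      exact Gm_J hg hU hJ hH hK hy z
    rw [← nb_mul_const _ (smGm hg hU hx z), nb_congr h1, nb_const_mul _ (smGm hg hU hx z)]
  have m := fun u => Gm_J hg hU hJ hH hK hx u
  unfold F
  have e : ∀ w z : Fin n → ℝ, Gm g w x * Gm g z x * J = J * (Gm g w x * Gm g z x) := by
    intro w z
    rw [Matrix.mul_assoc, m z, ← Matrix.mul_assoc, m w, Matrix.mul_assoc]
  rw [Matrix.sub_mul, Matrix.add_mul, Matrix.sub_mul, hd, hd, e, e, Matrix.mul_sub, Matrix.mul_add,
    Matrix.mul_sub]

/-- the Ricci tensor is `J`-invariant -/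
theorem ricci_J (hx : x ∈ U) : Jᵀ * Matrix.of (ricci g x) * J = Matrix.of (ricci g x) := by
  set Φ : Fin n → Fin n → Mn n := fun k l => F g (Pi.single k 1) (Pi.single l 1) x with hΦ
  have hI : ∀ i j, ∑ k, ∑ l, (J k i * J l j) • Φ k l = Φ i j := by
    intro i j
    have h1 := F_J hg hU hJ hH hK hx (Pi.single i 1) (Pi.single j 1)
    rw [F_sum hg hU hx (J *ᵥ Pi.single i 1)] at h1
    rw [Matrix.mulVec_single_one, Matrix.mulVec_single_one] at h1
    exact h1
  have hR : ∀ a b, ricci g x a b = ∑ c, Φ c b c a := fun a b => ricci_eq hg hU hx a b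
  ext a b
  rw [Matrix.mul_apply]
  have h1 : ∀ q, (Jᵀ * Matrix.of (ricci g x)) a q = ∑ c, ∑ d, J c d * Φ c q d a := by
    intro q
    rw [Matrix.mul_apply]
    have h2 : ∀ p, Jᵀ a p * Matrix.of (ricci g x) p q = ∑ c, Φ c q c p * J p a := by
      intro p
      rw [Matrix.transpose_apply, Matrix.of_apply, hR, Finset.mul_sum]
      exact Finset.sum_congr rfl fun c _ => mul_comm _ _
    simp only [h2]
    rw [Finset.sum_comm]
    refine Finset.sum_congr rfl fun c _ => ?_
    have h3 : (Φ c q * J) c a = (J * Φ c q) c a := by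
      rw [F_comm hg hU hJ hH hK hx]
    rw [Matrix.mul_apply, Matrix.mul_apply] at h3
    exact h3
  simp only [h1]
  rw [Matrix.of_apply, hR]
  have h4 : ∀ d, Φ d b d a = ∑ k, ∑ l, (J k d * J l b) * Φ k l d a := by
    intro d
    have := congrFun (congrFun (hI d b) d) a
    rw [← this, Matrix.sum_apply]
    refine Finset.sum_congr rfl fun k _ => ?_
    rw [Matrix.sum_apply]
    exact Finset.sum_congr rfl fun l _ => rfl
  simp only [h4, Finset.sum_mul]
  -- reorder
  rw [Finset.sum_comm]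
  have h5 : ∀ c, ∑ q, ∑ d, J c d * Φ c q d a * J q b = ∑ d, ∑ q, J c d * Φ c q d a * J q b :=
    fun c => Finset.sum_comm
  simp only [h5]
  rw [Finset.sum_comm]
  refine Finset.sum_congr rfl fun d _ => Finset.sum_congr rfl fun c _ =>
    Finset.sum_congr rfl fun q _ => ?_
  ring

omit hJ hH hK in
/-- the Ricci tensor is symmetric -/
theorem ricci_symm (hx : x ∈ U) (a b : Fin n) : ricci g x a b = ricci g x b a := by
  unfold ricci
  have hl : ∀ c, Sm (fun y => ∑ a, christoffel g y a a c) x := fun c =>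
    Sm.sum fun a _ => hg.sm_christoffel hU hx a a c
  have hsm := hg.sm_logdens hU hx
  have h1 : ∀ a b : Fin n, ∑ c, pd b (fun y => christoffel g y c a c) x
      = pd b (fun y => pd a (fun z => Real.log (dens g z)) y) x := by
    intro a b
    rw [← pd_sum fun c _ => hg.sm_christoffel hU hx c a c]
    apply pd_congr
    filter_upwards [hU.mem_nhds hx] with y hy
    rw [hg.pd_logdens hU hy a]
    exact Finset.sum_congr rfl fun c _ => hg.christoffel_symm hU hy c a c
  simp only [Finset.sum_sub_distrib]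
  rw [h1, h1, pd_comm hsm b a]
  have h2 : ∀ c, pd c (fun y => christoffel g y c a b) x = pd c (fun y => christoffel g y c b a) x := by
    intro c
    apply pd_congr
    filter_upwards [hU.mem_nhds hx] with y hy
    exact hg.christoffel_symm hU hy c a b
  simp only [h2]
  have h3 : ∀ c d, christoffel g x c c d * christoffel g x d a b
      = christoffel g x c c d * christoffel g x d b a := fun c d => by
    rw [hg.christoffel_symm hU hx d a b]
  have h4 : ∑ c, ∑ d, christoffel g x c b d * christoffel g x d a c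
      = ∑ c, ∑ d, christoffel g x c a d * christoffel g x d b c := by
    rw [Finset.sum_comm]
    refine Finset.sum_congr rfl fun d _ => Finset.sum_congr rfl fun c _ => ?_
    rw [mul_comm]
  simp only [h3]
  rw [h4]

end J

end main

theorem main : SpecRicJ := fun _ _ _ _ hJ hU hg hH hK _ hx =>
  ⟨ricci_symm hg hU hx, ricci_J hg hU hJ hH hK hx⟩

end Vale.Agent.P223.H959.RicJ
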