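import Vale.Agent.P223.H959.F
import Vale.Agent.P223.H959.Alg
import Vale.Agent.P223.H959.Atl
import Vale.Agent.P223.H959.Herm
import Vale.Agent.P223.H959.Kah
import Vale.Agent.P223.H959.B
import Vale.Agent.P223.H959.RicJ
import Vale.Agent.P223.H209.Ric

/-! All blocks plugged in. -/

namespace Vale.Agent.P223.H959

theorem blocks : Blocks where
  vol := specVol
  alg := specAlg
  atl := specAtl
  herm := specHerm
  kah := specKah
  ric := H209.specRic RicJ.main specAlg specHerm specKah

end Vale.Agent.P223.H959
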