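import Vale.Agent.P223.H959.Real

/-! The complex Hessian in real coordinates. -/

open scoped Manifold ContDiff ComplexOrder Matrix

namespace Vale.Agent.P223.H959.E1

open Vale.Agent.P272.K (Cm cHess dz dzb)

variable {m : ℕ}

theorem symm_castAdd (j : Fin m) :
    (toReal m).symm (Pi.single (Fin.castAdd m j) (1 : ℝ)) = Pi.single j (1 : ℂ) := by
  funext k
  rw [toReal_symm]
  by_cases h : k = j
  · subst h
    rw [Pi.single_eq_same, Pi.single_eq_same, Pi.single_eq_of_ne]
    · rfl
    · intro h'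
      have := congrArg Fin.val h'
      simp at this
      omega
  · rw [Pi.single_eq_of_ne, Pi.single_eq_of_ne, Pi.single_eq_of_ne h]
    · rfl
    · intro h'
      have := congrArg Fin.val h'
      simp at this
      have h2 := j.isLt
      omega
    · intro h'
      exact h (Fin.castAdd_injective m m h')

theorem symm_natAdd (j : Fin m) :
    (toReal m).symm (Pi.single (Fin.natAdd m j) (1 : ℝ)) = Pi.single j Complex.I := by
  funext k
  rw [toReal_symm]
  by_cases h : k = j
  · subst h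
    rw [Pi.single_eq_of_ne, Pi.single_eq_same, Pi.single_eq_same]
    · rfl
    · intro h'
      have := congrArg Fin.val h'
      simp at this
      have h2 := k.isLt
      omega
  · rw [Pi.single_eq_of_ne, Pi.single_eq_of_ne, Pi.single_eq_of_ne h]
    · rfl
    · intro h'
      have := congrArg Fin.val h'
      simp at this
      exact h (Fin.ext this)
    · intro h'
      have := congrArg Fin.val h'
      simp at this
      have h2 := k.isLt
      omega

/-- The second derivative of `f` at `z` in the directions `u`, `v`. -/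
noncomputable def B (f : Cm m → ℝ) (z u v : Cm m) : ℝ :=
  fderiv ℝ (fun w => fderiv ℝ f w v) z u

theorem pdpd (f : Cm m → ℝ) (x : Fin (m + m) → ℝ) (a b : Fin (m + m)) :
    fderiv ℝ (fun y => fderiv ℝ (fun z => f ((toReal m).symm z)) y (Pi.single b 1)) x
      (Pi.single a 1) =
    B f ((toReal m).symm x) ((toReal m).symm (Pi.single a 1)) ((toReal m).symm (Pi.single b 1)) := by
  have h1 : ∀ (g : Cm m → ℝ) (y v : Fin (m + m) → ℝ),
      fderiv ℝ (fun z => g ((toReal m).symm z)) y v =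
        fderiv ℝ g ((toReal m).symm y) ((toReal m).symm v) := by
    intro g y v
    have := ContinuousLinearEquiv.comp_right_fderiv (toReal m).symm (f := g) (x := y)
    exact congrArg (fun T => T v) this
  have h2 : (fun y => fderiv ℝ (fun z => f ((toReal m).symm z)) y (Pi.single b 1)) =
      fun y => (fun w => fderiv ℝ f w ((toReal m).symm (Pi.single b 1))) ((toReal m).symm y) := by
    funext y
    exact h1 f y _
  rw [h2]
  exact h1 (fun w => fderiv ℝ f w ((toReal m).symm (Pi.single b 1))) x (Pi.single a 1)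

theorem two_le : (2 : WithTop ℕ∞) ≤ ∞ :=
  (WithTop.coe_le_coe.2 (le_top : (2 : ℕ∞) ≤ ⊤) : ((2 : ℕ∞) : WithTop ℕ∞) ≤ ((⊤ : ℕ∞) : WithTop ℕ∞))

theorem ofReal_fderiv (f : Cm m → ℝ) (z v : Cm m) (h : DifferentiableAt ℝ f z) :
    fderiv ℝ (fun y => (f y : ℂ)) z v = ((fderiv ℝ f z v : ℝ) : ℂ) := by
  have h1 : HasFDerivAt (fun y => (f y : ℂ)) (Complex.ofRealCLM.comp (fderiv ℝ f z)) z :=
    Complex.ofRealCLM.hasFDerivAt.comp z h.hasFDerivAt
  rw [h1.fderiv]
  rfl

theorem dzb_eq (f : Cm m → ℝ) (z : Cm m) (k : Fin m) (h : ContDiffAt ℝ ∞ f z) :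
    (dzb k fun y => (f y : ℂ)) =ᶠ[nhds z] fun w =>
      (((fderiv ℝ f w (Pi.single k 1) : ℝ) : ℂ) +
        Complex.I * ((fderiv ℝ f w (Pi.single k Complex.I) : ℝ) : ℂ)) / 2 := by
  have h2 : ContDiffAt ℝ 2 f z := h.of_le two_le
  have h3 := h2.eventually (by decide)
  filter_upwards [h3] with w hw
  have hd : DifferentiableAt ℝ f w := hw.differentiableAt (by decide)
  rw [dzb, ofReal_fderiv f w _ hd, ofReal_fderiv f w _ hd]

theorem fderiv_mid (f : Cm m → ℝ) (z v1 v2 u : Cm m) (h : ContDiffAt ℝ ∞ f z) :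
    fderiv ℝ (fun w => (((fderiv ℝ f w v1 : ℝ) : ℂ) +
        Complex.I * ((fderiv ℝ f w v2 : ℝ) : ℂ)) / 2) z u =
      (((B f z u v1 : ℝ) : ℂ) + Complex.I * ((B f z u v2 : ℝ) : ℂ)) / 2 := by
  have h2 : ContDiffAt ℝ 2 f z := h.of_le two_le
  have h3 : ContDiffAt ℝ 1 (fderiv ℝ f) z := h2.fderiv_right (by norm_num)
  have h4 : DifferentiableAt ℝ (fderiv ℝ f) z := h3.differentiableAt (by decide)
  have h5 : ∀ v : Cm m, DifferentiableAt ℝ (fun w => fderiv ℝ f w v) z := fun v =>
    h4.clm_apply (differentiableAt_const v)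
  have h6 : ∀ v : Cm m, HasFDerivAt (fun w => ((fderiv ℝ f w v : ℝ) : ℂ))
      (Complex.ofRealCLM.comp (fderiv ℝ (fun w => fderiv ℝ f w v) z)) z := fun v =>
    Complex.ofRealCLM.hasFDerivAt.comp z (h5 v).hasFDerivAt
  have h7 := ((h6 v1).add ((h6 v2).const_mul Complex.I)).mul_const ((2 : ℂ)⁻¹)
  have h8 : (fun w => (((fderiv ℝ f w v1 : ℝ) : ℂ) +
        Complex.I * ((fderiv ℝ f w v2 : ℝ) : ℂ)) / 2) = fun w => (((fderiv ℝ f w v1 : ℝ) : ℂ) +
        Complex.I * ((fderiv ℝ f w v2 : ℝ) : ℂ)) * (2 : ℂ)⁻¹ := by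
    funext w
    rw [div_eq_mul_inv]
  rw [h8]
  have h9 := h7.fderiv
  have h10 := congrArg (fun T => T u) h9
  refine h10.trans ?_
  simp only [B, smul_apply, add_apply,
    ContinuousLinearMap.comp_apply, Complex.ofRealCLM_apply, smul_eq_mul]
  ring

theorem cHess_eq (f : Cm m → ℝ) (z : Cm m) (j k : Fin m) (h : ContDiffAt ℝ ∞ f z) :
    (4 : ℂ) * cHess f z j k =
      ((B f z (Pi.single j 1) (Pi.single k 1) + B f z (Pi.single j Complex.I) (Pi.single k Complex.I) : ℝ) : ℂ) +
      Complex.I * ((B f z (Pi.single j 1) (Pi.single k Complex.I) -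
        B f z (Pi.single j Complex.I) (Pi.single k 1) : ℝ) : ℂ) := by
  have h1 : cHess f z j k = dz j (dzb k fun y => (f y : ℂ)) z := rfl
  rw [h1, dz, (dzb_eq f z k h).fderiv_eq, fderiv_mid f z _ _ _ h, fderiv_mid f z _ _ _ h]
  push_cast
  linear_combination (-(B f z (Pi.single j Complex.I) (Pi.single k Complex.I) : ℂ)) * Complex.I_sq

theorem cHess_re (f : Cm m → ℝ) (z : Cm m) (j k : Fin m) (h : ContDiffAt ℝ ∞ f z) :
    4 * (cHess f z j k).re =
      B f z (Pi.single j 1) (Pi.single k 1) + B f z (Pi.single j Complex.I) (Pi.single k Complex.I) := by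
  have := congrArg Complex.re (cHess_eq f z j k h)
  simpa using this

theorem cHess_im (f : Cm m → ℝ) (z : Cm m) (j k : Fin m) (h : ContDiffAt ℝ ∞ f z) :
    4 * (cHess f z j k).im =
      B f z (Pi.single j 1) (Pi.single k Complex.I) -
        B f z (Pi.single j Complex.I) (Pi.single k 1) := by
  have := congrArg Complex.im (cHess_eq f z j k h)
  simpa using this

theorem blk_ll (A B C D : Matrix (Fin m) (Fin m) ℝ) (j k : Fin m) :
    blk A B C D (Fin.castAdd m j) (Fin.castAdd m k) = A j k := by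
  simp [blk]

theorem blk_lr (A B C D : Matrix (Fin m) (Fin m) ℝ) (j k : Fin m) :
    blk A B C D (Fin.castAdd m j) (Fin.natAdd m k) = B j k := by
  rw [blk, Matrix.submatrix_apply, finSumFinEquiv_symm_apply_castAdd,
    finSumFinEquiv_symm_apply_natAdd, Matrix.fromBlocks_apply₁₂]

theorem blk_rl (A B C D : Matrix (Fin m) (Fin m) ℝ) (j k : Fin m) :
    blk A B C D (Fin.natAdd m j) (Fin.castAdd m k) = C j k := by
  rw [blk, Matrix.submatrix_apply, finSumFinEquiv_symm_apply_castAdd,
    finSumFinEquiv_symm_apply_natAdd, Matrix.fromBlocks_apply₂₁]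

theorem blk_rr (A B C D : Matrix (Fin m) (Fin m) ℝ) (j k : Fin m) :
    blk A B C D (Fin.natAdd m j) (Fin.natAdd m k) = D j k := by
  rw [blk, Matrix.submatrix_apply, finSumFinEquiv_symm_apply_natAdd,
    finSumFinEquiv_symm_apply_natAdd, Matrix.fromBlocks_apply₂₂]

theorem sum_J_l (w : Fin (m + m) → ℝ) (j : Fin m) :
    ∑ a, w a * stdJ m a (Fin.castAdd m j) = w (Fin.natAdd m j) := by
  rw [Fin.sum_univ_add]
  simp only [stdJ, blk_ll, blk_rl]
  simp [Matrix.one_apply]

theorem sum_J_r (w : Fin (m + m) → ℝ) (j : Fin m) :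
    ∑ a, w a * stdJ m a (Fin.natAdd m j) = -w (Fin.castAdd m j) := by
  rw [Fin.sum_univ_add]
  simp only [stdJ, blk_lr, blk_rr]
  simp [Matrix.one_apply]

theorem JHJ (H : Matrix (Fin (m + m)) (Fin (m + m)) ℝ) (a b : Fin (m + m)) :
    ((stdJ m)ᵀ * H * stdJ m) a b = ∑ d, (∑ c, H c d * stdJ m c a) * stdJ m d b := by
  rw [Matrix.mul_apply]
  refine Finset.sum_congr rfl fun d _ => ?_
  rw [Matrix.mul_apply]
  congr 1
  refine Finset.sum_congr rfl fun c _ => ?_
  rw [Matrix.transpose_apply, mul_comm]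

theorem core (f : Cm m → ℝ) (x : Fin (m + m) → ℝ) (h : ContDiffAt ℝ ∞ f ((toReal m).symm x)) :
    (2 : ℝ) • realM (cHess f ((toReal m).symm x)) =
      Matrix.of (fun a b => fderiv ℝ (fun y => fderiv ℝ (fun z => f ((toReal m).symm z)) y
        (Pi.single b 1)) x (Pi.single a 1)) +
      (stdJ m)ᵀ * Matrix.of (fun a b => fderiv ℝ (fun y => fderiv ℝ (fun z =>
        f ((toReal m).symm z)) y (Pi.single b 1)) x (Pi.single a 1)) * stdJ m := by
  ext a b
  rw [Matrix.add_apply, JHJ]
  simp only [Matrix.of_apply, pdpd, realM, Matrix.smul_apply, smul_eq_mul]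
  have hre := fun j k => cHess_re f ((toReal m).symm x) j k h
  have him := fun j k => cHess_im f ((toReal m).symm x) j k h
  refine Fin.addCases (fun j => ?_) (fun j => ?_) a <;> refine Fin.addCases (fun k => ?_) (fun k => ?_) b
  · rw [blk_ll]
    simp only [sum_J_l, symm_castAdd, symm_natAdd]
    have := hre j k
    simp only [Matrix.map_apply]
    linarith
  · rw [blk_lr]
    simp only [sum_J_l, sum_J_r, symm_castAdd, symm_natAdd]
    have := him j k
    simp only [Matrix.map_apply]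
    linarith
  · rw [blk_rl]
    simp only [sum_J_l, sum_J_r, symm_castAdd, symm_natAdd]
    have := him j k
    simp only [Matrix.neg_apply, Matrix.map_apply]
    linarith
  · rw [blk_rr]
    simp only [sum_J_l, sum_J_r, symm_castAdd, symm_natAdd]
    have := hre j k
    simp only [Matrix.map_apply]
    linarith

end Vale.Agent.P223.H959.E1
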