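import Vale.Agent.P223.H959.Spec
import Vale.Agent.P223.H959.E1core

/-! (A second proof of) Block C1: algebra of the real matrix of a Hermitian matrix. -/

open scoped Manifold ContDiff ComplexOrder Matrix

namespace Vale.Agent.P223.H959.C1

open E1

variable {m : ℕ}

theorem ext_blk {M N : Matrix (Fin (m + m)) (Fin (m + m)) ℝ}
    (h1 : ∀ j k, M (Fin.castAdd m j) (Fin.castAdd m k) = N (Fin.castAdd m j) (Fin.castAdd m k))
    (h2 : ∀ j k, M (Fin.castAdd m j) (Fin.natAdd m k) = N (Fin.castAdd m j) (Fin.natAdd m k))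
    (h3 : ∀ j k, M (Fin.natAdd m j) (Fin.castAdd m k) = N (Fin.natAdd m j) (Fin.castAdd m k))
    (h4 : ∀ j k, M (Fin.natAdd m j) (Fin.natAdd m k) = N (Fin.natAdd m j) (Fin.natAdd m k)) :
    M = N := by
  ext a b
  refine Fin.addCases (fun j => ?_) (fun j => ?_) a <;>
    refine Fin.addCases (fun k => ?_) (fun k => ?_) b
  · exact h1 j k
  · exact h2 j k
  · exact h3 j k
  · exact h4 j k

theorem realM_ll (A : Matrix (Fin m) (Fin m) ℂ) (j k : Fin m) :
    realM A (Fin.castAdd m j) (Fin.castAdd m k) = 2 * (A j k).re := by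
  rw [realM, Matrix.smul_apply, blk_ll, Matrix.map_apply, smul_eq_mul]

theorem realM_lr (A : Matrix (Fin m) (Fin m) ℂ) (j k : Fin m) :
    realM A (Fin.castAdd m j) (Fin.natAdd m k) = 2 * (A j k).im := by
  rw [realM, Matrix.smul_apply, blk_lr, Matrix.map_apply, smul_eq_mul]

theorem realM_rl (A : Matrix (Fin m) (Fin m) ℂ) (j k : Fin m) :
    realM A (Fin.natAdd m j) (Fin.castAdd m k) = -(2 * (A j k).im) := by
  rw [realM, Matrix.smul_apply, blk_rl, Matrix.neg_apply, Matrix.map_apply, smul_eq_mul]
  ring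

theorem realM_rr (A : Matrix (Fin m) (Fin m) ℂ) (j k : Fin m) :
    realM A (Fin.natAdd m j) (Fin.natAdd m k) = 2 * (A j k).re := by
  rw [realM, Matrix.smul_apply, blk_rr, Matrix.map_apply, smul_eq_mul]

theorem J_mul (M : Matrix (Fin (m + m)) (Fin (m + m)) ℝ) (a b : Fin (m + m)) :
    (M * stdJ m) a b = ∑ c, M a c * stdJ m c b := Matrix.mul_apply

theorem sqr (m : ℕ) : stdJ m * stdJ m = -1 := by
  refine ext_blk ?_ ?_ ?_ ?_ <;> intro j k
  · rw [Matrix.mul_apply, sum_J_l, Matrix.neg_apply, stdJ, blk_lr, Matrix.neg_apply,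
      Matrix.one_apply, Matrix.one_apply]
    simp
  · rw [Matrix.mul_apply, sum_J_r, Matrix.neg_apply, stdJ, blk_ll, Matrix.one_apply_ne]
    · simp
    · intro h
      have := congrArg Fin.val h
      have h2 := j.isLt
      simp at this
      omega
  · rw [Matrix.mul_apply, sum_J_l, Matrix.neg_apply, stdJ, blk_rr, Matrix.one_apply_ne]
    · simp
    · intro h
      have := congrArg Fin.val h
      have h2 := k.isLt
      simp at this
      omega
  · rw [Matrix.mul_apply, sum_J_r, Matrix.neg_apply, stdJ, blk_rl,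
      Matrix.one_apply, Matrix.one_apply]
    simp

theorem add (A B : Matrix (Fin m) (Fin m) ℂ) : realM (A + B) = realM A + realM B := by
  refine ext_blk ?_ ?_ ?_ ?_ <;> intro j k <;>
    simp only [Matrix.add_apply, realM_ll, realM_lr, realM_rl, realM_rr, Complex.add_re,
      Complex.add_im] <;> ring

theorem smul (r : ℝ) (A : Matrix (Fin m) (Fin m) ℂ) : realM ((r : ℂ) • A) = r • realM A := by
  refine ext_blk ?_ ?_ ?_ ?_ <;> intro j k <;>
    simp only [Matrix.smul_apply, smul_eq_mul, realM_ll, realM_lr, realM_rl, realM_rr,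
      Complex.re_ofReal_mul, Complex.im_ofReal_mul] <;> ring

theorem inv (A : Matrix (Fin m) (Fin m) ℂ) : (stdJ m)ᵀ * realM A * stdJ m = realM A := by
  refine ext_blk ?_ ?_ ?_ ?_ <;> intro j k <;>
    simp only [JHJ, sum_J_l, sum_J_r, realM_ll, realM_lr, realM_rl, realM_rr] <;> ring

/-- The quadratic form of `realM A`. -/
theorem quad (A : Matrix (Fin m) (Fin m) ℂ) (x : Fin (m + m) → ℝ) :
    x ⬝ᵥ (realM A *ᵥ x) =
      2 * (star (star ((toReal m).symm x)) ⬝ᵥ (A *ᵥ star ((toReal m).symm x))).re := by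
  rw [star_star]
  simp only [dotProduct, Matrix.mulVec, Fin.sum_univ_add, realM_ll, realM_lr, realM_rl, realM_rr,
    toReal_symm, Pi.star_apply]
  rw [Complex.re_sum, Finset.mul_sum, ← Finset.sum_add_distrib]
  refine Finset.sum_congr rfl fun j _ => ?_
  rw [Finset.mul_sum, Complex.re_sum, Finset.mul_sum, mul_add, mul_add, Finset.mul_sum,
    Finset.mul_sum, Finset.mul_sum, Finset.mul_sum, ← Finset.sum_add_distrib,
    ← Finset.sum_add_distrib, ← Finset.sum_add_distrib]
  refine Finset.sum_congr rfl fun k _ => ?_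
  simp only [RCLike.star_def, Complex.mul_re, Complex.mul_im, Complex.conj_re, Complex.conj_im]
  ring

theorem herm {A : Matrix (Fin m) (Fin m) ℂ} (h : A.IsHermitian) : (realM A).IsHermitian := by
  have h1 : ∀ j k, A k j = star (A j k) := fun j k => (h.apply k j).symm
  refine ext_blk ?_ ?_ ?_ ?_ <;> intro j k <;>
    simp only [Matrix.conjTranspose_apply, realM_ll, realM_lr, realM_rl, realM_rr, star_trivial] <;>
    rw [h1 j k] <;> simp

theorem posSemidef {A : Matrix (Fin m) (Fin m) ℂ} (h : A.PosSemidef) : (realM A).PosSemidef := by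
  refine Matrix.PosSemidef.of_dotProduct_mulVec_nonneg (herm h.1) fun x => ?_
  rw [star_trivial, quad]
  have := h.dotProduct_mulVec_nonneg (star ((toReal m).symm x))
  have h2 := (Complex.le_def.1 this).1
  rw [Complex.zero_re] at h2
  positivity

theorem posDef {A : Matrix (Fin m) (Fin m) ℂ} (h : A.PosDef) : (realM A).PosDef := by
  refine Matrix.PosDef.of_dotProduct_mulVec_pos (herm h.1) fun x hx => ?_
  rw [star_trivial, quad]
  have hne : star ((toReal m).symm x) ≠ 0 := by
    intro h0
    apply hx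
    have h1 : (toReal m).symm x = 0 := by
      have := congrArg star h0
      rwa [star_star, star_zero] at this
    have h2 := congrArg (toReal m) h1
    rwa [ContinuousLinearEquiv.apply_symm_apply, map_zero] at h2
  have := h.dotProduct_mulVec_pos hne
  have h2 := (Complex.lt_def.1 this).1
  rw [Complex.zero_re] at h2
  positivity

theorem det_core (A : Matrix (Fin m) (Fin m) ℂ) :
    (((Matrix.fromBlocks (A.map Complex.re) (A.map Complex.im) (-A.map Complex.im)
      (A.map Complex.re)).det : ℝ) : ℂ) = (starRingEnd ℂ) A.det * A.det := by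
  have h0 : (((Matrix.fromBlocks (A.map Complex.re) (A.map Complex.im) (-A.map Complex.im)
      (A.map Complex.re)).det : ℝ) : ℂ) =
      ((Matrix.fromBlocks (A.map Complex.re) (A.map Complex.im) (-A.map Complex.im)
      (A.map Complex.re)).map Complex.ofRealHom).det := by
    exact RingHom.map_det Complex.ofRealHom _
  set P : Matrix (Fin m) (Fin m) ℂ := (A.map Complex.re).map Complex.ofRealHom with hP
  set Q : Matrix (Fin m) (Fin m) ℂ := (A.map Complex.im).map Complex.ofRealHom with hQ
  have h1 : (Matrix.fromBlocks (A.map Complex.re) (A.map Complex.im) (-A.map Complex.im)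
      (A.map Complex.re)).map Complex.ofRealHom = Matrix.fromBlocks P Q (-Q) P := by
    rw [Matrix.fromBlocks_map]
    congr 1
    ext i j
    simp [hQ]
  rw [h0, h1]
  have hA : A = P + Complex.I • Q := by
    ext i j
    simp only [hP, hQ, Matrix.add_apply, Matrix.map_apply, Matrix.smul_apply, smul_eq_mul,
      Complex.ofRealHom_eq_coe]
    rw [mul_comm, Complex.re_add_im]
  have hA' : A.map (starRingEnd ℂ) = P - Complex.I • Q := by
    ext i j
    simp only [hP, hQ, Matrix.sub_apply, Matrix.map_apply, Matrix.smul_apply, smul_eq_mul,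
      Complex.ofRealHom_eq_coe]
    apply Complex.ext <;> simp
  have h2 : Matrix.fromBlocks 1 (Complex.I • (1 : Matrix (Fin m) (Fin m) ℂ)) 0 1 *
      Matrix.fromBlocks P Q (-Q) P = Matrix.fromBlocks (P - Complex.I • Q) 0 (-Q) (P + Complex.I • Q) *
      Matrix.fromBlocks 1 (Complex.I • (1 : Matrix (Fin m) (Fin m) ℂ)) 0 1 := by
    rw [Matrix.fromBlocks_multiply, Matrix.fromBlocks_multiply]
    congr 1
    · simp [sub_eq_add_neg]
    · simp only [Matrix.one_mul, Matrix.smul_mul, Matrix.mul_smul, Matrix.mul_one,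
        Matrix.zero_mul, add_zero, smul_sub, smul_smul, Complex.I_mul_I]
      simp [add_comm]
    · simp
    · simp only [Matrix.one_mul, Matrix.zero_mul, Matrix.mul_smul, Matrix.mul_one,
        zero_add]
      simp
  have h3 := congrArg Matrix.det h2
  rw [Matrix.det_mul, Matrix.det_mul, Matrix.det_fromBlocks_zero₂₁, Matrix.det_one, one_mul,
    one_mul, mul_one, Matrix.det_fromBlocks_zero₁₂, ← hA, ← hA'] at h3
  rw [h3]
  congr 1
  exact (RingHom.map_det (starRingEnd ℂ) A).symm

theorem det {A : Matrix (Fin m) (Fin m) ℂ} (h : A.PosDef) :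
    (realM A).det = (2 ^ m * A.det.re) ^ 2 := by
  have h1 : (realM A).det = 2 ^ (m + m) * (Matrix.fromBlocks (A.map Complex.re) (A.map Complex.im)
      (-A.map Complex.im) (A.map Complex.re)).det := by
    rw [realM, Matrix.det_smul, Fintype.card_fin, blk, Matrix.det_submatrix_equiv_self]
  have h2 : (A.det).im = 0 := by
    have := h.det_pos
    exact ((Complex.lt_def.1 this).2).symm
  have h3 : A.det = ((A.det.re : ℝ) : ℂ) := Complex.ext (by simp) (by simp [h2])
  have h4 := det_core A
  rw [h3, Complex.conj_ofReal, ← Complex.ofReal_mul] at h4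
  have h5 := Complex.ofReal_injective h4
  rw [h1, h5]
  ring

theorem specAlg : SpecAlg where
  sqr := C1.sqr
  add := fun _ A B => C1.add A B
  smul := fun _ r A => C1.smul r A
  inv := fun _ A => C1.inv A
  posDef := fun _ _ h => C1.posDef h
  posSemidef := fun _ _ h => C1.posSemidef h
  det := fun _ _ h => C1.det h

end Vale.Agent.P223.H959.C1
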