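import Vale.Agent.P223.H959.Spec
import Vale.Agent.P223.H959.E1core

/-! Block E1: the complex Hessian in real coordinates. -/

open scoped Manifold ContDiff ComplexOrder Matrix

namespace Vale.Agent.P223.H959.E1

theorem specHess : SpecHess := fun _ f x h => core f x h

end Vale.Agent.P223.H959.E1
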