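import Vale.Agent.P223.K
import Vale.Agent.P272.K.Stmt
import Mathlib.LinearAlgebra.FiniteDimensional.Basic
import Mathlib.Topology.Algebra.Module.FiniteDimension

/-! The real charts of a complex manifold, and the real matrices of a Hermitian metric. -/

open scoped Manifold ContDiff ComplexOrder

namespace Vale.Agent.P223.H959

/-- Real and imaginary parts of a vector. -/
def toRealFun {m : ℕ} (z : Fin m → ℂ) : Fin (m + m) → ℝ :=
  Fin.append (fun j => (z j).re) fun j => (z j).im

/-- The vector with given real and imaginary parts. -/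
def ofRealFun {m : ℕ} (x : Fin (m + m) → ℝ) : Fin m → ℂ :=
  fun j => ⟨x (Fin.castAdd m j), x (Fin.natAdd m j)⟩

theorem toRealFun_left {m : ℕ} (z : Fin m → ℂ) (j : Fin m) :
    toRealFun z (Fin.castAdd m j) = (z j).re := Fin.append_left _ _ _

theorem toRealFun_right {m : ℕ} (z : Fin m → ℂ) (j : Fin m) :
    toRealFun z (Fin.natAdd m j) = (z j).im := Fin.append_right _ _ _

/-- Real and imaginary parts, as an isomorphism from `ℂ^m` to `ℝ^(m+m)`. -/
noncomputable def toReal (m : ℕ) : (Fin m → ℂ) ≃L[ℝ] (Fin (m + m) → ℝ) :=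
  LinearEquiv.toContinuousLinearEquiv
    { toFun := toRealFun
      invFun := ofRealFun
      map_add' := fun z w => funext fun i => by
        refine Fin.addCases (fun j => ?_) (fun j => ?_) i
        · simp only [toRealFun_left, Pi.add_apply, Complex.add_re]
        · simp only [toRealFun_right, Pi.add_apply, Complex.add_im]
      map_smul' := fun r z => funext fun i => by
        refine Fin.addCases (fun j => ?_) (fun j => ?_) i
        · simp only [toRealFun_left, Pi.smul_apply, RingHom.id_apply, Complex.smul_re]
        · simp only [toRealFun_right, Pi.smul_apply, RingHom.id_apply, Complex.smul_im]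
      left_inv := fun z => funext fun j => by
        simp only [ofRealFun, toRealFun_left, toRealFun_right]
      right_inv := fun x => funext fun i => by
        refine Fin.addCases (fun j => ?_) (fun j => ?_) i
        · simp only [toRealFun_left, ofRealFun]
        · simp only [toRealFun_right, ofRealFun] }

theorem toReal_left {m : ℕ} (z : Fin m → ℂ) (j : Fin m) :
    toReal m z (Fin.castAdd m j) = (z j).re := toRealFun_left z j

theorem toReal_right {m : ℕ} (z : Fin m → ℂ) (j : Fin m) :
    toReal m z (Fin.natAdd m j) = (z j).im := toRealFun_right z j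

theorem toReal_symm {m : ℕ} (x : Fin (m + m) → ℝ) (j : Fin m) :
    (toReal m).symm x j = ⟨x (Fin.castAdd m j), x (Fin.natAdd m j)⟩ := rfl

/-- The real `2m × 2m` matrix with the blocks `A B C D`. -/
def blk {m : ℕ} (A B C D : Matrix (Fin m) (Fin m) ℝ) : Matrix (Fin (m + m)) (Fin (m + m)) ℝ :=
  (Matrix.fromBlocks A B C D).submatrix finSumFinEquiv.symm finSumFinEquiv.symm

/-- The matrix of the multiplication by `i` on `ℂ^m = ℝ^(m+m)`. -/
def stdJ (m : ℕ) : Matrix (Fin (m + m)) (Fin (m + m)) ℝ := blk 0 (-1) 1 0

/-- The matrix on `ℝ^(m+m)` of the real bilinear form `2 Re (∑ H_{ij} v_i w̄_j)`. -/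
def realM {m : ℕ} (H : Matrix (Fin m) (Fin m) ℂ) : Matrix (Fin (m + m)) (Fin (m + m)) ℝ :=
  (2 : ℝ) • blk (H.map Complex.re) (H.map Complex.im) (-H.map Complex.im) (H.map Complex.re)

/-- The real charts of a complex manifold. -/
noncomputable def realAtlas (m : ℕ) (X : Type) [TopologicalSpace X] [ChartedSpace (Fin m → ℂ) X]
    (a : X) : K.Ch (m + m) X :=
  (chartAt (Fin m → ℂ) a).trans (toReal m).toHomeomorph.toOpenPartialHomeomorph

/-- The Riemannian metric of the Hermitian metric `w`, in the real charts. -/
noncomputable def realG {m : ℕ} {X : Type} [TopologicalSpace X] [ChartedSpace (Fin m → ℂ) X]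
    (w : P272.K.Chart m X → P272.K.Cm m → Matrix (Fin m) (Fin m) ℂ) (a : X)
    (x : Fin (m + m) → ℝ) : Matrix (Fin (m + m)) (Fin (m + m)) ℝ :=
  realM (w (chartAt (Fin m → ℂ) a) ((toReal m).symm x))

end Vale.Agent.P223.H959
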