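import Vale.Agent.P223.Bdl.B1
import Vale.Agent.P223.H959.Real

/-! Blocks for the unconditional theorem (closed Kähler manifolds with nef canonical bundle). -/

open scoped Manifold ContDiff ComplexOrder Matrix
open MeasureTheory

namespace Vale.Agent.P223.H959

open Vale.Agent.P272.K (Cm Chart IsHermitian IsKahler cHess NefCanonical)

/-- BLOCK A: the Ricci tensor of a Kähler metric is symmetric and `J`-invariant. -/
def SpecRicJ : Prop := ∀ (n : ℕ) (JJ : Matrix (Fin n) (Fin n) ℝ) (U : Set (Fin n → ℝ))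
  (g : (Fin n → ℝ) → Matrix (Fin n) (Fin n) ℝ), JJ * JJ = -1 → IsOpen U → IsMetricOn U g →
  (∀ x ∈ U, JJᵀ * g x * JJ = g x) →
  (∀ x ∈ U, ∀ a b c, pd a (fun y => (JJᵀ * g y) b c) x + pd b (fun y => (JJᵀ * g y) c a) x
      + pd c (fun y => (JJᵀ * g y) a b) x = 0) →
  ∀ x ∈ U, (∀ a b, ricci g x a b = ricci g x b a) ∧
    JJᵀ * Matrix.of (ricci g x) * JJ = Matrix.of (ricci g x)

/-- BLOCK B: the Riemannian volume measure exists. -/
def SpecVol : Prop := ∀ (n : ℕ) (JJ : Matrix (Fin n) (Fin n) ℝ) (X : Type) [TopologicalSpace X]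
  [T2Space X] [CompactSpace X] [MeasurableSpace X] [BorelSpace X] (c : X → K.Ch n X)
  (g : X → (Fin n → ℝ) → Matrix (Fin n) (Fin n) ℝ), K.Atl JJ c → K.Herm JJ c g →
  ∃ μ : Measure X, K.Vol c g μ

/-- BLOCK C1: algebra of the real matrix of a Hermitian matrix. -/
structure SpecAlg : Prop where
  sqr : ∀ m, stdJ m * stdJ m = -1
  add : ∀ (m : ℕ) (A B : Matrix (Fin m) (Fin m) ℂ), realM (A + B) = realM A + realM B
  smul : ∀ (m : ℕ) (r : ℝ) (A : Matrix (Fin m) (Fin m) ℂ), realM ((r : ℂ) • A) = r • realM A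
  inv : ∀ (m : ℕ) (A : Matrix (Fin m) (Fin m) ℂ), (stdJ m)ᵀ * realM A * stdJ m = realM A
  posDef : ∀ (m : ℕ) (A : Matrix (Fin m) (Fin m) ℂ), A.PosDef → (realM A).PosDef
  posSemidef : ∀ (m : ℕ) (A : Matrix (Fin m) (Fin m) ℂ), A.PosSemidef → (realM A).PosSemidef
  det : ∀ (m : ℕ) (A : Matrix (Fin m) (Fin m) ℂ), A.PosDef →
    (realM A).det = (2 ^ m * A.det.re) ^ 2

/-- BLOCK C2: the real charts of a complex manifold form a holomorphic atlas. -/
def SpecAtl : Prop := ∀ (m : ℕ) (X : Type) [TopologicalSpace X] [ChartedSpace (Cm m) X]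
  [IsManifold 𝓘(ℂ, Cm m) ω X], K.Atl (stdJ m) (realAtlas m X)

/-- BLOCK C3: the real metric of a Hermitian metric. -/
def SpecHerm : Prop := ∀ (m : ℕ) (X : Type) [TopologicalSpace X] [ChartedSpace (Cm m) X]
  [IsManifold 𝓘(ℂ, Cm m) ω X] (w : Chart m X → Cm m → Matrix (Fin m) (Fin m) ℂ),
  IsHermitian w → K.Herm (stdJ m) (realAtlas m X) (realG w)

/-- BLOCK D: the real metric of a Kähler metric has a closed fundamental form. -/
def SpecKah : Prop := ∀ (m : ℕ) (X : Type) [TopologicalSpace X] [ChartedSpace (Cm m) X]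
  [IsManifold 𝓘(ℂ, Cm m) ω X] (w : Chart m X → Cm m → Matrix (Fin m) (Fin m) ℂ),
  IsKahler w → K.Kah (stdJ m) (realAtlas m X) (realG w)

/-- BLOCK E: the Ricci tensor of a Kähler metric. -/
def SpecRic : Prop := ∀ (m : ℕ) (X : Type) [TopologicalSpace X] [ChartedSpace (Cm m) X]
  [IsManifold 𝓘(ℂ, Cm m) ω X] (χ : Chart m X → Cm m → Matrix (Fin m) (Fin m) ℂ),
  IsKahler χ → ∀ a p x, K.At (realAtlas m X a) p x →
    K.ric (realG χ a) x =
      realM (-cHess (fun z => Real.log (χ (chartAt (Cm m) a) z).det.re) ((toReal m).symm x))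

/-- BLOCK E1: the complex Hessian in real coordinates. -/
def SpecHess : Prop := ∀ (m : ℕ) (f : Cm m → ℝ) (x : Fin (m + m) → ℝ),
  ContDiffAt ℝ ∞ f ((toReal m).symm x) →
    (2 : ℝ) • realM (cHess f ((toReal m).symm x)) =
      Matrix.of (fun a b => pd a (fun y => pd b (fun z => f ((toReal m).symm z)) y) x) +
      (stdJ m)ᵀ * Matrix.of (fun a b => pd a (fun y => pd b (fun z => f ((toReal m).symm z)) y) x)
        * stdJ m

end Vale.Agent.P223.H959
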