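import Vale.Agent.P223.H959.Main
import Vale.Agent.P223.H959.Spec
import Vale.Agent.P272.K.AMP.NF.H977.BigS

/-! Block F: assembly of the unconditional theorem for nef canonical bundles. -/

open scoped Manifold ContDiff ComplexOrder Matrix
open MeasureTheory

namespace Vale.Agent.P223.H959

open Vale.Agent.P272.K (Cm Chart IsHermitian IsKahler cHess NefCanonical)

/-- all blocks -/
structure Blocks : Prop where
  vol : SpecVol
  alg : SpecAlg
  atl : SpecAtl
  herm : SpecHerm
  kah : SpecKah
  ric : SpecRic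

section
variable {m : ℕ} {X : Type} [TopologicalSpace X] [T2Space X] [CompactSpace X]
  [ChartedSpace (Cm m) X] [IsManifold 𝓘(ℂ, Cm m) ω X]

/-- Yau's metrics, in the real charts. -/
theorem yau (hB : Blocks) [MeasurableSpace X] [BorelSpace X]
    {w : Chart m X → Cm m → Matrix (Fin m) (Fin m) ℂ} (hw : IsKahler w) (hnef : NefCanonical w 0)
    (eta : ℝ) (heta : 0 < eta) :
    ∃ g0 μ0, K.Herm (stdJ m) (realAtlas m X) g0 ∧ K.Kah (stdJ m) (realAtlas m X) g0 ∧
      K.RicLe (realAtlas m X) g0 (realG w) eta ∧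
      (∀ a p x, K.At (realAtlas m X a) p x → (g0 a x + K.ric (g0 a) x).PosSemidef) ∧
      K.Vol (realAtlas m X) g0 μ0 := by
  obtain ⟨ψ, hψ, hpos, heq⟩ := Vale.Agent.P272.K.AMP.NF.ke_of_nef
    (Vale.Agent.P272.K.aubinYau m X) hw le_rfl hnef eta heta
  have hχ := Vale.Agent.P272.K.isKahler_twist hψ hw eta hpos
  set χ : Chart m X → Cm m → Matrix (Fin m) (Fin m) ℂ :=
    fun e z => cHess (ψ e) z + (eta : ℂ) • w e z with hχd
  have hherm := hB.herm m X χ hχ.toIsHermitian
  obtain ⟨μ, hμ⟩ := hB.vol _ (stdJ m) X (realAtlas m X) (realG χ) (hB.atl m X) hherm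
  have key : ∀ a p x, K.At (realAtlas m X a) p x →
      realG χ a x + K.ric (realG χ a) x = eta • realG w a x := by
    intro a p x hx
    rw [hB.ric m X χ hχ a p x hx]
    have hp : p ∈ (chartAt (Cm m) a).source := by
      have := hx.1
      simpa [realAtlas] using this
    have hx2 : (toReal m).symm x = chartAt (Cm m) a p := by
      rw [← hx.2]
      exact (toReal m).symm_apply_apply _
    have h1 := heq (chartAt (Cm m) a) p ⟨chart_mem_atlas _ a, hp⟩
    unfold realG
    rw [hx2, ← hB.alg.add, ← hB.alg.smul, ← h1]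
    exact congrArg realM (add_comm _ _)
  refine ⟨realG χ, μ, hherm, hB.kah m X χ hχ, fun a p x hx => ?_, fun a p x hx => ?_, hμ⟩
  · have h1 : eta • realG w a x - realG χ a x - K.ric (realG χ a) x = 0 := by
      rw [← key a p x hx]
      abel
    rw [h1]
    exact Matrix.PosSemidef.zero
  · rw [key a p x hx]
    have hp : p ∈ (chartAt (Cm m) a).source := by
      have := hx.1
      simpa [realAtlas] using this
    have hx2 : (toReal m).symm x = chartAt (Cm m) a p := by
      rw [← hx.2]
      exact (toReal m).symm_apply_apply _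
    refine Matrix.PosSemidef.smul (hB.alg.posSemidef m _ ?_) heta.le
    rw [hx2]
    exact (hw.posDef _ p ⟨chart_mem_atlas _ a, hp⟩).posSemidef

/-- The inequality for all Hermitian metrics on closed Kähler manifolds with nef canonical bundle,
and on their coverings. -/
theorem nef_hermitian (hB : Blocks) (hm : 2 ≤ m) [ConnectedSpace X]
    {w : Chart m X → Cm m → Matrix (Fin m) (Fin m) ℂ} (hw : IsKahler w) (hnef : NefCanonical w 0)
    {d : ℕ} {Y : Type} [TopologicalSpace Y] [T2Space Y] [CompactSpace Y] [MeasurableSpace Y]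
    [BorelSpace Y] {c' : Y → K.Ch (m + m) Y} (hY : K.Atl (stdJ m) c') {f : Y → X}
    (hf : IsCoveringMap f) (hd : ∀ p, (f ⁻¹' {p}).encard = d)
    (hl : ∀ q p x, K.At (c' q) p x → K.At (realAtlas m X (f q)) (f p) x)
    {g : Y → (Fin (m + m) → ℝ) → Matrix (Fin (m + m)) (Fin (m + m)) ℝ}
    (hg : K.Herm (stdJ m) c' g) {μ : Measure Y} (hμ : K.Vol c' g μ) :
    K.sv c' ≤ ENNReal.ofReal (J.kap (m + m) ^ (m + m)) * K.I c' g μ := by
  let _ : MeasurableSpace X := borel X
  have : BorelSpace X := ⟨rfl⟩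
  exact kahler (by omega) (hB.alg.sqr m) (hB.atl m X) (hB.herm m X w hw.toIsHermitian)
    (fun eta heta => yau hB hw hnef eta heta) hY hf hd hl hg hμ

end

end Vale.Agent.P223.H959
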