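import Vale.Agent.P223.H959.SpecH
import Vale.Agent.P223.H959.F

/-! Block G2, G4: the inequality for holomorphic maps. -/

open scoped Matrix ContDiff Topology Manifold
open Finset MeasureTheory

namespace Vale.Agent.P223.H959

section

variable {n : ℕ} {M' : Type} [TopologicalSpace M'] [ChartedSpace (Fin n → ℝ) M']
  [MeasurableSpace M'] [BorelSpace M'] [IsManifold 𝓘(ℝ, Fin n → ℝ) ∞ M'] [CompactSpace M']
  [T2Space M']
  {M : Type} [TopologicalSpace M] [ChartedSpace (Fin n → ℝ) M]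
  [MeasurableSpace M] [BorelSpace M] [IsManifold 𝓘(ℝ, Fin n → ℝ) ∞ M] [T2Space M] [CompactSpace M]
  {J : Matrix (Fin n) (Fin n) ℝ} {p : M' → M} {d : ℕ}

/-- curvature inequality for holomorphic maps -/
theorem holo_ineq (hArea : SpecArea) (hn : 3 ≤ n) (hJ : J * J = -1) (hM' : HoloAtlas J M')
    (hp : HoloMap J p) {lam : ℝ} (hlam : 0 ≤ lam) {V : ENNReal} (h : RMetric (Fin n) M)
    {g : RMetric (Fin n) M'} (hg : g.IsHermitian J) {μ : Measure M'} (hμ : IsVol g μ)
    (hV : ∀ eta : ℝ, 0 < eta → ∃ (g0 : RMetric (Fin n) M) (μ0 : Measure M),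
      g0.IsHermitian J ∧ g0.IsKahler J ∧ RicciLe g0 h lam eta ∧ IsVol g0 μ0 ∧ V ≤ μ0 Set.univ ∧
      ∀ y : M, (∀ q, p q = y → relJac g g0 p q ≠ 0) → (d : ℕ∞) ≤ (p ⁻¹' {y}).encard) :
    ENNReal.ofReal (((n : ℝ) * lam) ^ ((n : ℝ) / 2)) * (d * V)
      ≤ ∫⁻ q, ENNReal.ofReal ((max 0 (-g.scalar q)) ^ ((n : ℝ) / 2)) ∂μ := by
  haveI : IsFiniteMeasure μ := hμ.isFiniteMeasure
  obtain ⟨C, hC0, hC⟩ := exists_comparison hp g h
  refine le_of_forall_eta g μ fun eta heta => ?_
  obtain ⟨g0, μ0, hg0, hk, hric, hμ0, hVle, hdeg⟩ := hV (eta / (C + 1)) (by (clear * - heta hC0; positivity))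
  have hRB : RicBound g g0 p lam eta := by
    intro e he e' he' x hx hx' v w hw
    have h1 := hric e' he' (cmap p e e' x) (e'.map_source hx') w
    have hq := hC e he e' he' (e.symm x) (e.map_target hx) hx' v
    rw [e.right_inv hx] at hq
    rw [← hw] at hq
    have h2 : ∑ a, ∑ b, w a * w b * h.mat e' (cmap p e e' x) a b
        ≤ C * ∑ a, ∑ b, v a * v b * g.mat e x a b := hq
    have h3 : 0 ≤ ∑ a, ∑ b, w a * w b * h.mat e' (cmap p e e' x) a b := by
      have h4 := ((h.isMetric e' he').posDef _ (e'.map_source hx')).posSemidef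
      have h5 := h4.dotProduct_mulVec_nonneg w
      have h6 : (∑ a, ∑ b, w a * w b * h.mat e' (cmap p e e' x) a b)
          = star w ⬝ᵥ (h.mat e' (e' (p (e.symm x)))) *ᵥ w := by
        unfold dotProduct
        refine Finset.sum_congr rfl fun a _ => ?_
        have hm : ((h.mat e' (e' (p (e.symm x)))) *ᵥ w) a
            = ∑ b, (h.mat e' (e' (p (e.symm x)))) a b * w b := rfl
        rw [hm, Finset.mul_sum]
        refine Finset.sum_congr rfl fun b _ => ?_
        simp only [Pi.star_apply, star_trivial]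
        show w a * w b * h.mat e' (e' (p (e.symm x))) a b = _
        ring
      rw [h6]
      exact h5
    have hg0' : 0 ≤ ∑ a, ∑ b, v a * v b * g.mat e x a b := by
      by_contra hneg
      push Not at hneg
      have h4 := ((g.isMetric e he).posDef _ hx).posSemidef
      have h5 := h4.dotProduct_mulVec_nonneg v
      have h6 : (∑ a, ∑ b, v a * v b * g.mat e x a b) = star v ⬝ᵥ (g.mat e x) *ᵥ v := by
        unfold dotProduct
        refine Finset.sum_congr rfl fun a _ => ?_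
        have hm : ((g.mat e x) *ᵥ v) a = ∑ b, (g.mat e x) a b * v b := rfl
        rw [hm, Finset.mul_sum]
        refine Finset.sum_congr rfl fun b _ => ?_
        simp only [Pi.star_apply, star_trivial]
        ring
      rw [h6] at hneg
      exact absurd h5 (not_le.mpr hneg)
    have h7 : eta / (C + 1) * (∑ a, ∑ b, w a * w b * h.mat e' (cmap p e e' x) a b)
        ≤ eta * ∑ a, ∑ b, v a * v b * g.mat e x a b := by
      have hC1 : 0 < C + 1 := by (clear * - hC0; positivity)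
      calc eta / (C + 1) * (∑ a, ∑ b, w a * w b * h.mat e' (cmap p e e' x) a b)
          ≤ eta / (C + 1) * (C * ∑ a, ∑ b, v a * v b * g.mat e x a b) :=
            mul_le_mul_of_nonneg_left h2 (by (clear * - heta hC0; positivity))
        _ = eta * (C / (C + 1)) * ∑ a, ∑ b, v a * v b * g.mat e x a b := by ring
        _ ≤ eta * 1 * ∑ a, ∑ b, v a * v b * g.mat e x a b := by
            refine mul_le_mul_of_nonneg_right ?_ hg0'
            refine mul_le_mul_of_nonneg_left ?_ heta.le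
            rw [div_le_one hC1]
            linarith only []
        _ = _ := by ring
    linarith
  have hmain := main_ineq (μ := μ) hμ hJ hM' hp hg hg0 hk (by simpa only [Fintype.card_fin] using hn) hlam heta.le hRB
  have harea := hArea n J M' M p g μ g0 μ0 d hJ hμ hμ0 hp hdeg
  simp only [Fintype.card_fin] at hmain
  refine le_trans ?_ hmain
  refine mul_le_mul_right ?_ _
  exact le_trans (by (clear * - hVle; gcongr)) harea

end

/-- the inequality for holomorphic maps, in the notation of `K` -/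
theorem Kholo (hArea : SpecArea) (hKH : SpecKHol) {n : ℕ} (hn : 3 ≤ n)
    {A : Matrix (Fin n) (Fin n) ℝ} (hJ : A * A = -1) {X Y : Type} [TopologicalSpace X] [T2Space X]
    [CompactSpace X] [MeasurableSpace X] [BorelSpace X] [TopologicalSpace Y] [T2Space Y]
    [CompactSpace Y] [MeasurableSpace Y] [BorelSpace Y] {c : X → K.Ch n X} (hc : K.Atl A c)
    {h : X → (Fin n → ℝ) → Matrix (Fin n) (Fin n) ℝ} (hh : K.Herm A c h)
    {V : ENNReal} (hV : ∀ eta : ℝ, 0 < eta → ∃ g0 μ0, K.Herm A c g0 ∧ K.Kah A c g0 ∧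
      K.RicLe c g0 h eta ∧ K.Vol c g0 μ0 ∧ V ≤ μ0 Set.univ)
    {d : ℕ} {c' : Y → K.Ch n Y} (hc' : K.Atl A c') {f : Y → X} (hf : Hol A c' c f)
    (hd : DegGe c' c f d) {g : Y → (Fin n → ℝ) → Matrix (Fin n) (Fin n) ℝ} (hg : K.Herm A c' g)
    {μ : Measure Y} (hμ : K.Vol c' g μ) :
    d * V ≤ K.I c' g μ := by
  letI i1 := toCS hc
  letI i2 := toCS hc'
  haveI := isManifold_of_atl hc
  haveI := isManifold_of_atl hc'
  have hn0 : (0 : ℝ) < n := by
    have : (3 : ℝ) ≤ n := by exact_mod_cast hn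
    linarith only [this]
  set κ : ENNReal := ENNReal.ofReal (((n : ℝ) * 1) ^ ((n : ℝ) / 2)) with hκ
  have hκ0 : κ ≠ 0 := by
    rw [hκ]
    exact (ENNReal.ofReal_pos.mpr (by positivity)).ne'
  have hκt : κ ≠ ⊤ := ENNReal.ofReal_ne_top
  have hmain := holo_ineq hArea hn hJ (holoAtlas_of_atl hc') (lam := 1) (V := V) (d := d)
    (hKH n A X Y c c' hc hc' f d g h hg hh hf).1 zero_le_one (toRM hc hh) (toRM_herm hc' hg)
    (toRM_vol hc' hg hμ) (fun eta heta => by
      obtain ⟨g0, μ0, h1, h2, h3, h4, h5⟩ := hV eta heta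
      exact ⟨toRM hc h1, μ0, toRM_herm hc h1, toRM_kahler hc h1 h2, toRM_ricLe hc h1 hh h3,
        toRM_vol hc h1 h4, h5, (hKH n A X Y c c' hc hc' f d g g0 hg h1 hf).2 hd⟩)
  rw [integral_eq hc' hn hg μ, ← hκ] at hmain
  exact (ENNReal.mul_le_mul_iff_right hκ0 hκt).mp hmain

/-- The inequality for holomorphic maps onto closed Kähler manifolds with nef canonical bundle. -/
theorem nef_holo (hB : Blocks) (hArea : SpecArea) (hKH : SpecKHol) {m : ℕ} (hm : 2 ≤ m) {X : Type}
    [TopologicalSpace X] [T2Space X] [CompactSpace X] [ConnectedSpace X]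
    [ChartedSpace (P272.K.Cm m) X] [IsManifold 𝓘(ℂ, P272.K.Cm m) ω X]
    {w : P272.K.Chart m X → P272.K.Cm m → Matrix (Fin m) (Fin m) ℂ} (hw : P272.K.IsKahler w)
    (hnef : P272.K.NefCanonical w 0)
    {d : ℕ} {Y : Type} [TopologicalSpace Y] [T2Space Y] [CompactSpace Y] [MeasurableSpace Y]
    [BorelSpace Y] {c' : Y → K.Ch (m + m) Y} (hY : K.Atl (stdJ m) c') {f : Y → X}
    (hf : Hol (stdJ m) c' (realAtlas m X) f) (hd : DegGe c' (realAtlas m X) f d)
    {g : Y → (Fin (m + m) → ℝ) → Matrix (Fin (m + m)) (Fin (m + m)) ℝ}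
    (hg : K.Herm (stdJ m) c' g) {μ : Measure Y} (hμ : K.Vol c' g μ) :
    d * K.sv (realAtlas m X) ≤ ENNReal.ofReal (J.kap (m + m) ^ (m + m)) * K.I c' g μ := by
  let _ : MeasurableSpace X := borel X
  have : BorelSpace X := ⟨rfl⟩
  have hn3 : 3 ≤ m + m := by omega
  have hn4 : 4 ≤ m + m := by omega
  have hJ := hB.alg.sqr m
  have hk : 0 < J.kap (m + m) := by
    have h1 : (4 : ℝ) ≤ ((m + m : ℕ) : ℝ) := by exact_mod_cast hn4
    have h2 : 0 ≤ √((m + m : ℕ) : ℝ) := Real.sqrt_nonneg _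
    unfold J.kap
    linarith only [h1, h2]
  set C : ENNReal := ENNReal.ofReal (J.kap (m + m) ^ (m + m)) with hC
  have hC0 : C ≠ 0 := (ENNReal.ofReal_pos.mpr (pow_pos hk _)).ne'
  have hCt : C ≠ ⊤ := ENNReal.ofReal_ne_top
  have key : ∀ eta : ℝ, 0 < eta → ∃ g0 μ0, K.Herm (stdJ m) (realAtlas m X) g0 ∧
      K.Kah (stdJ m) (realAtlas m X) g0 ∧ K.RicLe (realAtlas m X) g0 (realG w) eta ∧
      K.Vol (realAtlas m X) g0 μ0 ∧ K.sv (realAtlas m X) / C ≤ μ0 Set.univ := by
    intro eta heta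
    obtain ⟨g0, μ0, h1, h2, h3, h4, h5⟩ := yau hB hw hnef eta heta
    refine ⟨g0, μ0, h1, h2, h3, h5, ENNReal.div_le_of_le_mul' ?_⟩
    have h6 := Vale.Agent.P223.X.FinalM.ricci Vale.Agent.P223.X.hb Vale.Agent.P223.X.hu hn4
      (atl hJ (hB.atl m X) h1) g0 μ0 (met (hB.atl m X) h1) (vol h5) (fun _ => 1) continuous_const
      (fun _ => zero_le_one) (ricGe h1 h4)
    rw [L_one] at h6
    exact sv_le.trans h6
  have h7 := Kholo hArea hKH hn3 hJ (hB.atl m X) (hB.herm m X w hw.toIsHermitian) key hY hf hd hg hμ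
  calc (d : ENNReal) * K.sv (realAtlas m X)
      = C * (d * (K.sv (realAtlas m X) / C)) := by
        rw [mul_left_comm, ENNReal.mul_div_cancel hC0 hCt]
    _ ≤ C * K.I c' g μ := mul_le_mul_right h7 _

end Vale.Agent.P223.H959
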