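import Vale.Agent.P223.H959.SpecH
import Mathlib.MeasureTheory.Function.Jacobian
import Mathlib.Analysis.Calculus.InverseFunctionTheorem.ContDiff

/-! Block G1: the area inequality for holomorphic maps of degree `≥ d` (helper493). -/

open scoped ContDiff Manifold Matrix Topology
open MeasureTheory

namespace Vale.Agent.P223.H959.G1

section

variable {ι : Type} [Fintype ι] [DecidableEq ι]
variable {M : Type} [TopologicalSpace M] [ChartedSpace (ι → ℝ) M] [MeasurableSpace M]
  [BorelSpace M] [IsManifold 𝓘(ℝ, ι → ℝ) ∞ M] [CompactSpace M] [T2Space M]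
  {N : Type} [TopologicalSpace N] [ChartedSpace (ι → ℝ) N] [IsManifold 𝓘(ℝ, ι → ℝ) ∞ N]
  [MeasurableSpace N] [BorelSpace N]
  {J : Matrix ι ι ℝ} {f : M → N} {g : RMetric ι M} {g0 : RMetric ι N} {μ : Measure M}
  {μ0 : Measure N}

/-- near a regular point `f` is injective and open, and the change of variables holds -/
theorem loc (hJ : J * J = -1) (hμ : IsVol g μ) (hμ0 : IsVol g0 μ0) (hf : HoloMap J f)
    (p : M) (hp : relJac g g0 f p ≠ 0) :
    ∃ V : Set M, IsOpen V ∧ p ∈ V ∧ Set.InjOn f V ∧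
      ∀ A : Set M, MeasurableSet A → A ⊆ V → MeasurableSet (f '' A) ∧
        ∫⁻ q in A, ENNReal.ofReal (relJac g g0 f q) ∂μ = μ0 (f '' A) := by
  set e := chartAt (ι → ℝ) p with he_def
  set e' := chartAt (ι → ℝ) (f p) with he'_def
  have he : e ∈ atlas (ι → ℝ) M := chart_mem_atlas _ _
  have he' : e' ∈ atlas (ι → ℝ) N := chart_mem_atlas _ _
  have hpe : p ∈ e.source := mem_chart_source _ _
  have hpe' : f p ∈ e'.source := mem_chart_source _ _
  have hx : e p ∈ e.target := e.map_source hpe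
  have hx' : f (e.symm (e p)) ∈ e'.source := by rw [e.left_inv hpe]; exact hpe'
  have hsm : ContDiffAt ℝ ∞ (cmap f e e') (e p) := hf.smooth e he e' he' _ hx hx'
  have hdet : (fderiv ℝ (cmap f e e') (e p)).det ≠ 0 := by
    intro h0
    apply hp
    rw [relJac_eq hf g g0 he hpe, pden_eq hf g0 he he' hx hx', ← fderiv_det hsm, h0]
    simp
  have hstrict : HasStrictFDerivAt (cmap f e e')
      (((fderiv ℝ (cmap f e e') (e p)).toContinuousLinearEquivOfDetNeZero hdet :
        (ι → ℝ) ≃L[ℝ] (ι → ℝ)) : (ι → ℝ) →L[ℝ] (ι → ℝ)) (e p) := by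
    rw [ContinuousLinearMap.coe_toContinuousLinearEquivOfDetNeZero]
    exact hsm.hasStrictFDerivAt (by simp)
  set φ := hstrict.toOpenPartialHomeomorph (cmap f e e') with hφ
  have hφc : (φ : (ι → ℝ) → (ι → ℝ)) = cmap f e e' := hstrict.toOpenPartialHomeomorph_coe
  have hφx : e p ∈ φ.source := hstrict.mem_toOpenPartialHomeomorph_source
  set θ := (e.trans φ).trans e'.symm with hθ
  have hθf : ∀ q ∈ θ.source, f q ∈ e'.source → θ q = f q := by
    intro q hq hq'
    have hqe : q ∈ e.source := by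
      rw [hθ, OpenPartialHomeomorph.trans_source, OpenPartialHomeomorph.trans_source] at hq
      exact hq.1.1
    show e'.symm (φ (e q)) = f q
    rw [hφc]
    show e'.symm (e' (f (e.symm (e q)))) = f q
    rw [e.left_inv hqe, e'.left_inv hq']
  have hpθ : p ∈ θ.source := by
    rw [hθ, OpenPartialHomeomorph.trans_source, OpenPartialHomeomorph.trans_source]
    refine ⟨⟨hpe, hφx⟩, ?_⟩
    show φ (e p) ∈ e'.symm.source
    rw [hφc]
    show e' (f (e.symm (e p))) ∈ e'.target
    rw [e.left_inv hpe]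
    exact e'.map_source hpe'
  have hθe : θ.source ⊆ e.source := by
    intro q hq
    rw [hθ, OpenPartialHomeomorph.trans_source, OpenPartialHomeomorph.trans_source] at hq
    exact hq.1.1
  set V := θ.source ∩ f ⁻¹' e'.source with hV
  have hVo : IsOpen V := θ.open_source.inter (e'.open_source.preimage hf.cont)
  have hVθ : Set.EqOn f θ V := fun q hq => (hθf q hq.1 hq.2).symm
  have hinj : Set.InjOn f V := (hVθ.injOn_iff).2 (θ.injOn.mono Set.inter_subset_left)
  have hopen : ∀ O : Set M, IsOpen O → O ⊆ V → IsOpen (f '' O) := by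
    intro O hO hOV
    rw [Set.image_congr fun q hq => hVθ (hOV hq)]
    exact θ.isOpen_image_of_subset_source hO (hOV.trans Set.inter_subset_left)
  refine ⟨V, hVo, ⟨hpθ, hpe'⟩, hinj, fun A hA hAV => ?_⟩
  have hfA : MeasurableSet (f '' A) := by
    have h1 : Topology.IsOpenEmbedding (fun x : V => f x) := by
      refine Topology.IsOpenEmbedding.of_continuous_injective_isOpenMap
        (hf.cont.comp continuous_subtype_val) ?_ ?_
      · intro x y hxy
        exact Subtype.ext (hinj x.2 y.2 hxy)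
      · intro O hO
        have h2 : (fun x : V => f x) '' O = f '' (Subtype.val '' O) := by
          rw [Set.image_image]
        rw [h2]
        refine hopen _ (hVo.isOpenMap_subtype_val O hO) ?_
        rintro _ ⟨x, _, rfl⟩
        exact x.2
    have h2 : f '' A = (fun x : V => f x) '' (Subtype.val ⁻¹' A) := by
      ext y
      constructor
      · rintro ⟨q, hq, rfl⟩
        exact ⟨⟨q, hAV hq⟩, hq, rfl⟩
      · rintro ⟨⟨q, hqV⟩, hq, rfl⟩
        exact ⟨q, hq, rfl⟩
    rw [h2]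
    exact h1.measurableEmbedding.measurableSet_image.mpr (measurable_subtype_coe hA)
  exact ⟨hfA, cover_local hJ hμ hμ0 hf he he' hA ((hAV.trans Set.inter_subset_left).trans hθe)
    (hAV.trans Set.inter_subset_right) (hinj.mono hAV) hfA⟩

/-- a set in a chart whose coordinate image is a null set is a null set -/
theorem null_of_chart (hμ0 : IsVol g0 μ0) {e' : OpenPartialHomeomorph N (ι → ℝ)}
    (he' : e' ∈ atlas (ι → ℝ) N) {S : Set N} (hS : S ⊆ e'.source)
    (h0 : (volume : Measure (ι → ℝ)) (e' '' S) = 0) : μ0 S = 0 := by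
  set T := toMeasurable (volume : Measure (ι → ℝ)) (e' '' S) with hT
  have hTm : MeasurableSet T := measurableSet_toMeasurable _ _
  have hT0 : (volume : Measure (ι → ℝ)) T = 0 := by rw [hT, measure_toMeasurable, h0]
  have hsub : e' '' S ⊆ T := subset_toMeasurable _ _
  have hm : MeasurableSet (e'.source ∩ e' ⁻¹' T) := by
    have h1 : e'.source ∩ e' ⁻¹' T = Subtype.val '' {x : e'.source | e' x ∈ T} := by
      ext y
      constructor
      · rintro ⟨h1, h2⟩
        exact ⟨⟨y, h1⟩, h2, rfl⟩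
      · rintro ⟨⟨z, hz⟩, h2, rfl⟩
        exact ⟨hz, h2⟩
    rw [h1]
    apply e'.open_source.measurableSet.subtype_image
    have h2 : Continuous (fun x : e'.source => e' x) := e'.continuousOn.domRestrict
    exact h2.measurable hTm
  have hle : μ0 S ≤ μ0 (e'.source ∩ e' ⁻¹' T) :=
    measure_mono fun y hy => ⟨hS hy, hsub ⟨y, hy, rfl⟩⟩
  rw [hμ0 e' he' _ hm Set.inter_subset_left] at hle
  have hz : (volume : Measure (ι → ℝ)) (e' '' (e'.source ∩ e' ⁻¹' T)) = 0 := by
    refine measure_mono_null ?_ hT0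
    rintro _ ⟨y, hy, rfl⟩
    exact hy.2
  rw [Measure.restrict_eq_zero.2 hz, lintegral_zero_measure] at hle
  exact nonpos_iff_eq_zero.1 hle

/-- Sard -/
theorem crit_null (hμ0 : IsVol g0 μ0) (hf : HoloMap J f) (g : RMetric ι M) :
    μ0 (f '' {p | relJac g g0 f p = 0}) = 0 := by
  have hcov : ∀ p : M, (chartAt (ι → ℝ) p).source ∩ f ⁻¹' (chartAt (ι → ℝ) (f p)).source ∈ 𝓝 p :=
    fun p => ((chartAt (ι → ℝ) p).open_source.inter
      ((chartAt (ι → ℝ) (f p)).open_source.preimage hf.cont)).mem_nhds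
      ⟨mem_chart_source _ _, mem_chart_source _ _⟩
  obtain ⟨s, hsc, hs⟩ := countable_cover_nhds_of_sigmaCompact hcov
  have hsub : f '' {p | relJac g g0 f p = 0} ⊆ ⋃ a ∈ s, f '' ({p | relJac g g0 f p = 0} ∩
      ((chartAt (ι → ℝ) a).source ∩ f ⁻¹' (chartAt (ι → ℝ) (f a)).source)) := by
    rintro _ ⟨p, hp, rfl⟩
    have h1 : p ∈ ⋃ a ∈ s, ((chartAt (ι → ℝ) a).source ∩
        f ⁻¹' (chartAt (ι → ℝ) (f a)).source) := by rw [hs]; trivial
    obtain ⟨a, ha, hpa⟩ := Set.mem_iUnion₂.1 h1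
    exact Set.mem_iUnion₂.2 ⟨a, ha, p, ⟨hp, hpa⟩, rfl⟩
  refine measure_mono_null hsub ((measure_biUnion_null_iff hsc).2 fun a _ => ?_)
  set e := chartAt (ι → ℝ) a with he_def
  set e' := chartAt (ι → ℝ) (f a) with he'_def
  have he : e ∈ atlas (ι → ℝ) M := chart_mem_atlas _ _
  have he' : e' ∈ atlas (ι → ℝ) N := chart_mem_atlas _ _
  set S := {p | relJac g g0 f p = 0} ∩ (e.source ∩ f ⁻¹' e'.source) with hS
  refine null_of_chart hμ0 he' (S := f '' S) ?_ ?_
  · rintro _ ⟨p, hp, rfl⟩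
    exact hp.2.2
  have himg : e' '' (f '' S) = cmap f e e' '' (e '' S) := by
    ext y
    constructor
    · rintro ⟨_, ⟨p, hp, rfl⟩, rfl⟩
      refine ⟨e p, ⟨p, hp, rfl⟩, ?_⟩
      show e' (f (e.symm (e p))) = _
      rw [e.left_inv hp.2.1]
    · rintro ⟨_, ⟨p, hp, rfl⟩, rfl⟩
      refine ⟨f p, ⟨p, hp, rfl⟩, ?_⟩
      show _ = e' (f (e.symm (e p)))
      rw [e.left_inv hp.2.1]
  rw [himg]
  have hdom : ∀ x ∈ e '' S, x ∈ e.target ∧ f (e.symm x) ∈ e'.source ∧
      relJac g g0 f (e.symm x) = 0 := by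
    rintro _ ⟨p, hp, rfl⟩
    rw [e.left_inv hp.2.1]
    exact ⟨e.map_source hp.2.1, hp.2.2, hp.1⟩
  refine addHaar_image_eq_zero_of_det_fderivWithin_eq_zero volume
    (f' := fun x => fderiv ℝ (cmap f e e') x) ?_ ?_
  · intro x hx
    obtain ⟨hx1, hx2, _⟩ := hdom x hx
    exact ((hf.smooth e he e' he' x hx1 hx2).differentiableAt
      (by simp)).hasFDerivAt.hasFDerivWithinAt
  · intro x hx
    obtain ⟨hx1, hx2, hx3⟩ := hdom x hx
    rw [fderiv_det (hf.smooth e he e' he' x hx1 hx2)]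
    rw [relJac_eq hf g g0 he (e.map_target hx1), e.right_inv hx1] at hx3
    have hd := (g.isMetric e he).dens_pos hx1
    have h4 : pden g0 f e x = 0 := by
      rcases div_eq_zero_iff.1 hx3 with h | h
      · exact h
      · exact absurd h hd.ne'
    rw [pden_eq hf g0 he he' hx1 hx2] at h4
    have hd0 : 0 < dens (g0.mat e') (cmap f e e' x) :=
      (g0.isMetric e' he').dens_pos (e'.map_source hx2)
    rcases mul_eq_zero.1 h4 with h | h
    · exact absurd h hd0.ne'
    · exact abs_eq_zero.1 h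

/-- the area inequality -/
theorem area (hJ : J * J = -1) (hμ : IsVol g μ) (hμ0 : IsVol g0 μ0) (hf : HoloMap J f) (d : ℕ)
    (hd : ∀ y : N, (∀ p, f p = y → relJac g g0 f p ≠ 0) → (d : ℕ∞) ≤ (f ⁻¹' {y}).encard) :
    d * μ0 Set.univ ≤ ∫⁻ p, ENNReal.ofReal (relJac g g0 f p) ∂μ := by
  have hsec : SecondCountableTopology M := ChartedSpace.secondCountable_of_sigmaCompact (ι → ℝ) M
  set U : Set M := {p | relJac g g0 f p ≠ 0} with hU
  have key : ∃ W : ℕ → Set M, (∀ k, IsOpen (W k)) ∧ U ⊆ ⋃ k, W k ∧ (∀ k, Set.InjOn f (W k)) ∧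
      ∀ k, ∀ A : Set M, MeasurableSet A → A ⊆ W k → MeasurableSet (f '' A) ∧
        ∫⁻ q in A, ENNReal.ofReal (relJac g g0 f q) ∂μ = μ0 (f '' A) := by
    choose! V hVo hVp hVinj hV using fun p (hp : p ∈ U) => loc hJ hμ hμ0 hf p hp
    obtain ⟨t, htU, htc, ht⟩ := TopologicalSpace.countable_cover_nhdsWithin (s := U) (f := V)
      fun x hx => mem_nhdsWithin_of_mem_nhds ((hVo x hx).mem_nhds (hVp x hx))
    rcases t.eq_empty_or_nonempty with h | h
    · refine ⟨fun _ => ∅, fun _ => isOpen_empty, ?_, fun _ => Set.injOn_empty f, fun k A hA hAe => ?_⟩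
      · rw [h] at ht
        simpa using ht
      · have : A = ∅ := Set.subset_empty_iff.1 hAe
        subst this
        simp
    · obtain ⟨a, ha⟩ := htc.exists_eq_range h
      have hat : ∀ k, a k ∈ U := fun k => htU (by rw [ha]; exact ⟨k, rfl⟩)
      refine ⟨fun k => V (a k), fun k => hVo _ (hat k), ?_, fun k => hVinj _ (hat k),
        fun k => hV _ (hat k)⟩
      rw [ha, Set.biUnion_range] at ht
      exact ht
  obtain ⟨W, hWo, hWU, hWinj, hW⟩ := key
  set A : ℕ → Set M := disjointed W with hAd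
  have hAm : ∀ k, MeasurableSet (A k) := fun k =>
    MeasurableSet.disjointed (fun k => (hWo k).measurableSet) k
  have hAW : ∀ k, A k ⊆ W k := fun k => disjointed_subset W k
  have hAu : U ⊆ ⋃ k, A k := by
    rw [iUnion_disjointed]
    exact hWU
  have hAdj : Pairwise (Function.onFun Disjoint A) := disjoint_disjointed W
  have hfA : ∀ k, MeasurableSet (f '' A k) := fun k => (hW k _ (hAm k) (hAW k)).1
  have hloc2 : ∀ k, ∫⁻ p in A k, ENNReal.ofReal (relJac g g0 f p) ∂μ = μ0 (f '' A k) := fun k =>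
    (hW k _ (hAm k) (hAW k)).2
  have h1 : ∫⁻ p in ⋃ k, A k, ENNReal.ofReal (relJac g g0 f p) ∂μ
      ≤ ∫⁻ p, ENNReal.ofReal (relJac g g0 f p) ∂μ := setLIntegral_le_lintegral _ _
  refine le_trans ?_ h1
  rw [lintegral_iUnion hAm hAdj]
  simp only [hloc2]
  have h3 : ∀ k, μ0 (f '' A k) = ∫⁻ y, (f '' A k).indicator 1 y ∂μ0 := fun k => by
    rw [lintegral_indicator_one (hfA k)]
  simp only [h3]
  rw [← lintegral_tsum fun k => (measurable_one.indicator (hfA k)).aemeasurable,
    ← lintegral_const]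
  refine lintegral_mono_ae ?_
  have hnull : ∀ᵐ y ∂μ0, y ∉ f '' {p | relJac g g0 f p = 0} :=
    compl_mem_ae_iff.2 (crit_null hμ0 hf g)
  filter_upwards [hnull] with y hy
  have hreg : ∀ p, f p = y → relJac g g0 f p ≠ 0 := fun p hp h0 => hy ⟨p, h0, hp⟩
  set S : Set ℕ := {k | y ∈ f '' A k} with hS
  have e1 : ∀ k, (f '' A k).indicator (1 : N → ENNReal) y =
      S.indicator (fun _ => (1 : ENNReal)) k := by
    intro k
    by_cases hk : y ∈ f '' A k
    · rw [Set.indicator_of_mem hk, Set.indicator_of_mem (show k ∈ S from hk)]; rfl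
    · rw [Set.indicator_of_notMem hk, Set.indicator_of_notMem (show k ∉ S from hk)]
  simp only [e1]
  rw [← _root_.tsum_subtype, ENNReal.tsum_set_one]
  have e2 : S.encard = (f ⁻¹' {y}).encard := by
    have hk : ∀ p : M, p ∈ f ⁻¹' {y} → ∃ k, p ∈ A k := fun p hp =>
      Set.mem_iUnion.1 (hAu (hreg p hp))
    choose! κ hκ using hk
    have hinj : Set.InjOn κ (f ⁻¹' {y}) := by
      intro p hp q hq hpq
      have h5 : q ∈ A (κ p) := by rw [hpq]; exact hκ q hq
      exact hWinj _ (hAW _ (hκ p hp)) (hAW _ h5) ((hp : f p = y).trans (hq : f q = y).symm)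
    have himg : κ '' (f ⁻¹' {y}) = S := by
      ext k
      constructor
      · rintro ⟨p, hp, rfl⟩
        exact ⟨p, hκ p hp, hp⟩
      · rintro ⟨p, hp, hpy⟩
        refine ⟨p, hpy, ?_⟩
        by_contra hne
        exact Set.disjoint_left.mp (hAdj hne) (hκ p hpy) hp
    rw [← himg, hinj.encard_image]
  rw [e2]
  have h6 := hd y hreg
  have h7 : ((d : ℕ∞) : ENNReal) ≤ ((f ⁻¹' {y}).encard : ENNReal) := by exact_mod_cast h6
  simpa using h7

end

end Vale.Agent.P223.H959.G1

namespace Vale.Agent.P223.H959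

theorem specArea : SpecArea := by
  intro n J M N _ _ _ _ _ _ _ _ _ _ _ _ _ _ f g μ g0 μ0 d hJ hμ hμ0 hf hd
  exact G1.area hJ hμ hμ0 hf d hd

end Vale.Agent.P223.H959
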