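import Vale.Agent.P223.H959.PosAdj
import Vale.Agent.Results.P285.NonposHSC

/-! Hermitian metrics of nonpositive holomorphic sectional curvature: positivity of `K_X + α`. -/

open scoped Manifold ContDiff ComplexOrder Matrix

namespace Vale.Agent.P223.H959

open Vale.Agent.P272.K Vale.Agent.Results.P285.NonposHSC

theorem hsc_adjoint (hB : Blocks) (hTot : SpecTot) {n : ℕ} (hn : 1 ≤ n) (X : Type)
    [TopologicalSpace X] [T2Space X] [CompactSpace X] [ConnectedSpace X] [ChartedSpace (Cm n) X]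
    [IsManifold 𝓘(ℂ, Cm n) ω X] (w h : Chart n X → Cm n → Matrix (Fin n) (Fin n) ℂ)
    (hw : IsKahler w) (hh : IsHermitian h) (hneg : Vale.Agent.P272.K.NonposHSC h) :
    NefCanonical w 0 ∧
    ((TopPositive n X ∨ QuasiNegHSC h ∨ (∀ f : ℂ → X, ¬ IsFlatLine h f) ∨ BrodyHyperbolic n X ∨
        (2 ≤ n ∧ K.sv (realAtlas n X) ≠ 0)) →
      PositiveCanonical n X ∧
      ∀ b : Chart n X → Cm n → Matrix (Fin n) (Fin n) ℂ, IsClosed11 b → NefForm w b →
        ∃ φ : Chart n X → Cm n → ℝ, IsCanonicalMetric φ ∧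
          ∀ e x, At e x → (cHess (φ e) (e x) + b e (e x)).PosDef) := by
  obtain ⟨h1, h2⟩ := result n hn X w h hw hh hneg
  refine ⟨h1, fun h3 => ?_⟩
  have h4 : PositiveCanonical n X := by
    rcases h3 with h3 | h3 | h3 | h3 | ⟨hn2, hsv⟩
    · exact h2 (Or.inl h3)
    · exact h2 (Or.inr (Or.inl h3))
    · exact h2 (Or.inr (Or.inr (Or.inl h3)))
    · exact h2 (Or.inr (Or.inr (Or.inr h3)))
    · refine h2 (Or.inl ?_)
      obtain ⟨φ, hφ, -⟩ := h1 1 one_pos
      obtain ⟨I, -, hI, -, hpos⟩ := canonical_bound hB hTot hn2 X w hw h1 φ hφ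
      exact ⟨φ, hφ, I, hpos hsv, hI⟩
  refine ⟨h4, fun b _ hbn => ?_⟩
  obtain ⟨φ1, hφ1, hpos⟩ := h4
  exact pos_adjoint hw hbn hφ1 hpos

end Vale.Agent.P223.H959
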