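import Vale.Agent.P272.K.Stmt

/-! Closed real `(1,1)`-forms and nef classes on a compact complex manifold. -/

open scoped Manifold ContDiff ComplexOrder

namespace Vale.Agent.P223.H959

open Vale.Agent.P272.K

variable {m : ℕ} {X : Type} [TopologicalSpace X] [ChartedSpace (Cm m) X]

/-- `b` is a smooth closed `(1,1)`-form `i Σ b_{i j̄} dz_i ∧ dz̄_j` on `X`, given by its coefficient
matrices in the charts (for instance the curvature form of a Hermitian metric on a line bundle). -/
structure IsClosed11 (b : Chart m X → Cm m → Matrix (Fin m) (Fin m) ℂ) : Prop where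
  smooth : ∀ e x, At e x → ∀ i j, ContDiffAt ℝ ∞ (fun z => b e z i j) (e x)
  change : ∀ e e' x, At e x → At e' x →
    b e (e x) = (jacM e e' x).transpose * b e' (e' x) * (jacM e e' x).map (starRingEnd ℂ)
  closed : ∀ e x, At e x → ∀ i j k,
    dz k (fun z => b e z i j) (e x) = dz i (fun z => b e z k j) (e x)

/-- The class `[b]` is nef: for every `ε > 0` it contains a smooth form `b + i∂∂̄u ≥ -ε w`. -/
def NefForm (w b : Chart m X → Cm m → Matrix (Fin m) (Fin m) ℂ) : Prop :=
  ∀ ε : ℝ, 0 < ε → ∃ u : X → ℝ,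
    (∀ (e : Chart m X) (x : X), At e x → ContDiffAt ℝ ∞ (fun z => u (e.symm z)) (e x)) ∧
    ∀ (e : Chart m X) (x : X), At e x →
      (b e (e x) + cHess (fun z => u (e.symm z)) (e x) + (ε : ℂ) • w e (e x)).PosSemidef

/-- The class `K_X + [b]` is nef: for every `ε > 0` there is a smooth Hermitian metric on `K_X`
with curvature form `i∂∂̄φ` such that `i∂∂̄φ + b ≥ -ε w`. -/
def NefAdjoint (w b : Chart m X → Cm m → Matrix (Fin m) (Fin m) ℂ) : Prop :=
  ∀ ε : ℝ, 0 < ε → ∃ φ : Chart m X → Cm m → ℝ, IsCanonicalMetric φ ∧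
    ∀ e x, At e x → (cHess (φ e) (e x) + b e (e x) + (ε : ℂ) • w e (e x)).PosSemidef

end Vale.Agent.P223.H959
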