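import Vale.Agent.P223.H959.V
import Vale.Agent.P223.H959.Nef

/-! Twisted Kähler-Einstein metrics for `K_X + α`, `α` a Kähler class, and the volume bound for
`K_X + α`, `α` a nef class. -/

open scoped Manifold ContDiff ComplexOrder Matrix Topology
open MeasureTheory Filter

namespace Vale.Agent.P223.H959

open Vale.Agent.P272.K Vale.Agent.P272.K.INT

section
variable {n : ℕ} {X : Type} [TopologicalSpace X] [ChartedSpace (Cm n) X]
  [IsManifold 𝓘(ℂ, Cm n) ω X]

/-- twisted Kähler-Einstein metrics: `Ric χ = -χ + w`, `χ` in `K_X + [w]` -/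
theorem ke_of_pos (hAY : AubinYau n X) {w : Chart n X → Cm n → Matrix (Fin n) (Fin n) ℂ}
    (hw : IsKahler w) {φ0 : Chart n X → Cm n → ℝ} (hφ0 : IsCanonicalMetric φ0)
    (hpos : ∀ e x, At e x → (cHess (φ0 e) (e x) + w e (e x)).PosDef) :
    ∃ ψ : Chart n X → Cm n → ℝ, IsCanonicalMetric ψ ∧
      IsKahler (fun e z => cHess (ψ e) z + w e z) ∧
      ∀ e x, At e x → -cHess (fun z => Real.log (cHess (ψ e) z + w e z).det.re) (e x) +
        (cHess (ψ e) (e x) + w e (e x)) = w e (e x) := by
  have h1w : (fun (e : Chart n X) z => cHess (φ0 e) z + ((1 : ℝ) : ℂ) • w e z) =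
      fun e z => cHess (φ0 e) z + w e z := by
    funext e z
    rw [Complex.ofReal_one, one_smul]
  set χ : Chart n X → Cm n → Matrix (Fin n) (Fin n) ℂ :=
    fun e z => cHess (φ0 e) z + w e z with hχdef
  have hχ : IsKahler χ := by
    have := isKahler_twist hφ0 hw 1 (fun e x hx => by
      rw [Complex.ofReal_one, one_smul]
      exact hpos e x hx)
    rwa [h1w] at this
  obtain ⟨u, hu, hupos, heq⟩ := hAY χ hχ (ricPot χ φ0) (smoothFn_ricPot hχ.toIsHermitian hφ0)
  have hsm : ∀ e x, At e x → ContDiffAt ℝ ∞ (fun z => φ0 e z + u (e.symm z)) (e x) :=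
    fun e x hx => (hφ0.smooth e x hx).add (hu e x hx)
  have hcan : IsCanonicalMetric fun e z => φ0 e z + u (e.symm z) := by
    refine ⟨hsm, fun e e' x hx hx' => ?_⟩
    simp only [hx.left_inv, hx'.left_inv]
    rw [hφ0.change e e' x hx hx']; ring
  have hcH : ∀ e x, At e x → cHess (fun z => φ0 e z + u (e.symm z)) (e x) +
      w e (e x) = addH χ u e (e x) := by
    intro e x hx
    rw [cHess_add ((hφ0.smooth e x hx).of_le two_le_inf) ((hu e x hx).of_le two_le_inf)]
    simp only [addH, hχdef]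
    abel
  have hpos2 : ∀ e x, At e x →
      (cHess (fun z => φ0 e z + u (e.symm z)) (e x) + w e (e x)).PosDef := by
    intro e x hx
    rw [hcH e x hx]
    exact hupos e x hx
  refine ⟨fun e z => φ0 e z + u (e.symm z), hcan, ?_, fun e x hx => ?_⟩
  · have h2 := isKahler_twist hcan hw 1 (fun e x hx => by
      rw [Complex.ofReal_one, one_smul]
      exact hpos2 e x hx)
    have h3 : (fun (e : Chart n X) z => cHess (fun z => φ0 e z + u (e.symm z)) z +
        ((1 : ℝ) : ℂ) • w e z) = fun e z => cHess (fun z => φ0 e z + u (e.symm z)) z + w e z := by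
      funext e z
      rw [Complex.ofReal_one, one_smul]
    rwa [h3] at h2
  · have h1 : (fun z => Real.log (cHess (fun z => φ0 e z + u (e.symm z)) z +
        w e z).det.re) =ᶠ[𝓝 (e x)] fun z => φ0 e z + u (e.symm z) := by
      filter_upwards [hx.nhds_target] with z hz
      have hz' := At.of_target hx.1 hz
      have h2 := hcH e _ hz'
      have h3 := heq e _ hz'
      have h4 := ricPot_eq hχ.toIsHermitian hφ0 hz'
      rw [e.right_inv hz] at h2 h3 h4
      rw [h2]
      rw [h4] at h3
      linarith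
    rw [cHess_congr h1]
    abel

end

section
variable {m : ℕ} {X : Type} [TopologicalSpace X] [T2Space X] [CompactSpace X]
  [ChartedSpace (Cm m) X] [IsManifold 𝓘(ℂ, Cm m) ω X]

/-- Gromov's bound for the twisted Kähler-Einstein metric of a Kähler class. -/
theorem sv_le_kahler (hB : Blocks) (hTot : SpecTot) (hm : 2 ≤ m) [ConnectedSpace X]
    {w : Chart m X → Cm m → Matrix (Fin m) (Fin m) ℂ} (hw : IsKahler w)
    {φ0 : Chart m X → Cm m → ℝ} (hφ0 : IsCanonicalMetric φ0)
    (hpos : ∀ e x, At e x → (cHess (φ0 e) (e x) + w e (e x)).PosDef)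
    {φ : Chart m X → Cm m → ℝ} (hφ : IsCanonicalMetric φ) :
    K.sv (realAtlas m X) ≤ ENNReal.ofReal (J.kap (m + m) ^ (m + m)) *
      ENNReal.ofReal (2 ^ m * intX (fun (e : Chart m X) z => (cHess (φ e) z + w e z).det.re)) := by
  let _ : MeasurableSpace X := borel X
  have : BorelSpace X := ⟨rfl⟩
  have hn4 : 4 ≤ m + m := by omega
  have hJ := hB.alg.sqr m
  obtain ⟨ψ, hψ, hχ, heq⟩ := ke_of_pos (aubinYau m X) hw hφ0 hpos
  set χ : Chart m X → Cm m → Matrix (Fin m) (Fin m) ℂ := fun e z => cHess (ψ e) z + w e z with hχd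
  have hherm := hB.herm m X χ hχ.toIsHermitian
  obtain ⟨μ, hμ⟩ := hB.vol _ (stdJ m) X (realAtlas m X) (realG χ) (hB.atl m X) hherm
  have hric : ∀ a p x, K.At (realAtlas m X a) p x →
      (realG χ a x + K.ric (realG χ a) x).PosSemidef := by
    intro a p x hx
    have hp : p ∈ (chartAt (Cm m) a).source := by
      have := hx.1
      simpa [realAtlas] using this
    have hx2 : (toReal m).symm x = chartAt (Cm m) a p := by
      rw [← hx.2]
      exact (toReal m).symm_apply_apply _
    have h1 := heq (chartAt (Cm m) a) p ⟨chart_mem_atlas _ a, hp⟩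
    have h2 : realG χ a x + K.ric (realG χ a) x = realG w a x := by
      rw [hB.ric m X χ hχ a p x hx]
      unfold realG
      rw [hx2, ← hB.alg.add, ← h1]
      exact congrArg realM (add_comm _ _)
    rw [h2]
    refine hB.alg.posSemidef m _ ?_
    rw [hx2]
    exact (hw.posDef _ p ⟨chart_mem_atlas _ a, hp⟩).posSemidef
  have hwc := P272.K.INT.IsKahler.isClosedForm hw
  have hdens := ((isClosedForm_canonical hψ).add hwc).isDensity
  have hint : IsIntegral (fun e z => (χ e z).det.re)
      (intX (fun (e : Chart m X) z => (cHess (φ e) z + w e z).det.re)) := by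
    rw [intX_canonical hφ hψ hwc]
    exact hdens.isIntegral
  have htot := hTot m X χ μ _ hχ.toIsHermitian hμ hint
  have h6 := Vale.Agent.P223.X.FinalM.ricci Vale.Agent.P223.X.hb Vale.Agent.P223.X.hu hn4
    (atl hJ (hB.atl m X) hherm) (realG χ) μ (met (hB.atl m X) hherm) (vol hμ) (fun _ => 1)
    continuous_const (fun _ => zero_le_one) (ricGe hherm hric)
  rw [L_one, htot] at h6
  exact sv_le.trans h6

/-- The bound for `K_X + α + t[w]`, `α` a nef class. -/
theorem sv_le_adj (hB : Blocks) (hTot : SpecTot) (hm : 2 ≤ m) [ConnectedSpace X]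
    {w b : Chart m X → Cm m → Matrix (Fin m) (Fin m) ℂ} (hw : IsKahler w) (hb : IsClosedForm b)
    (hbn : NefForm w b) (hadj : NefAdjoint w b) {φ : Chart m X → Cm m → ℝ}
    (hφ : IsCanonicalMetric φ) (t : ℝ) (ht : 0 < t) :
    0 < intX (fun (e : Chart m X) z => (cHess (φ e) z + b e z + (t : ℂ) • w e z).det.re) ∧
    K.sv (realAtlas m X) ≤ ENNReal.ofReal (J.kap (m + m) ^ (m + m)) *
      ENNReal.ofReal (2 ^ m *
        intX (fun (e : Chart m X) z => (cHess (φ e) z + b e z + (t : ℂ) • w e z).det.re)) := by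
  obtain ⟨u, hu, hup⟩ := hbn (t / 2) (half_pos ht)
  obtain ⟨φ0, hφ0, hφp⟩ := hadj (t / 2) (half_pos ht)
  have husm : SmoothFn (n := m) u := hu
  have hhalf : ∀ e x, At e x → (((t / 2 : ℝ) : ℂ) • w e (e x)).PosDef := fun e x hx =>
    posDef_ofReal_smul (hw.posDef e x hx) (half_pos ht)
  have hsplit : ∀ (e : Chart m X) z, (t : ℂ) • w e z =
      ((t / 2 : ℝ) : ℂ) • w e z + ((t / 2 : ℝ) : ℂ) • w e z := by
    intro e z
    rw [← add_smul]
    congr 1
    push_cast
    ring
  set w' : Chart m X → Cm m → Matrix (Fin m) (Fin m) ℂ :=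
    fun e z => b e z + cHess (fun y => u (e.symm y)) z + (t : ℂ) • w e z with hw'd
  have hw'c : IsClosedForm w' := (hb.add (isClosedForm_cHess husm)).add
    ((P272.K.INT.IsKahler.isClosedForm hw).smul (t : ℂ))
  have hw' : IsKahler w' :=
    { smooth := hw'c.smooth
      posDef := fun e x hx => by
        show (b e (e x) + cHess (fun y => u (e.symm y)) (e x) + (t : ℂ) • w e (e x)).PosDef
        rw [hsplit, ← add_assoc]
        exact Matrix.PosDef.posSemidef_add (hup e x hx) (hhalf e x hx)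
      change := hw'c.form
      closed := fun e x hx i j k => hw'c.closed e x hx k i j }
  have hcan : IsCanonicalMetric fun e z => φ0 e z - u (e.symm z) := by
    refine ⟨fun e x hx => (hφ0.smooth e x hx).sub (hu e x hx), fun e e' x hx hx' => ?_⟩
    simp only [hx.left_inv, hx'.left_inv]
    rw [hφ0.change e e' x hx hx']; ring
  have hpos : ∀ e x, At e x →
      (cHess (fun z => φ0 e z - u (e.symm z)) (e x) + w' e (e x)).PosDef := by
    intro e x hx
    have h1 : cHess (fun z => φ0 e z - u (e.symm z)) (e x) + w' e (e x) =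
        (cHess (φ0 e) (e x) + b e (e x) + ((t / 2 : ℝ) : ℂ) • w e (e x)) +
          ((t / 2 : ℝ) : ℂ) • w e (e x) := by
      rw [cHess_sub ((hφ0.smooth e x hx).of_le two_le_inf) ((hu e x hx).of_le two_le_inf)]
      show _ + (b e (e x) + cHess (fun y => u (e.symm y)) (e x) + (t : ℂ) • w e (e x)) = _
      rw [hsplit]
      abel
    rw [h1]
    exact Matrix.PosDef.posSemidef_add (hφp e x hx) (hhalf e x hx)
  have h1 := sv_le_kahler hB hTot hm hw' hcan hpos hφ
  have h3 : 0 < intX (fun (e : Chart m X) z => (cHess (φ e) z + w' e z).det.re) := by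
    rw [intX_canonical hφ hcan hw'c]
    exact intX_pos ((isClosedForm_canonical hcan).add hw'c).isDensity
      fun e x hx => (posDef_det_re (hpos e x hx)).1
  have h2 : intX (fun (e : Chart m X) z => (cHess (φ e) z + w' e z).det.re) =
      intX (fun (e : Chart m X) z => (cHess (φ e) z + b e z + (t : ℂ) • w e z).det.re) := by
    have hc : IsClosedForm fun (e : Chart m X) z => cHess (φ e) z + b e z + (t : ℂ) • w e z :=
      ((isClosedForm_canonical hφ).add hb).add
        ((P272.K.INT.IsKahler.isClosedForm hw).smul (t : ℂ))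
    rw [← intX_det_add_cHess hc husm]
    refine intX_congr fun e x hx => ?_
    congr 2
    show _ + (b e (e x) + cHess (fun y => u (e.symm y)) (e x) + (t : ℂ) • w e (e x)) = _
    abel
  rw [h2] at h1 h3
  exact ⟨h3, h1⟩

/-- The simplicial volume is at most a constant times `(K_X + α)^m`, `α` a nef class such that
`K_X + α` is nef. -/
theorem sv_le_adjoint (hB : Blocks) (hTot : SpecTot) (hm : 2 ≤ m) [ConnectedSpace X]
    {w b : Chart m X → Cm m → Matrix (Fin m) (Fin m) ℂ} (hw : IsKahler w) (hb : IsClosedForm b)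
    (hbn : NefForm w b) (hadj : NefAdjoint w b) {φ : Chart m X → Cm m → ℝ}
    (hφ : IsCanonicalMetric φ) :
    ∃ I : ℝ, 0 ≤ I ∧ IsIntegral (fun e z => (cHess (φ e) z + b e z).det.re) I ∧
      K.sv (realAtlas m X) ≤ ENNReal.ofReal (J.kap (m + m) ^ (m + m) * (2 ^ m * I)) := by
  have hwc := P272.K.INT.IsKahler.isClosedForm hw
  have hcb := (isClosedForm_canonical hφ).add hb
  set P : ℝ → ℝ := fun t =>
    intX (fun (e : Chart m X) z => (cHess (φ e) z + b e z + (t : ℂ) • w e z).det.re) with hP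
  have h0 : (fun (e : Chart m X) z => (cHess (φ e) z + b e z + ((0 : ℝ) : ℂ) • w e z).det.re) =
      fun e z => (cHess (φ e) z + b e z).det.re := by
    funext e z
    rw [Complex.ofReal_zero, zero_smul, add_zero]
  have hk : 0 ≤ J.kap (m + m) ^ (m + m) := by
    have h1 : (4 : ℝ) ≤ ((m + m : ℕ) : ℝ) := by
      have : 4 ≤ m + m := by omega
      exact_mod_cast this
    have h2 : 0 ≤ √((m + m : ℕ) : ℝ) := Real.sqrt_nonneg _
    refine pow_nonneg ?_ _
    unfold J.kap
    linarith only [h1, h2]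
  have hcont : Continuous P := continuous_iff_continuousAt.2 fun t =>
    (hasDerivAt_intX (m := m)
      (D := fun t e z => (cHess (φ e) z + b e z + (t : ℂ) • w e z).det.re)
      (fun t => (hcb.add (hwc.smul (t : ℂ))).isDensity)
      (fun e x _ => isPolyN_det _ _) t).continuousAt
  refine ⟨P 0, ?_, ?_, ?_⟩
  · refine ge_of_tendsto ((hcont.tendsto 0).mono_left nhdsWithin_le_nhds : Tendsto P (𝓝[>] 0) _) ?_
    filter_upwards [self_mem_nhdsWithin] with t ht
    exact (sv_le_adj hB hTot hm hw hb hbn hadj hφ t ht).1.le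
  · rw [← h0]
    exact (hcb.add (hwc.smul ((0 : ℝ) : ℂ))).isDensity.isIntegral
  · have hlim : Tendsto (fun t => ENNReal.ofReal (J.kap (m + m) ^ (m + m) * (2 ^ m * P t)))
        (𝓝[>] 0) (𝓝 (ENNReal.ofReal (J.kap (m + m) ^ (m + m) * (2 ^ m * P 0)))) :=
      ((ENNReal.continuous_ofReal.comp
        (continuous_const.mul (continuous_const.mul hcont))).tendsto 0).mono_left
          nhdsWithin_le_nhds
    refine ge_of_tendsto hlim ?_
    filter_upwards [self_mem_nhdsWithin] with t ht
    rw [ENNReal.ofReal_mul hk]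
    exact (sv_le_adj hB hTot hm hw hb hbn hadj hφ t ht).2

theorem IsClosed11.isClosedForm {b : Chart m X → Cm m → Matrix (Fin m) (Fin m) ℂ}
    (hb : IsClosed11 b) : IsClosedForm b where
  smooth := hb.smooth
  form := hb.change
  closed e x h i k l := hb.closed e x h k l i

theorem kap_two (m : ℕ) : J.kap (m + m) = 2 * m - 2 + √(2 * m) := by
  unfold J.kap
  have h : ((m + m : ℕ) : ℝ) = 2 * m := by
    push_cast
    ring
  rw [h]

/-- The final form of the volume bound. -/
theorem adjoint_bound (hB : Blocks) (hTot : SpecTot) (hm : 2 ≤ m) [ConnectedSpace X]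
    {w b : Chart m X → Cm m → Matrix (Fin m) (Fin m) ℂ} (hw : IsKahler w) (hb : IsClosed11 b)
    (hbn : NefForm w b) (hadj : NefAdjoint w b) {φ : Chart m X → Cm m → ℝ}
    (hφ : IsCanonicalMetric φ) : ∃ I : ℝ, 0 ≤ I ∧
      IsIntegral (fun e z => (cHess (φ e) z + b e z).det.re) I ∧ K.sv (realAtlas m X) ≤
        ENNReal.ofReal ((2 * m - 2 + √(2 * m)) ^ (2 * m) * 2 ^ m * I) ∧
      (K.sv (realAtlas m X) ≠ 0 → 0 < I) := by
  obtain ⟨I, h00, h1, h2⟩ := sv_le_adjoint hB hTot hm hw hb.isClosedForm hbn hadj hφ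
  have h3 : K.sv (realAtlas m X) ≤
      ENNReal.ofReal ((2 * m - 2 + √(2 * m)) ^ (2 * m) * 2 ^ m * I) := by
    refine h2.trans_eq ?_
    rw [kap_two, show m + m = 2 * m by ring, mul_assoc]
  refine ⟨I, h00, h1, h3, fun h0 => ?_⟩
  by_contra hI
  push Not at hI
  apply h0
  refine le_antisymm (h3.trans_eq (ENNReal.ofReal_eq_zero.2 ?_)) bot_le
  refine mul_nonpos_of_nonneg_of_nonpos ?_ hI
  rw [pow_mul]
  positivity

end

end Vale.Agent.P223.H959
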