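import Vale.Agent.P223.H959.Spec

/-! Block B: the Riemannian volume measure exists. -/

open scoped ContDiff Matrix ENNReal Topology
open MeasureTheory Set

namespace Vale.Agent.P223.H959.VolB

/-- gluing measures -/
theorem glue {Y P : Type} [MeasurableSpace Y] [Countable P] [Nonempty P] (A : P → Set Y)
    (hA : ∀ p, MeasurableSet (A p)) (m : P → Measure Y)
    (hm : ∀ p q (S : Set Y), MeasurableSet S → S ⊆ A p → S ⊆ A q → m p S = m q S) :
    ∃ μ : Measure Y, ∀ p (S : Set Y), MeasurableSet S → S ⊆ A p → μ S = m p S := by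
  obtain ⟨e, he⟩ := exists_surjective_nat P
  have hD : ∀ k, MeasurableSet (disjointed (fun k => A (e k)) k) :=
    MeasurableSet.disjointed fun k => hA (e k)
  refine ⟨Measure.sum fun k => (m (e k)).restrict (disjointed (fun k => A (e k)) k),
    fun p S hS hSp => ?_⟩
  rw [Measure.sum_apply _ hS]
  have h1 : ∀ k, ((m (e k)).restrict (disjointed (fun k => A (e k)) k)) S =
      m p (S ∩ disjointed (fun k => A (e k)) k) := fun k => by
    rw [Measure.restrict_apply hS]
    exact hm _ _ _ (hS.inter (hD k))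
      (Set.inter_subset_right.trans (disjointed_subset _ _)) (Set.inter_subset_left.trans hSp)
  simp_rw [h1]
  rw [← measure_iUnion _ fun k => hS.inter (hD k)]
  · congr 1
    rw [← Set.inter_iUnion, iUnion_disjointed]
    refine Set.inter_eq_left.2 fun x hx => ?_
    obtain ⟨k, hk⟩ := he p
    exact Set.mem_iUnion.2 ⟨k, by rw [hk]; exact hSp hx⟩
  · intro k l hkl
    exact ((disjoint_disjointed _ hkl).mono Set.inter_subset_right Set.inter_subset_right)

variable {n : ℕ} {X : Type} [TopologicalSpace X] [MeasurableSpace X] [BorelSpace X]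

/-- The density. -/
noncomputable def dens (g : (Fin n → ℝ) → Matrix (Fin n) (Fin n) ℝ) (x : Fin n → ℝ) : ℝ≥0∞ :=
  ENNReal.ofReal √(g x).det

/-- The points of the chart over `B`. -/
def ov (e : K.Ch n X) (B : Set X) : Set (Fin n → ℝ) := e.target ∩ e.symm ⁻¹' B

omit [MeasurableSpace X] [BorelSpace X] in
theorem ov_eq (e : K.Ch n X) (B : Set X) : {x | ∃ p ∈ B, K.At e p x} = ov e B := by
  ext x
  constructor
  · rintro ⟨p, hp, h1, rfl⟩
    exact ⟨e.map_source h1, by rw [mem_preimage, e.left_inv h1]; exact hp⟩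
  · rintro ⟨h1, h2⟩
    exact ⟨e.symm x, h2, e.map_target h1, e.right_inv h1⟩

theorem measurableSet_ov (e : K.Ch n X) {B : Set X} (hB : MeasurableSet B) :
    MeasurableSet (ov e B) := by
  have h1 : Measurable (e.target.domRestrict e.symm) :=
    (continuousOn_iff_continuous_domRestrict.1 e.continuousOn_symm).measurable
  have h2 := MeasurableSet.subtype_image e.open_target.measurableSet (h1 hB)
  convert h2 using 1
  ext x
  constructor
  · rintro ⟨h3, h4⟩
    exact ⟨⟨x, h3⟩, h4, rfl⟩
  · rintro ⟨⟨y, h3⟩, h4, rfl⟩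
    exact ⟨h3, h4⟩

/-- The measure of a chart. -/
noncomputable def chM (e : K.Ch n X) (g : (Fin n → ℝ) → Matrix (Fin n) (Fin n) ℝ) : Measure X :=
  ((volume.restrict e.target).withDensity (dens g)).map e.symm

theorem chM_apply (e : K.Ch n X) (g : (Fin n → ℝ) → Matrix (Fin n) (Fin n) ℝ) {B : Set X}
    (hB : MeasurableSet B) : chM e g B = ∫⁻ x in ov e B, dens g x := by
  have h1 : AEMeasurable e.symm (volume.restrict e.target) :=
    e.continuousOn_symm.aemeasurable e.open_target.measurableSet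
  have h2 : AEMeasurable e.symm ((volume.restrict e.target).withDensity (dens g)) :=
    h1.mono_ac (withDensity_absolutelyContinuous _ _)
  rw [chM, Measure.map_apply_of_aemeasurable h2 hB, withDensity_apply',
    Measure.restrict_restrict' e.open_target.measurableSet, inter_comm]
  rfl

theorem jac_det {φ : (Fin n → ℝ) → Fin n → ℝ} {x : Fin n → ℝ}
    (hφ : ∀ i, DifferentiableAt ℝ (fun z => φ z i) x) :
    (fderiv ℝ φ x).det = (K.jac φ x).det := by
  have h1 : DifferentiableAt ℝ φ x := differentiableAt_pi.2 hφ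
  have h2 : LinearMap.toMatrix' (fderiv ℝ φ x : (Fin n → ℝ) →ₗ[ℝ] (Fin n → ℝ)) = K.jac φ x := by
    ext i j
    rw [LinearMap.toMatrix'_apply]
    show (fderiv ℝ φ x (Pi.single j 1)) i = K.pd j (fun z => φ z i) x
    rw [Kpd_eq (hφ i), fderiv_pi hφ]
    rfl
  rw [← h2, LinearMap.det_toMatrix']


theorem overlap {JJ : Matrix (Fin n) (Fin n) ℝ} {c : X → K.Ch n X}
    {g : X → (Fin n → ℝ) → Matrix (Fin n) (Fin n) ℝ} (hc : K.Atl JJ c) (hg : K.Herm JJ c g)
    (a b : X) {S : Set X} (hS : MeasurableSet S) (ha : S ⊆ (c a).source)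
    (hb : S ⊆ (c b).source) : chM (c a) (g a) S = chM (c b) (g b) S := by
  rw [chM_apply _ _ hS, chM_apply _ _ hS]
  let φ : (Fin n → ℝ) → Fin n → ℝ := K.cm (c a) (c b)
  have hin : ∀ x ∈ ov (c a) S, K.At (c a) ((c a).symm x) x ∧ K.At (c b) ((c a).symm x) (φ x) :=
    fun x hx => ⟨⟨(c a).map_target hx.1, (c a).right_inv hx.1⟩, ⟨hb hx.2, rfl⟩⟩
  have himg : φ '' ov (c a) S = ov (c b) S := by
    ext y
    constructor
    · rintro ⟨x, hx, rfl⟩
      have h1 := (hin x hx).2.1
      refine ⟨(c b).map_source h1, ?_⟩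
      show (c b).symm ((c b) ((c a).symm x)) ∈ S
      rw [(c b).left_inv h1]
      exact hx.2
    · intro hy
      refine ⟨c a ((c b).symm y), ⟨(c a).map_source (ha hy.2), ?_⟩, ?_⟩
      · show (c a).symm (c a ((c b).symm y)) ∈ S
        rw [(c a).left_inv (ha hy.2)]
        exact hy.2
      · show c b ((c a).symm (c a ((c b).symm y))) = y
        rw [(c a).left_inv (ha hy.2), (c b).right_inv hy.1]
  have hinj : InjOn φ (ov (c a) S) := by
    intro x hx y hy hxy
    have h1 : (c a).symm x = (c a).symm y := by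
      rw [← (c b).left_inv (hin x hx).2.1, ← (c b).left_inv (hin y hy).2.1]
      exact congrArg _ hxy
    rw [← (c a).right_inv hx.1, h1, (c a).right_inv hy.1]
  have hd : ∀ x ∈ ov (c a) S, ∀ i, DifferentiableAt ℝ (fun z => φ z i) x := by
    intro x hx i
    obtain ⟨h1, h2⟩ := hin x hx
    exact (((hc a).2 b _ _ _ h1 h2).1 i).differentiableAt (by norm_num)
  have h3 := lintegral_image_eq_lintegral_abs_det_fderiv_mul volume (measurableSet_ov (c a) hS)
    (fun x hx => (differentiableAt_pi.2 (hd x hx)).hasFDerivAt.hasFDerivWithinAt) hinj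
    (dens (g b))
  rw [← himg, h3]
  refine setLIntegral_congr_fun (measurableSet_ov (c a) hS) fun x hx => ?_
  obtain ⟨h1, h2⟩ := hin x hx
  have h4 := (hg a b _ _ _ h1 h2).2.2.2
  show dens (g a) x = ENNReal.ofReal |(fderiv ℝ φ x).det| * dens (g b) (φ x)
  rw [jac_det (hd x hx), dens, dens, h4, ← ENNReal.ofReal_mul (abs_nonneg _)]
  congr 1
  rw [Matrix.det_mul, Matrix.det_mul, Matrix.det_transpose,
    show (K.jac (K.cm (c a) (c b)) x).det * (g b (φ x)).det * (K.jac (K.cm (c a) (c b)) x).det =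
      (K.jac φ x).det ^ 2 * (g b (φ x)).det by ring, Real.sqrt_mul (sq_nonneg _), Real.sqrt_sq_eq_abs]

/-- Block B. -/
theorem specVol : SpecVol := by
  intro n JJ X _ _ _ _ _ c g hc hg
  rcases isEmpty_or_nonempty X with hX | hX
  · exact ⟨0, fun a => isEmptyElim a⟩
  have hcov : ∀ a, a ∈ (c a).source := by
    intro a
    obtain ⟨x, hx⟩ := (hc a).1
    exact hx.1
  obtain ⟨t, ht⟩ := isCompact_univ.elim_finite_subcover (fun a => (c a).source)
    (fun a => (c a).open_source) (fun a _ => mem_iUnion.2 ⟨a, hcov a⟩)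
  have hne : Nonempty t := by
    obtain ⟨a⟩ := hX
    have := ht (mem_univ a)
    rw [mem_iUnion₂] at this
    obtain ⟨b, hb, -⟩ := this
    exact ⟨⟨b, hb⟩⟩
  have hms : ∀ a, MeasurableSet (c a).source := fun a => (c a).open_source.measurableSet
  obtain ⟨μ, hμ⟩ := glue (P := t) (fun p => (c p.1).source) (fun p => hms p.1)
    (fun p => chM (c p.1) (g p.1)) (fun p q S hS h1 h2 => overlap hc hg p.1 q.1 hS h1 h2)
  refine ⟨μ, fun a B hB => ?_⟩
  have hu : ⋃ p : t, (c p.1).source = univ := by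
    rw [eq_univ_iff_forall]
    intro x
    have := ht (mem_univ x)
    rw [mem_iUnion₂] at this
    obtain ⟨b, hb, h⟩ := this
    exact mem_iUnion.2 ⟨⟨b, hb⟩, h⟩
  have key : μ.restrict (c a).source = (chM (c a) (g a)).restrict (c a).source := by
    rw [Measure.ext_iff_of_iUnion_eq_univ hu]
    intro p
    ext S hS
    rw [Measure.restrict_apply hS, Measure.restrict_apply hS,
      Measure.restrict_apply (hS.inter (hms _)), Measure.restrict_apply (hS.inter (hms _))]
    have hS' := (hS.inter (hms p.1)).inter (hms a)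
    rw [hμ p _ hS' (inter_subset_left.trans inter_subset_right)]
    exact overlap hc hg p.1 a hS' (inter_subset_left.trans inter_subset_right) inter_subset_right
  have e1 : {p | p ∈ B ∧ ∃ x, K.At (c a) p x} = B ∩ (c a).source := by
    ext p
    exact ⟨fun ⟨h1, x, h2, _⟩ => ⟨h1, h2⟩, fun ⟨h1, h2⟩ => ⟨h1, _, h2, rfl⟩⟩
  have e2 := congrArg (fun ν : Measure X => ν B) key
  simp only [Measure.restrict_apply hB] at e2
  have e3 : ov (c a) (B ∩ (c a).source) = ov (c a) B := by
    ext x
    exact ⟨fun h => ⟨h.1, h.2.1⟩, fun h => ⟨h.1, h.2, (c a).map_target h.1⟩⟩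
  rw [e1, e2, chM_apply _ _ (hB.inter (hms a)), ov_eq, e3,
    lintegral_indicator (measurableSet_ov _ hB)]
  rfl

end Vale.Agent.P223.H959.VolB
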