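import Vale.Agent.P223.H959.SpecV
import Vale.Agent.P223.H959.Alg
import Vale.Agent.P223.H959.VolB
import Vale.Agent.P272.K.INT.Dens
import Mathlib.Topology.PartitionOfUnity

/-! Block L2: the total Riemannian volume of a Hermitian metric (helper327). -/

open scoped Manifold ContDiff ComplexOrder Matrix Topology ENNReal
open MeasureTheory Set

namespace Vale.Agent.P223.H959.L2

open Vale.Agent.P272.K (Cm Chart IsHermitian IsIntegral)

/-- finite partition of unity by charts `chartAt` -/
theorem exists_pu (m : ℕ) (X : Type) [TopologicalSpace X] [T2Space X] [CompactSpace X]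
    [ChartedSpace (Cm m) X] : ∃ (N : ℕ) (c : Fin N → X) (ρ : Fin N → X → ℝ),
      (∀ i, Continuous (ρ i)) ∧ (∀ i x, 0 ≤ ρ i x) ∧
      (∀ i, tsupport (ρ i) ⊆ (chartAt (Cm m) (c i)).source) ∧ ∀ x, ∑ i, ρ i x = 1 := by
  obtain ⟨t, ht⟩ := isCompact_univ.elim_finite_subcover
    (fun x : X => (chartAt (Cm m) x).source) (fun x => (chartAt (Cm m) x).open_source)
    (fun x _ => mem_iUnion.2 ⟨x, mem_chart_source _ x⟩)
  let N := t.card
  let c : Fin N → X := fun i => (t.equivFin.symm i : X)
  have hc : (univ : Set X) ⊆ ⋃ i, (chartAt (Cm m) (c i)).source := by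
    intro x hx
    obtain ⟨y, hy⟩ := mem_iUnion.1 (ht hx)
    obtain ⟨hyt, hxy⟩ := mem_iUnion.1 hy
    exact mem_iUnion.2 ⟨t.equivFin ⟨y, hyt⟩, by simpa [c] using hxy⟩
  obtain ⟨f, hf⟩ := PartitionOfUnity.exists_isSubordinate isClosed_univ
    (fun i => (chartAt (Cm m) (c i)).source) (fun i => (chartAt (Cm m) (c i)).open_source) hc
  refine ⟨N, c, fun i => f i, fun i => (f i).continuous, fun i x => f.nonneg i x,
    fun i => hf i, fun x => ?_⟩
  have := f.sum_eq_one (mem_univ x)
  rwa [finsum_eq_sum_of_fintype] at this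

variable {m : ℕ} {X : Type} [TopologicalSpace X] [MeasurableSpace X] [BorelSpace X]

/-- the volume measure over a chart -/
theorem restrict_eq {n : ℕ} {c : X → K.Ch n X}
    {g : X → (Fin n → ℝ) → Matrix (Fin n) (Fin n) ℝ} {μ : Measure X} (hμ : K.Vol c g μ) (a : X) :
    μ.restrict (c a).source = VolB.chM (c a) (g a) := by
  ext B hB
  have e1 : {p | p ∈ B ∧ ∃ x, K.At (c a) p x} = B ∩ (c a).source := by
    ext p
    exact ⟨fun ⟨h1, x, h2, _⟩ => ⟨h1, h2⟩, fun ⟨h1, h2⟩ => ⟨h1, _, h2, rfl⟩⟩
  have h1 := hμ a B hB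
  rw [e1, VolB.ov_eq, lintegral_indicator (VolB.measurableSet_ov _ hB)] at h1
  rw [Measure.restrict_apply hB, h1, VolB.chM_apply _ _ hB]
  rfl

/-- integrals over a chart -/
theorem lintegral_chart {n : ℕ} {c : X → K.Ch n X}
    {g : X → (Fin n → ℝ) → Matrix (Fin n) (Fin n) ℝ} {μ : Measure X} (hμ : K.Vol c g μ) (a : X)
    (hg : AEMeasurable (VolB.dens (g a)) (volume.restrict (c a).target))
    {F : X → ℝ≥0∞} (hF : Measurable F) (h0 : ∀ x, x ∉ (c a).source → F x = 0) :
    ∫⁻ p, F p ∂μ = ∫⁻ x in (c a).target, VolB.dens (g a) x * F ((c a).symm x) := by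
  have hs := (c a).open_source.measurableSet
  have h1 : AEMeasurable (c a).symm (volume.restrict (c a).target) :=
    (c a).continuousOn_symm.aemeasurable (c a).open_target.measurableSet
  have h2 : AEMeasurable (c a).symm
      ((volume.restrict (c a).target).withDensity (VolB.dens (g a))) :=
    h1.mono_ac (withDensity_absolutelyContinuous _ _)
  have e1 : ∫⁻ p, F p ∂μ = ∫⁻ p in (c a).source, F p ∂μ := by
    rw [← lintegral_indicator hs]
    refine lintegral_congr fun p => ?_
    by_cases hp : p ∈ (c a).source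
    · rw [indicator_of_mem hp]
    · rw [indicator_of_notMem hp, h0 p hp]
  rw [e1, restrict_eq hμ a, VolB.chM, lintegral_map' hF.aemeasurable h2]
  exact lintegral_withDensity_eq_lintegral_mul₀ hg (hF.comp_aemeasurable h1)

variable [ChartedSpace (Cm m) X]

omit [MeasurableSpace X] [BorelSpace X] in
theorem hermitian_continuousOn {χ : Chart m X → Cm m → Matrix (Fin m) (Fin m) ℂ}
    (hχ : IsHermitian χ) (a : X) :
    ContinuousOn (fun z => (χ (chartAt (Cm m) a) z).det.re) (chartAt (Cm m) a).target := by
  intro z hz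
  set e := chartAt (Cm m) a with he
  have hx : P272.K.At e (e.symm z) := ⟨chart_mem_atlas _ _, e.map_target hz⟩
  have h1 : ∀ i j, ContinuousAt (fun z => χ e z i j) z := by
    intro i j
    have := (hχ.smooth e _ hx i j).continuousAt
    rwa [e.right_inv hz] at this
  have h2 : ContinuousAt (fun z => (χ e z).det) z := by
    simp only [Matrix.det_apply]
    refine tendsto_finsetSum _ fun σ _ => ?_
    refine ContinuousAt.const_smul ?_ _
    exact tendsto_finsetProd _ fun i _ => h1 _ _
  exact (Complex.continuous_re.continuousAt.comp h2).continuousWithinAt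

omit [MeasurableSpace X] [BorelSpace X] in
theorem posDef_target {χ : Chart m X → Cm m → Matrix (Fin m) (Fin m) ℂ}
    (hχ : IsHermitian χ) (a : X) {z : Cm m} (hz : z ∈ (chartAt (Cm m) a).target) :
    (χ (chartAt (Cm m) a) z).PosDef := by
  have := hχ.posDef (chartAt (Cm m) a) ((chartAt (Cm m) a).symm z)
    ⟨chart_mem_atlas _ _, (chartAt (Cm m) a).map_target hz⟩
  rwa [(chartAt (Cm m) a).right_inv hz] at this

omit [MeasurableSpace X] [BorelSpace X] in
theorem dens_toReal {χ : Chart m X → Cm m → Matrix (Fin m) (Fin m) ℂ}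
    (hχ : IsHermitian χ) (a : X) {z : Cm m} (hz : z ∈ (chartAt (Cm m) a).target) :
    VolB.dens (realG χ a) (toReal m z) =
      ENNReal.ofReal (2 ^ m * (χ (chartAt (Cm m) a) z).det.re) := by
  have hp := posDef_target hχ a hz
  have hd : 0 ≤ (χ (chartAt (Cm m) a) z).det.re := (Complex.le_def.1 hp.det_pos.le).1
  unfold VolB.dens realG
  rw [ContinuousLinearEquiv.symm_apply_apply, specAlg.det m _ hp, Real.sqrt_sq (by positivity)]

end Vale.Agent.P223.H959.L2

namespace Vale.Agent.P223.H959

open Vale.Agent.P272.K (Cm Chart IsHermitian IsIntegral)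
open L2

theorem target_eq (m : ℕ) (X : Type) [TopologicalSpace X] [ChartedSpace (Cm m) X] (a : X) :
    (realAtlas m X a).target = (toReal m).symm ⁻¹' (chartAt (Cm m) a).target := by
  unfold realAtlas
  rw [OpenPartialHomeomorph.trans_target]
  ext x
  simp only [mem_inter_iff, mem_preimage]
  constructor
  · rintro ⟨-, h⟩
    exact h
  · intro h
    exact ⟨mem_univ _, h⟩

/-- BLOCK L2, from L1 -/
theorem specTot_of (hL : SpecLeb) : SpecTot := by
  intro m X _ _ _ _ _ _ _ χ μ I hχ hμ hI
  obtain ⟨N, c, ρ, hρc, hρ0, hρs, hρ1⟩ := exists_pu m X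
  have hI' := hI N (fun i => chartAt (Cm m) (c i)) ρ (fun i => chart_mem_atlas _ _) hρc hρs hρ1
  have hdet : ∀ (a : X) (z : Cm m), z ∈ (chartAt (Cm m) a).target →
      0 ≤ (χ (chartAt (Cm m) a) z).det.re := fun a z hz =>
    (Complex.le_def.1 (posDef_target hχ a hz).det_pos.le).1
  -- the density in the real chart
  have hdens : ∀ a : X, EqOn (VolB.dens (realG χ a))
      (fun x => ENNReal.ofReal (2 ^ m * (χ (chartAt (Cm m) a) ((toReal m).symm x)).det.re))
      (realAtlas m X a).target := by
    intro a x hx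
    rw [target_eq] at hx
    have := dens_toReal hχ a hx
    rwa [ContinuousLinearEquiv.apply_symm_apply] at this
  have hmeas : ∀ a : X, AEMeasurable (VolB.dens (realG χ a))
      (volume.restrict (realAtlas m X a).target) := by
    intro a
    have h1 : ContinuousOn
        (fun x => ENNReal.ofReal (2 ^ m * (χ (chartAt (Cm m) a) ((toReal m).symm x)).det.re))
        (realAtlas m X a).target := by
      rw [target_eq]
      refine ENNReal.continuous_ofReal.comp_continuousOn (continuousOn_const.mul ?_)
      exact (hermitian_continuousOn hχ a).comp (toReal m).symm.continuous.continuousOn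
        fun x hx => hx
    exact (h1.congr (hdens a)).aemeasurable (realAtlas m X a).open_target.measurableSet
  -- one chart
  have hint : ∀ i, IntegrableOn (fun z => ρ i ((chartAt (Cm m) (c i)).symm z) *
      (χ (chartAt (Cm m) (c i)) z).det.re) (chartAt (Cm m) (c i)).target := by
    intro i
    refine P272.K.INT.integrableOn_chart ?_ (isClosed_tsupport (ρ i)) (hρs i) ?_
    · exact ((hρc i).comp_continuousOn (chartAt (Cm m) (c i)).continuousOn_symm).mul
        (hermitian_continuousOn hχ (c i))
    · intro z _ h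
      rw [image_eq_zero_of_notMem_tsupport h, zero_mul]
  have hone : ∀ i, ∫⁻ p, ENNReal.ofReal (ρ i p) ∂μ = ENNReal.ofReal
      (2 ^ m * ∫ z in (chartAt (Cm m) (c i)).target, ρ i ((chartAt (Cm m) (c i)).symm z) *
        (χ (chartAt (Cm m) (c i)) z).det.re) := by
    intro i
    set e := chartAt (Cm m) (c i) with he
    have htm : MeasurableSet e.target := e.open_target.measurableSet
    have hFm : Measurable fun p => ENNReal.ofReal (ρ i p) :=
      ENNReal.measurable_ofReal.comp (hρc i).measurable
    have hF0 : ∀ x, x ∉ (realAtlas m X (c i)).source → ENNReal.ofReal (ρ i x) = 0 := by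
      intro x hx
      have h6 : x ∉ tsupport (ρ i) := fun h => hx ⟨hρs i h, mem_univ _⟩
      rw [image_eq_zero_of_notMem_tsupport h6, ENNReal.ofReal_zero]
    rw [lintegral_chart hμ (c i) (hmeas (c i)) hFm hF0]
    · have e1 : ∫⁻ x in (realAtlas m X (c i)).target, VolB.dens (realG χ (c i)) x *
          ENNReal.ofReal (ρ i ((realAtlas m X (c i)).symm x)) =
          ∫⁻ z in e.target, ENNReal.ofReal (2 ^ m * (χ e z).det.re) *
            ENNReal.ofReal (ρ i (e.symm z)) := by
        rw [target_eq, ← (hL m).setLIntegral_comp_preimage_emb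
          (toReal m).toHomeomorph.measurableEmbedding]
        have h2 : (toReal m) ⁻¹' ((toReal m).symm ⁻¹' e.target) = e.target := by
          ext z
          simp
        rw [h2]
        refine setLIntegral_congr_fun htm fun z hz => ?_
        have h3 := dens_toReal hχ (c i) hz
        have h4 : (realAtlas m X (c i)).symm (toReal m z) = e.symm z := by
          show e.symm ((toReal m).symm (toReal m z)) = _
          rw [ContinuousLinearEquiv.symm_apply_apply]
        show VolB.dens (realG χ (c i)) (toReal m z) *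
          ENNReal.ofReal (ρ i ((realAtlas m X (c i)).symm (toReal m z))) = _
        rw [h3, h4]
      refine e1.trans ?_
      rw [← integral_const_mul, ofReal_integral_eq_lintegral_ofReal ((hint i).const_mul _)]
      · refine setLIntegral_congr_fun htm fun z hz => ?_
        have h5 : 0 ≤ 2 ^ m * (χ e z).det.re := mul_nonneg (by positivity) (hdet (c i) z hz)
        show ENNReal.ofReal (2 ^ m * (χ e z).det.re) * ENNReal.ofReal (ρ i (e.symm z)) =
          ENNReal.ofReal (2 ^ m * (ρ i (e.symm z) * (χ e z).det.re))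
        rw [← ENNReal.ofReal_mul h5]
        congr 1
        ring
      · filter_upwards [self_mem_ae_restrict htm] with z hz
        exact mul_nonneg (by positivity) (mul_nonneg (hρ0 i _) (hdet (c i) z hz))
  -- the sum
  have hsum : μ univ = ∑ i, ∫⁻ p, ENNReal.ofReal (ρ i p) ∂μ := by
    have hFm : ∀ i ∈ (Finset.univ : Finset (Fin N)),
        Measurable fun p => ENNReal.ofReal (ρ i p) := fun i _ =>
      ENNReal.measurable_ofReal.comp (hρc i).measurable
    rw [← lintegral_finsetSum _ hFm, ← lintegral_one]
    refine lintegral_congr fun p => ?_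
    rw [← ENNReal.ofReal_sum_of_nonneg fun i _ => hρ0 i p, hρ1 p, ENNReal.ofReal_one]
  rw [hsum, Finset.sum_congr rfl fun i _ => hone i,
    ← ENNReal.ofReal_sum_of_nonneg, ← Finset.mul_sum, hI']
  intro i _
  refine mul_nonneg (by positivity) (setIntegral_nonneg
    (chartAt (Cm m) (c i)).open_target.measurableSet fun z hz => ?_)
  exact mul_nonneg (hρ0 i _) (hdet (c i) z hz)

end Vale.Agent.P223.H959
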