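import Vale.Agent.P223.H959.Bridge
import Vale.Agent.P223.X.All

/-! The Hermitian inequality with a constant which depends only on the dimension. -/

open scoped Matrix ContDiff Topology
open MeasureTheory

namespace Vale.Agent.P223.H959

/-- A complex structure exists only in even dimensions. -/
theorem four_le {n : ℕ} (hn : 3 ≤ n) {JJ : Matrix (Fin n) (Fin n) ℝ} (hJ : JJ * JJ = -1) :
    4 ≤ n := by
  rcases hn.lt_or_eq with h | h
  · exact h
  · exfalso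
    subst h
    have h1 : (JJ * JJ).det = (-1 : Matrix (Fin 3) (Fin 3) ℝ).det := by rw [hJ]
    rw [Matrix.det_mul, Matrix.det_neg, Matrix.det_one] at h1
    norm_num at h1
    nlinarith only [h1, mul_self_nonneg JJ.det]

theorem L_one {n : ℕ} {X : Type} [MeasurableSpace X] (μ : Measure X) :
    J.L n μ (fun _ => 1) = μ Set.univ := by
  unfold J.L
  simp

theorem kahler {n : ℕ} (hn : 3 ≤ n) {JJ : Matrix (Fin n) (Fin n) ℝ} (hJ : JJ * JJ = -1)
    {X Y : Type} [TopologicalSpace X] [T2Space X] [CompactSpace X] [ConnectedSpace X]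
    [MeasurableSpace X] [BorelSpace X] [TopologicalSpace Y] [T2Space Y] [CompactSpace Y]
    [MeasurableSpace Y] [BorelSpace Y] {c : X → K.Ch n X} (hc : K.Atl JJ c)
    {h : X → (Fin n → ℝ) → Matrix (Fin n) (Fin n) ℝ} (hh : K.Herm JJ c h)
    (hV : ∀ eta : ℝ, 0 < eta → ∃ g0 μ0, K.Herm JJ c g0 ∧ K.Kah JJ c g0 ∧ K.RicLe c g0 h eta ∧
      (∀ a p x, K.At (c a) p x → (g0 a x + K.ric (g0 a) x).PosSemidef) ∧ K.Vol c g0 μ0)
    {d : ℕ} {c' : Y → K.Ch n Y} (hc' : K.Atl JJ c') {f : Y → X} (hf : IsCoveringMap f)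
    (hd : ∀ p, (f ⁻¹' {p}).encard = d) (hl : ∀ q p x, K.At (c' q) p x → K.At (c (f q)) (f p) x)
    {g : Y → (Fin n → ℝ) → Matrix (Fin n) (Fin n) ℝ} (hg : K.Herm JJ c' g) {μ : Measure Y}
    (hμ : K.Vol c' g μ) :
    K.sv c' ≤ ENNReal.ofReal (J.kap n ^ n) * K.I c' g μ := by
  have hn4 := four_le hn hJ
  have hk : 0 < J.kap n := by
    have h1 : (4 : ℝ) ≤ n := by exact_mod_cast hn4
    have h2 : 0 ≤ √(n : ℝ) := Real.sqrt_nonneg _
    unfold J.kap
    linarith only [h1, h2]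
  set C : ENNReal := ENNReal.ofReal (J.kap n ^ n) with hC
  have hC0 : C ≠ 0 := (ENNReal.ofReal_pos.mpr (pow_pos hk n)).ne'
  have hCt : C ≠ ⊤ := ENNReal.ofReal_ne_top
  have key : ∀ eta : ℝ, 0 < eta → ∃ g0 μ0, K.Herm JJ c g0 ∧ K.Kah JJ c g0 ∧
      K.RicLe c g0 h eta ∧ K.Vol c g0 μ0 ∧ K.sv c / C ≤ μ0 Set.univ := by
    intro eta heta
    obtain ⟨g0, μ0, h1, h2, h3, h4, h5⟩ := hV eta heta
    refine ⟨g0, μ0, h1, h2, h3, h5, ENNReal.div_le_of_le_mul' ?_⟩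
    have h6 := Vale.Agent.P223.X.FinalM.ricci Vale.Agent.P223.X.hb Vale.Agent.P223.X.hu hn4
      (atl hJ hc h1) g0 μ0 (met hc h1) (vol h5) (fun _ => 1) continuous_const
      (fun _ => zero_le_one) (ricGe h1 h4)
    rw [L_one] at h6
    exact sv_le.trans h6
  exact (Kfinal hn hJ hc hh key hc' hf hd hl hg hμ).2.2 C (ENNReal.mul_div_cancel hC0 hCt).ge

end Vale.Agent.P223.H959
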