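import Vale.Agent.P223.H959.Zero

/-! If `K_X` is positive and `α` is nef then `K_X + α` is positive. -/

open scoped Manifold ContDiff ComplexOrder Matrix

namespace Vale.Agent.P223.H959

open Vale.Agent.P272.K Vale.Agent.P272.K.INT

theorem pos_adjoint {m : ℕ} {X : Type} [TopologicalSpace X] [CompactSpace X]
    [ChartedSpace (Cm m) X] [IsManifold 𝓘(ℂ, Cm m) ω X]
    {w b : Chart m X → Cm m → Matrix (Fin m) (Fin m) ℂ} (hw : IsKahler w) (hbn : NefForm w b)
    {φ1 : Chart m X → Cm m → ℝ} (hφ1 : IsCanonicalMetric φ1)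
    (hpos : ∀ e x, At e x → (cHess (φ1 e) (e x)).PosDef) :
    ∃ φ : Chart m X → Cm m → ℝ, IsCanonicalMetric φ ∧
      ∀ e x, At e x → (cHess (φ e) (e x) + b e (e x)).PosDef := by
  have hc := isClosedForm_canonical hφ1
  have hχ : IsHermitian fun e z => cHess (φ1 e) z :=
    { smooth := hc.smooth
      posDef := hpos
      change := hc.form }
  obtain ⟨C, hC, hcomp⟩ := Vale.Agent.P272.K.exists_comparison hχ hw.toIsHermitian
  have hε : 0 < (2 * C)⁻¹ := by positivity
  obtain ⟨u, hu, hup⟩ := hbn _ hε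
  refine ⟨fun e z => φ1 e z + u (e.symm z), ?_, fun e x hx => ?_⟩
  · refine ⟨fun e x hx => (hφ1.smooth e x hx).add (hu e x hx), fun e e' x hx hx' => ?_⟩
    simp only [hx.left_inv, hx'.left_inv]
    rw [hφ1.change e e' x hx hx']; ring
  · rw [cHess_add ((hφ1.smooth e x hx).of_le two_le_inf) ((hu e x hx).of_le two_le_inf)]
    have h1 : cHess (φ1 e) (e x) + cHess (fun z => u (e.symm z)) (e x) + b e (e x) =
        (b e (e x) + cHess (fun z => u (e.symm z)) (e x) + (((2 * C)⁻¹ : ℝ) : ℂ) • w e (e x)) +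
        (((((2 * C)⁻¹ : ℝ) : ℂ) • ((C : ℂ) • cHess (φ1 e) (e x) - w e (e x))) +
          ((2⁻¹ : ℝ) : ℂ) • cHess (φ1 e) (e x)) := by
      have h2 : (((2 * C)⁻¹ : ℝ) : ℂ) * (C : ℂ) = ((2⁻¹ : ℝ) : ℂ) := by
        rw [← Complex.ofReal_mul]
        congr 1
        field_simp
      rw [smul_sub, smul_smul, h2]
      have h3 : ((2⁻¹ : ℝ) : ℂ) • cHess (φ1 e) (e x) + ((2⁻¹ : ℝ) : ℂ) • cHess (φ1 e) (e x) =
          cHess (φ1 e) (e x) := by
        rw [← add_smul, ← Complex.ofReal_add]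
        norm_num
      calc _ = b e (e x) + cHess (fun z => u (e.symm z)) (e x) +
            (((2⁻¹ : ℝ) : ℂ) • cHess (φ1 e) (e x) +
              ((2⁻¹ : ℝ) : ℂ) • cHess (φ1 e) (e x)) := by rw [h3]; abel
        _ = _ := by abel
    rw [h1]
    refine Matrix.PosDef.posSemidef_add (hup e x hx) (Matrix.PosDef.posSemidef_add ?_ ?_)
    · have h4 := (hcomp e x hx).smul hε.le
      have h5 : ∀ M : Matrix (Fin m) (Fin m) ℂ, (((2 * C)⁻¹ : ℝ) : ℂ) • M = (2 * C)⁻¹ • M := by
        intro M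
        ext i j
        rw [Matrix.smul_apply, Matrix.smul_apply, Complex.real_smul, smul_eq_mul]
      rw [h5]
      exact h4
    · exact posDef_ofReal_smul (hpos e x hx) (by norm_num)

end Vale.Agent.P223.H959
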