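import Vale.Agent.P223.H959.KE
import Vale.Agent.P223.H959.F2
import Vale.Agent.P272.K.AMP.BIG.H977.Fin

/-! The sharp inequality: the volume `2^m ∫ det (i∂∂̄φ)` of a nef canonical bundle is at most the
integral of `(Scal⁻ / n)^(n/2)` for every Hermitian metric. -/

open scoped Manifold ContDiff ComplexOrder Matrix Topology
open MeasureTheory Filter

namespace Vale.Agent.P223.H959

open Vale.Agent.P272.K Vale.Agent.P272.K.INT

section
variable {m : ℕ} {X : Type} [TopologicalSpace X] [T2Space X] [CompactSpace X]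
  [ChartedSpace (Cm m) X] [IsManifold 𝓘(ℂ, Cm m) ω X]

/-- `(K_X + t[w])^m ≥ K_X^m` -/
theorem PP_mono {w : Chart m X → Cm m → Matrix (Fin m) (Fin m) ℂ} (hw : IsKahler w)
    (hnef : NefCanonical w 0) {φ : Chart m X → Cm m → ℝ} (hφ : IsCanonicalMetric φ) {t : ℝ}
    (ht : 0 ≤ t) : PP φ w 0 ≤ PP φ w t := by
  have hwc := P272.K.INT.IsKahler.isClosedForm hw
  have hd : ∀ s, HasDerivAt (PP φ w) (deriv (PP φ w) s) s := fun s =>
    (PP_hasDerivAt hφ hwc s).differentiableAt.hasDerivAt
  have hmono : MonotoneOn (PP φ w) (Set.Icc 0 t) := by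
    apply monotoneOn_of_deriv_nonneg (convex_Icc _ _)
    · exact fun s _ => (hd s).continuousAt.continuousWithinAt
    · exact fun s _ => (hd s).differentiableAt.differentiableWithinAt
    · intro s hs
      rw [interior_Icc] at hs
      obtain ⟨ψ, hψ, hψpos⟩ : ∃ ψ : Chart m X → Cm m → ℝ, IsCanonicalMetric ψ ∧
          ∀ e x, At e x → (cHess (ψ e) (e x) + (s : ℂ) • w e (e x)).PosDef := by
        obtain ⟨ψ, h1, h2⟩ := hnef (s / 2) (half_pos hs.1)
        refine ⟨ψ, h1, fun e x hx => ?_⟩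
        have h3 : (s : ℂ) • w e (e x) =
            ((0 + s / 2 : ℝ) : ℂ) • w e (e x) + ((s / 2 : ℝ) : ℂ) • w e (e x) := by
          rw [← add_smul]
          congr 1
          push_cast
          ring
        rw [h3, ← add_assoc]
        exact Matrix.PosDef.posSemidef_add (h2 e x hx)
          (posDef_ofReal_smul (hw.posDef e x hx) (half_pos hs.1))
      have e1 : PP φ w = PP ψ w := funext fun t => PP_eq hφ hψ hwc t
      rw [e1, (PP_hasDerivAt' hψ hwc hψpos).deriv]
      refine intX_nonneg fun e x hx => ?_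
      exact mul_nonneg (trace_mul_nonneg_re (hψpos e x hx).inv.posSemidef
        (hw.posDef e x hx).posSemidef) (posDef_det_re (hψpos e x hx)).1.le
  exact hmono ⟨le_rfl, ht⟩ ⟨ht, le_rfl⟩ ht

/-- Yau's metrics, in the real charts, with their volume. -/
theorem yau_vol (hB : Blocks) (hTot : SpecTot) [MeasurableSpace X] [BorelSpace X]
    {w : Chart m X → Cm m → Matrix (Fin m) (Fin m) ℂ} (hw : IsKahler w) (hnef : NefCanonical w 0)
    {φ : Chart m X → Cm m → ℝ} (hφ : IsCanonicalMetric φ) (eta : ℝ) (heta : 0 < eta) :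
    ∃ g0 μ0, K.Herm (stdJ m) (realAtlas m X) g0 ∧ K.Kah (stdJ m) (realAtlas m X) g0 ∧
      K.RicLe (realAtlas m X) g0 (realG w) eta ∧ K.Vol (realAtlas m X) g0 μ0 ∧
      ENNReal.ofReal (2 ^ m * PP φ w 0) ≤ μ0 Set.univ := by
  obtain ⟨ψ, hψ, hpos, heq⟩ := Vale.Agent.P272.K.AMP.NF.ke_of_nef
    (Vale.Agent.P272.K.aubinYau m X) hw le_rfl hnef eta heta
  have hχ := Vale.Agent.P272.K.isKahler_twist hψ hw eta hpos
  set χ : Chart m X → Cm m → Matrix (Fin m) (Fin m) ℂ :=
    fun e z => cHess (ψ e) z + (eta : ℂ) • w e z with hχd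
  have hherm := hB.herm m X χ hχ.toIsHermitian
  obtain ⟨μ, hμ⟩ := hB.vol _ (stdJ m) X (realAtlas m X) (realG χ) (hB.atl m X) hherm
  refine ⟨realG χ, μ, hherm, hB.kah m X χ hχ, fun a p x hx => ?_, hμ, ?_⟩
  · have hp : p ∈ (chartAt (Cm m) a).source := by
      have := hx.1
      simpa [realAtlas] using this
    have hx2 : (toReal m).symm x = chartAt (Cm m) a p := by
      rw [← hx.2]
      exact (toReal m).symm_apply_apply _
    have h1 := heq (chartAt (Cm m) a) p ⟨chart_mem_atlas _ a, hp⟩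
    have key : realG χ a x + K.ric (realG χ a) x = eta • realG w a x := by
      rw [hB.ric m X χ hχ a p x hx]
      unfold realG
      rw [hx2, ← hB.alg.add, ← hB.alg.smul, ← h1]
      exact congrArg realM (add_comm _ _)
    have h2 : eta • realG w a x - realG χ a x - K.ric (realG χ a) x = 0 := by
      rw [← key]
      abel
    rw [h2]
    exact Matrix.PosSemidef.zero
  · have hwc := P272.K.INT.IsKahler.isClosedForm hw
    have hdens := ((isClosedForm_canonical hψ).add (hwc.smul (eta : ℂ))).isDensity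
    have hint : IsIntegral (fun e z => (χ e z).det.re) (PP φ w eta) := by
      rw [PP_eq hφ hψ hwc]
      exact hdens.isIntegral
    rw [hTot m X χ μ (PP φ w eta) hχ.toIsHermitian hμ hint]
    exact ENNReal.ofReal_le_ofReal
      (mul_le_mul_of_nonneg_left (PP_mono hw hnef hφ heta.le) (by positivity))

/-- The sharp inequality for holomorphic maps. -/
theorem sharp (hB : Blocks) (hTot : SpecTot) (hArea : SpecArea) (hKH : SpecKHol) (hm : 2 ≤ m)
    {w : Chart m X → Cm m → Matrix (Fin m) (Fin m) ℂ} (hw : IsKahler w) (hnef : NefCanonical w 0)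
    {φ : Chart m X → Cm m → ℝ} (hφ : IsCanonicalMetric φ) {I : ℝ}
    (hI : IsIntegral (fun e z => (cHess (φ e) z).det.re) I)
    {d : ℕ} {Y : Type} [TopologicalSpace Y] [T2Space Y] [CompactSpace Y] [MeasurableSpace Y]
    [BorelSpace Y] {c' : Y → K.Ch (m + m) Y} (hY : K.Atl (stdJ m) c') {f : Y → X}
    (hf : Hol (stdJ m) c' (realAtlas m X) f) (hd : DegGe c' (realAtlas m X) f d)
    {g : Y → (Fin (m + m) → ℝ) → Matrix (Fin (m + m)) (Fin (m + m)) ℝ}
    (hg : K.Herm (stdJ m) c' g) {μ : Measure Y} (hμ : K.Vol c' g μ) :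
    d * ENNReal.ofReal (2 ^ m * I) ≤ K.I c' g μ := by
  let _ : MeasurableSpace X := borel X
  have : BorelSpace X := ⟨rfl⟩
  have hwc := P272.K.INT.IsKahler.isClosedForm hw
  have h0 : I = PP φ w 0 := by
    rw [← intX_eq_of_isIntegral hI]
    unfold PP
    refine intX_congr fun e x _ => ?_
    rw [Complex.ofReal_zero, zero_smul, add_zero]
  rw [h0]
  exact Kholo hArea hKH (by omega) (hB.alg.sqr m) (hB.atl m X)
    (hB.herm m X w hw.toIsHermitian) (fun eta heta => yau_vol hB hTot hw hnef hφ eta heta)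
    hY hf hd hg hμ

end

end Vale.Agent.P223.H959
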