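import Vale.Agent.P223.Bdl.B1

/-! Blocks for holomorphic maps (instead of coverings). -/

open scoped ContDiff Manifold Matrix
open MeasureTheory

namespace Vale.Agent.P223.H959

/-- BLOCK G1: the area inequality for a holomorphic map of degree `≥ d` (every regular value has at
least `d` preimages). -/
def SpecArea : Prop := ∀ (n : ℕ) (J : Matrix (Fin n) (Fin n) ℝ) (M N : Type)
  [TopologicalSpace M] [ChartedSpace (Fin n → ℝ) M] [MeasurableSpace M] [BorelSpace M]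
  [IsManifold 𝓘(ℝ, Fin n → ℝ) ∞ M] [CompactSpace M] [T2Space M]
  [TopologicalSpace N] [ChartedSpace (Fin n → ℝ) N] [MeasurableSpace N] [BorelSpace N]
  [IsManifold 𝓘(ℝ, Fin n → ℝ) ∞ N] [CompactSpace N] [T2Space N] (f : M → N)
  (g : RMetric (Fin n) M) (μ : Measure M) (g0 : RMetric (Fin n) N) (μ0 : Measure N) (d : ℕ),
  J * J = -1 → IsVol g μ → IsVol g0 μ0 → HoloMap J f →
  (∀ y : N, (∀ p, f p = y → relJac g g0 f p ≠ 0) → (d : ℕ∞) ≤ (f ⁻¹' {y}).encard) →
  d * μ0 Set.univ ≤ ∫⁻ p, ENNReal.ofReal (relJac g g0 f p) ∂μ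

/-- `f` is a holomorphic map, in charts. -/
def Hol {n : ℕ} {X Y : Type} [TopologicalSpace X] [TopologicalSpace Y]
    (A : Matrix (Fin n) (Fin n) ℝ) (c' : Y → K.Ch n Y) (c : X → K.Ch n X) (f : Y → X) : Prop :=
  Continuous f ∧ ∀ a b p x y, K.At (c' a) p x → K.At (c b) (f p) y →
    (∀ i, K.Cinf (fun z => c b (f ((c' a).symm z)) i) x) ∧
    K.jac (fun z => c b (f ((c' a).symm z))) x * A = A * K.jac (fun z => c b (f ((c' a).symm z))) x

/-- Every regular value of `f` has at least `d` preimages (the degree of `f` is `≥ d`). -/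
def DegGe {n : ℕ} {X Y : Type} [TopologicalSpace X] [TopologicalSpace Y]
    (c' : Y → K.Ch n Y) (c : X → K.Ch n X) (f : Y → X) (d : ℕ) : Prop :=
  ∀ q, (∀ a b p x y, f p = q → K.At (c' a) p x → K.At (c b) q y →
      (K.jac (fun z => c b (f ((c' a).symm z))) x).det ≠ 0) → (d : ℕ∞) ≤ (f ⁻¹' {q}).encard

/-- BLOCK G3: from `K` to the notions of `SpecArea` and `main_ineq`. -/
def SpecKHol : Prop := ∀ (n : ℕ) (A : Matrix (Fin n) (Fin n) ℝ) (X Y : Type) [TopologicalSpace X]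
  [T2Space X] [CompactSpace X] [MeasurableSpace X] [BorelSpace X] [TopologicalSpace Y] [T2Space Y]
  [CompactSpace Y] [MeasurableSpace Y] [BorelSpace Y] (c : X → K.Ch n X) (c' : Y → K.Ch n Y)
  (hc : K.Atl A c) (hc' : K.Atl A c') (f : Y → X) (d : ℕ) (g : Y → (Fin n → ℝ) → Matrix (Fin n) (Fin n) ℝ)
  (g0 : X → (Fin n → ℝ) → Matrix (Fin n) (Fin n) ℝ) (hg : K.Herm A c' g) (hg0 : K.Herm A c g0),
  Hol A c' c f →
  letI := toCS hc; letI := toCS hc'
  HoloMap A f ∧ (DegGe c' c f d → ∀ y : X,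
    (∀ p, f p = y → relJac (toRM hc' hg) (toRM hc hg0) f p ≠ 0) → (d : ℕ∞) ≤ (f ⁻¹' {y}).encard)

end Vale.Agent.P223.H959
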