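import Vale.Agent.P223.H959.Real

/-! Blocks for the volume of a Kähler metric: `‖X‖ ≤ C_m c₁(K_X)^m`. -/

open scoped Manifold ContDiff
open MeasureTheory

namespace Vale.Agent.P223.H959

open Vale.Agent.P272.K (Cm Chart IsHermitian IsIntegral)

/-- BLOCK L1: `toReal` preserves Lebesgue measure. -/
def SpecLeb : Prop := ∀ m : ℕ, MeasurePreserving (toReal m) (volume : Measure (Cm m))
  (volume : Measure (Fin (m + m) → ℝ))

/-- BLOCK L2: the total Riemannian volume of a Hermitian metric. -/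
def SpecTot : Prop := ∀ (m : ℕ) (X : Type) [TopologicalSpace X] [T2Space X] [CompactSpace X]
  [MeasurableSpace X] [BorelSpace X] [ChartedSpace (Cm m) X] [IsManifold 𝓘(ℂ, Cm m) ω X]
  (χ : Chart m X → Cm m → Matrix (Fin m) (Fin m) ℂ) (μ : Measure X) (I : ℝ),
  IsHermitian χ → K.Vol (realAtlas m X) (realG χ) μ →
  IsIntegral (fun e z => (χ e z).det.re) I → μ Set.univ = ENNReal.ofReal (2 ^ m * I)

end Vale.Agent.P223.H959
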