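import Vale.Agent.P223.H959.SpecV
import Vale.Agent.P223.H959.F

/-! The simplicial volume and the top self-intersection of a nef canonical bundle. -/

open scoped Manifold ContDiff ComplexOrder Matrix Topology
open MeasureTheory Filter

namespace Vale.Agent.P223.H959

open Vale.Agent.P272.K (Cm Chart IsHermitian IsKahler cHess NefCanonical IsCanonicalMetric
  IsIntegral isKahler_twist)

section
variable {m : ℕ} {X : Type} [TopologicalSpace X] [T2Space X] [CompactSpace X]
  [ChartedSpace (Cm m) X] [IsManifold 𝓘(ℂ, Cm m) ω X]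

/-- Gromov's bound for the Kähler metrics of Yau. -/
theorem sv_le_PP (hB : Blocks) (hTot : SpecTot) (hm : 2 ≤ m) [ConnectedSpace X]
    {w : Chart m X → Cm m → Matrix (Fin m) (Fin m) ℂ} (hw : IsKahler w) (hnef : NefCanonical w 0)
    {φ : Chart m X → Cm m → ℝ} (hφ : IsCanonicalMetric φ) (t : ℝ) (ht : 0 < t) :
    K.sv (realAtlas m X) ≤ ENNReal.ofReal (J.kap (m + m) ^ (m + m)) *
      ENNReal.ofReal (2 ^ m * P272.K.INT.PP φ w t) := by
  let _ : MeasurableSpace X := borel X
  have : BorelSpace X := ⟨rfl⟩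
  have hn4 : 4 ≤ m + m := by omega
  have hJ := hB.alg.sqr m
  obtain ⟨ψ, hψ, hpos, heq⟩ := Vale.Agent.P272.K.AMP.NF.ke_of_nef
    (Vale.Agent.P272.K.aubinYau m X) hw le_rfl hnef t ht
  have hχ := isKahler_twist hψ hw t hpos
  set χ : Chart m X → Cm m → Matrix (Fin m) (Fin m) ℂ :=
    fun e z => cHess (ψ e) z + (t : ℂ) • w e z with hχd
  have hherm := hB.herm m X χ hχ.toIsHermitian
  obtain ⟨μ, hμ⟩ := hB.vol _ (stdJ m) X (realAtlas m X) (realG χ) (hB.atl m X) hherm
  have hric : ∀ a p x, K.At (realAtlas m X a) p x →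
      (realG χ a x + K.ric (realG χ a) x).PosSemidef := by
    intro a p x hx
    have hp : p ∈ (chartAt (Cm m) a).source := by
      have := hx.1
      simpa [realAtlas] using this
    have hx2 : (toReal m).symm x = chartAt (Cm m) a p := by
      rw [← hx.2]
      exact (toReal m).symm_apply_apply _
    have h1 := heq (chartAt (Cm m) a) p ⟨chart_mem_atlas _ a, hp⟩
    have h2 : realG χ a x + K.ric (realG χ a) x = t • realG w a x := by
      rw [hB.ric m X χ hχ a p x hx]
      unfold realG
      rw [hx2, ← hB.alg.add, ← hB.alg.smul, ← h1]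
      exact congrArg realM (add_comm _ _)
    rw [h2]
    refine Matrix.PosSemidef.smul (hB.alg.posSemidef m _ ?_) ht.le
    rw [hx2]
    exact (hw.posDef _ p ⟨chart_mem_atlas _ a, hp⟩).posSemidef
  have hwc := P272.K.INT.IsKahler.isClosedForm hw
  have hdens := ((P272.K.INT.isClosedForm_canonical hψ).add (hwc.smul (t : ℂ))).isDensity
  have hint : IsIntegral (fun e z => (χ e z).det.re) (P272.K.INT.PP φ w t) := by
    rw [P272.K.INT.PP_eq hφ hψ hwc]
    exact hdens.isIntegral
  have htot := hTot m X χ μ (P272.K.INT.PP φ w t) hχ.toIsHermitian hμ hint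
  have h6 := Vale.Agent.P223.X.FinalM.ricci Vale.Agent.P223.X.hb Vale.Agent.P223.X.hu hn4
    (atl hJ (hB.atl m X) hherm) (realG χ) μ (met (hB.atl m X) hherm) (vol hμ) (fun _ => 1)
    continuous_const (fun _ => zero_le_one) (ricGe hherm hric)
  rw [L_one, htot] at h6
  exact sv_le.trans h6

/-- The simplicial volume is at most a constant times the top self-intersection of `K_X`. -/
theorem sv_le_top (hB : Blocks) (hTot : SpecTot) (hm : 2 ≤ m) [ConnectedSpace X]
    {w : Chart m X → Cm m → Matrix (Fin m) (Fin m) ℂ} (hw : IsKahler w) (hnef : NefCanonical w 0)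
    {φ : Chart m X → Cm m → ℝ} (hφ : IsCanonicalMetric φ) :
    ∃ I : ℝ, IsIntegral (fun e z => (cHess (φ e) z).det.re) I ∧
      K.sv (realAtlas m X) ≤ ENNReal.ofReal (J.kap (m + m) ^ (m + m) * (2 ^ m * I)) := by
  have hwc := P272.K.INT.IsKahler.isClosedForm hw
  have h0 : (fun (e : Chart m X) z => (cHess (φ e) z + ((0 : ℝ) : ℂ) • w e z).det.re) =
      fun e z => (cHess (φ e) z).det.re := by
    funext e z
    rw [Complex.ofReal_zero, zero_smul, add_zero]
  have hk : 0 ≤ J.kap (m + m) ^ (m + m) := by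
    have h1 : (4 : ℝ) ≤ ((m + m : ℕ) : ℝ) := by
      have : 4 ≤ m + m := by omega
      exact_mod_cast this
    have h2 : 0 ≤ √((m + m : ℕ) : ℝ) := Real.sqrt_nonneg _
    refine pow_nonneg ?_ _
    unfold J.kap
    linarith only [h1, h2]
  refine ⟨P272.K.INT.PP φ w 0, ?_, ?_⟩
  · rw [← h0]
    exact ((P272.K.INT.isClosedForm_canonical hφ).add
      (hwc.smul ((0 : ℝ) : ℂ))).isDensity.isIntegral
  · have hcont : Continuous (P272.K.INT.PP φ w) :=
      continuous_iff_continuousAt.2 fun t => (P272.K.INT.PP_hasDerivAt hφ hwc t).continuousAt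
    have hlim : Tendsto (fun t => ENNReal.ofReal (J.kap (m + m) ^ (m + m) *
        (2 ^ m * P272.K.INT.PP φ w t))) (𝓝[>] 0)
        (𝓝 (ENNReal.ofReal (J.kap (m + m) ^ (m + m) * (2 ^ m * P272.K.INT.PP φ w 0)))) :=
      ((ENNReal.continuous_ofReal.comp
        (continuous_const.mul (continuous_const.mul hcont))).tendsto 0).mono_left
          nhdsWithin_le_nhds
    refine ge_of_tendsto hlim ?_
    filter_upwards [self_mem_nhdsWithin] with t ht
    rw [ENNReal.ofReal_mul hk]
    exact sv_le_PP hB hTot hm hw hnef hφ t ht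

end

end Vale.Agent.P223.H959
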