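import Vale.Agent.P223.H959.V
import Vale.Agent.Results.P285.NonposHSC

/-! Positivity of the canonical bundle from the simplicial volume. -/

open scoped Manifold ContDiff ComplexOrder

namespace Vale.Agent.P223.H959

open Vale.Agent.P272.K Vale.Agent.Results.P285.NonposHSC

theorem kap_eq (m : ℕ) : J.kap (m + m) = 2 * m - 2 + √(2 * m) := by
  unfold J.kap
  have h : ((m + m : ℕ) : ℝ) = 2 * m := by
    push_cast
    ring
  rw [h]

theorem volume_bound (hB : Blocks) (hTot : SpecTot) {m : ℕ} (hm : 2 ≤ m) (X : Type)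
    [TopologicalSpace X] [T2Space X] [CompactSpace X] [ConnectedSpace X] [ChartedSpace (Cm m) X]
    [IsManifold 𝓘(ℂ, Cm m) ω X] (w : Chart m X → Cm m → Matrix (Fin m) (Fin m) ℂ)
    (hw : IsKahler w) (hnef : NefCanonical w 0) :
    (∀ φ : Chart m X → Cm m → ℝ, IsCanonicalMetric φ → ∃ I : ℝ,
      IsIntegral (fun e z => (cHess (φ e) z).det.re) I ∧ K.sv (realAtlas m X) ≤
        ENNReal.ofReal ((2 * m - 2 + √(2 * m)) ^ (2 * m) * 2 ^ m * I)) ∧
    (K.sv (realAtlas m X) ≠ 0 → TopPositive m X ∧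
      ∀ h : Chart m X → Cm m → Matrix (Fin m) (Fin m) ℂ, IsHermitian h →
        Vale.Agent.P272.K.NonposHSC h → PositiveCanonical m X) := by
  have key : ∀ φ : Chart m X → Cm m → ℝ, IsCanonicalMetric φ → ∃ I : ℝ,
      IsIntegral (fun e z => (cHess (φ e) z).det.re) I ∧ K.sv (realAtlas m X) ≤
        ENNReal.ofReal ((2 * m - 2 + √(2 * m)) ^ (2 * m) * 2 ^ m * I) := by
    intro φ hφ
    obtain ⟨I, h1, h2⟩ := sv_le_top hB hTot hm hw hnef hφ
    refine ⟨I, h1, h2.trans_eq ?_⟩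
    rw [kap_eq, show m + m = 2 * m by ring, mul_assoc]
  refine ⟨key, fun h0 => ?_⟩
  have htop : TopPositive m X := by
    obtain ⟨φ, hφ, -⟩ := hnef 1 one_pos
    obtain ⟨I, h1, h2⟩ := key φ hφ
    refine ⟨φ, hφ, I, ?_, h1⟩
    by_contra hI
    push Not at hI
    apply h0
    refine le_antisymm (h2.trans_eq (ENNReal.ofReal_eq_zero.2 ?_)) bot_le
    refine mul_nonpos_of_nonneg_of_nonpos ?_ hI
    rw [pow_mul]
    positivity
  exact ⟨htop, fun h hh hneg => (result m (by omega) X w h hw hh hneg).2 (Or.inl htop)⟩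

end Vale.Agent.P223.H959
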