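import Vale.Agent.P223.H959.V

/-! The simplicial volume and the top self-intersection of a nef canonical bundle, explicit
constant. -/

open scoped Manifold ContDiff ComplexOrder

namespace Vale.Agent.P223.H959

open Vale.Agent.P272.K

theorem kap_eq' (m : ℕ) : J.kap (m + m) = 2 * m - 2 + √(2 * m) := by
  unfold J.kap
  have h : ((m + m : ℕ) : ℝ) = 2 * m := by
    push_cast
    ring
  rw [h]

theorem volume_bound' (hB : Blocks) (hTot : SpecTot) {m : ℕ} (hm : 2 ≤ m) (X : Type)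
    [TopologicalSpace X] [T2Space X] [CompactSpace X] [ConnectedSpace X] [ChartedSpace (Cm m) X]
    [IsManifold 𝓘(ℂ, Cm m) ω X] (w : Chart m X → Cm m → Matrix (Fin m) (Fin m) ℂ)
    (hw : IsKahler w) (hnef : NefCanonical w 0) (φ : Chart m X → Cm m → ℝ)
    (hφ : IsCanonicalMetric φ) : ∃ I : ℝ,
      IsIntegral (fun e z => (cHess (φ e) z).det.re) I ∧ K.sv (realAtlas m X) ≤
        ENNReal.ofReal ((2 * m - 2 + √(2 * m)) ^ (2 * m) * 2 ^ m * I) ∧
      (K.sv (realAtlas m X) ≠ 0 → 0 < I) := by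
  obtain ⟨I, h1, h2⟩ := sv_le_top hB hTot hm hw hnef hφ
  have h3 : K.sv (realAtlas m X) ≤
      ENNReal.ofReal ((2 * m - 2 + √(2 * m)) ^ (2 * m) * 2 ^ m * I) := by
    refine h2.trans_eq ?_
    rw [kap_eq', show m + m = 2 * m by ring, mul_assoc]
  refine ⟨I, h1, h3, fun h0 => ?_⟩
  by_contra hI
  push Not at hI
  apply h0
  refine le_antisymm (h3.trans_eq (ENNReal.ofReal_eq_zero.2 ?_)) bot_le
  refine mul_nonpos_of_nonneg_of_nonpos ?_ hI
  rw [pow_mul]
  positivity

end Vale.Agent.P223.H959
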