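import Vale.Agent.P223.H959.KE

/-! The zero form. -/

open scoped Manifold ContDiff ComplexOrder Matrix

namespace Vale.Agent.P223.H959

open Vale.Agent.P272.K Vale.Agent.P272.K.INT

variable {m : ℕ} {X : Type} [TopologicalSpace X] [ChartedSpace (Cm m) X]

theorem closed_zero : IsClosed11 (fun (_ : Chart m X) (_ : Cm m) => (0 : Matrix (Fin m) (Fin m) ℂ)) where
  smooth _ _ _ _ _ := contDiffAt_const
  change _ _ _ _ _ := by simp
  closed _ _ _ _ _ _ := by
    simp [dz]

theorem cHess_zero' (z : Cm m) : cHess (fun _ => (0 : ℝ)) z = 0 := by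
  have h : ∀ j : Fin m, (dzb j fun _ : Cm m => ((0 : ℝ) : ℂ)) = fun _ => 0 := by
    intro j
    funext z
    simp [dzb]
  ext i j
  simp only [cHess, Matrix.of_apply, h, Matrix.zero_apply]
  simp [dz]

theorem nefForm_zero {w : Chart m X → Cm m → Matrix (Fin m) (Fin m) ℂ} (hw : IsKahler w) :
    NefForm w (fun _ _ => 0) := by
  intro ε hε
  refine ⟨fun _ => 0, fun _ _ _ => contDiffAt_const, fun e x hx => ?_⟩
  rw [cHess_zero', add_zero, zero_add]
  exact (posDef_ofReal_smul (hw.posDef e x hx) hε).posSemidef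

theorem nefAdjoint_zero {w : Chart m X → Cm m → Matrix (Fin m) (Fin m) ℂ}
    (h : NefCanonical w 0) : NefAdjoint w (fun _ _ => 0) := by
  intro ε hε
  obtain ⟨φ, h1, h2⟩ := h ε hε
  refine ⟨φ, h1, fun e x hx => ?_⟩
  have h3 := h2 e x hx
  rw [zero_add] at h3
  rwa [add_zero]

/-- The volume bound for a nef canonical bundle. -/
theorem canonical_bound (hB : Blocks) (hTot : SpecTot) {m : ℕ} (hm : 2 ≤ m) (X : Type)
    [TopologicalSpace X] [T2Space X] [CompactSpace X] [ConnectedSpace X] [ChartedSpace (Cm m) X]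
    [IsManifold 𝓘(ℂ, Cm m) ω X] (w : Chart m X → Cm m → Matrix (Fin m) (Fin m) ℂ)
    (hw : IsKahler w) (hnef : NefCanonical w 0) (φ : Chart m X → Cm m → ℝ)
    (hφ : IsCanonicalMetric φ) : ∃ I : ℝ, 0 ≤ I ∧
      IsIntegral (fun e z => (cHess (φ e) z).det.re) I ∧ K.sv (realAtlas m X) ≤
        ENNReal.ofReal ((2 * m - 2 + √(2 * m)) ^ (2 * m) * 2 ^ m * I) ∧
      (K.sv (realAtlas m X) ≠ 0 → 0 < I) := by
  obtain ⟨I, h0, h1, h2⟩ := adjoint_bound hB hTot hm hw closed_zero (nefForm_zero hw)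
    (nefAdjoint_zero hnef) hφ
  refine ⟨I, h0, ?_, h2⟩
  simpa only [add_zero] using h1

end Vale.Agent.P223.H959
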